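import Vale.Agent.P173F.Ftl

/-! The cohomological dimension of the group is two. -/

open CategoryTheory CategoryTheory.Limits

namespace Vale.Agent.P173F

open Vale.Agent.P173

/-- In an abelian category, if `C₃ → C₂ → C₁ → C₀ → T → 0` is exact with `C₁, C₂` projective,
`C₀` of projective dimension at most one and `C₃ → C₂` split, then `T` has projective dimension at
most `2`. -/
theorem pd_le_two_of_split {C : Type*} [Category C] [Abelian C]
    {C3 C2 C1 C0 T : C} [Projective C2] [Projective C1] (h0 : HasProjectiveDimensionLT C0 2)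
    (d3 : C3 ⟶ C2) (d2 : C2 ⟶ C1) (d1 : C1 ⟶ C0) (e : C0 ⟶ T)
    (h32 : d3 ≫ d2 = 0) (h21 : d2 ≫ d1 = 0) (h10 : d1 ≫ e = 0)
    (ex2 : (ShortComplex.mk d3 d2 h32).Exact) (ex1 : (ShortComplex.mk d2 d1 h21).Exact)
    (ex0 : (ShortComplex.mk d1 e h10).Exact) [Epi e]
    (r : C2 ⟶ C3) (hr : d3 ≫ r = 𝟙 C3) : HasProjectiveDimensionLE T 2 := by
  let f1 : C1 ⟶ kernel e := kernel.lift e d1 h10
  have hf1 : f1 ≫ kernel.ι e = d1 := kernel.lift_ι _ _ _
  have hf1e : Epi f1 := (ShortComplex.exact_iff_epi_kernel_lift _).1 ex0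
  have S1 : (ShortComplex.mk (kernel.ι e) e (kernel.condition e)).ShortExact :=
    { exact := ShortComplex.exact_kernel e }
  have h21' : d2 ≫ f1 = 0 := by
    rw [← cancel_mono (kernel.ι e), Category.assoc, hf1, h21, zero_comp]
  let f2 : C2 ⟶ kernel f1 := kernel.lift f1 d2 h21'
  have hf2 : f2 ≫ kernel.ι f1 = d2 := kernel.lift_ι _ _ _
  have ex1' : (ShortComplex.mk d2 f1 h21').Exact := by
    let φ : ShortComplex.mk d2 f1 h21' ⟶ ShortComplex.mk d2 d1 h21 :=
      { τ₁ := 𝟙 _, τ₂ := 𝟙 _, τ₃ := kernel.ι e, comm₂₃ := by simp [hf1] }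
    have : Epi φ.τ₁ := by dsimp [φ]; infer_instance
    have : IsIso φ.τ₂ := by dsimp [φ]; infer_instance
    have : Mono φ.τ₃ := by dsimp [φ]; infer_instance
    exact (ShortComplex.exact_iff_of_epi_of_isIso_of_mono φ).2 ex1
  have hf2e : Epi f2 := (ShortComplex.exact_iff_epi_kernel_lift _).1 ex1'
  have S2 : (ShortComplex.mk (kernel.ι f1) f1 (kernel.condition f1)).ShortExact :=
    { exact := ShortComplex.exact_kernel f1 }
  have h32' : d3 ≫ f2 = 0 := by
    rw [← cancel_mono (kernel.ι f1), Category.assoc, hf2, h32, zero_comp]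
  have ex2' : (ShortComplex.mk d3 f2 h32').Exact := by
    let φ : ShortComplex.mk d3 f2 h32' ⟶ ShortComplex.mk d3 d2 h32 :=
      { τ₁ := 𝟙 _, τ₂ := 𝟙 _, τ₃ := kernel.ι f1, comm₂₃ := by simp [hf2] }
    have : Epi φ.τ₁ := by dsimp [φ]; infer_instance
    have : IsIso φ.τ₂ := by dsimp [φ]; infer_instance
    have : Mono φ.τ₃ := by dsimp [φ]; infer_instance
    exact (ShortComplex.exact_iff_of_epi_of_isIso_of_mono φ).2 ex2
  have hk : d3 ≫ (𝟙 C2 - r ≫ d3) = 0 := by
    rw [Preadditive.comp_sub, Category.comp_id, ← Category.assoc, hr, Category.id_comp, sub_self]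
  let σ : kernel f1 ⟶ C2 := ex2'.desc (𝟙 C2 - r ≫ d3) hk
  have hσ : f2 ≫ σ = 𝟙 C2 - r ≫ d3 := ex2'.g_desc _ _
  have hret : σ ≫ f2 = 𝟙 _ := by
    rw [← cancel_epi f2, ← Category.assoc, hσ, Preadditive.sub_comp, Category.id_comp,
      Category.assoc, h32', comp_zero, sub_zero, Category.comp_id]
  have hproj : Projective (kernel f1) := (⟨σ, f2, hret⟩ : Retract (kernel f1) C2).projective
  have p1 : HasProjectiveDimensionLT (kernel f1) 1 := inferInstance
  have p2 : HasProjectiveDimensionLT (kernel e) 2 :=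
    S2.hasProjectiveDimensionLT_X₃ 1 p1 inferInstance
  have h3 : HasProjectiveDimensionLT C0 3 := hasProjectiveDimensionLT_of_ge C0 2 3 (by omega)
  exact S1.hasProjectiveDimensionLT_X₃ 2 p2 h3

namespace Cx

variable {V : Type} [MulAction Q2 V] (C : Cx V)

theorem cell_free_act {S : Type} [MulAction Q2 S] (hS : ∀ (q : Q2) (s : S), q • s = s → q = 1)
    (k : C.GG) (c : C.Cell S) (h : k • c = c) : k = 1 := by
  obtain ⟨g, s⟩ := c
  rw [smul_cell'] at h
  have h1 : k.1.right = 1 := hS _ s (congrArg Cell.s h)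
  have h2 : k.1.left * C.act k.1.right g = g := congrArg Cell.g h
  rw [h1, map_one, MulAut.one_apply, mul_eq_right] at h2
  exact Subtype.ext (SemidirectProduct.ext h2 h1)

theorem smul_gen {S : Type} [MulAction Q2 S] (k : C.GG) (g : C.Raag) (v : V) (s : S) :
    k • (⟨g * C.gen v, s⟩ : C.Cell S) =
      ⟨k.1.left * C.act k.1.right g * C.gen (k.1.right • v), k.1.right • s⟩ := by
  rw [smul_cell', map_mul, act_gen, mul_assoc]

theorem d1_smul (k : C.GG) (c : C.Cell V) :
    C.d1 (k • c) = permRho ℤ C.GG (C.Cell Unit) k (C.d1 c) := by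
  obtain ⟨g, s⟩ := c
  rw [smul_cell', d1, d1, map_sub, permRho_single, permRho_single, smul_gen, smul_cell']

theorem d2_smul (k : C.GG) (c : C.Cell C.Ed) :
    C.d2 (k • c) = permRho ℤ C.GG (C.Cell V) k (C.d2 c) := by
  obtain ⟨g, s⟩ := c
  rw [smul_cell', d2, d2]
  simp only [map_sub, permRho_single, smul_cell', map_mul, act_gen, mul_assoc, Ed.smul_u,
    Ed.smul_v]

theorem d3_smul (k : C.GG) (c : C.Cell C.Tr) :
    C.d3 (k • c) = permRho ℤ C.GG (C.Cell C.Ed) k (C.d3 c) := by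
  obtain ⟨g, s⟩ := c
  rw [smul_cell', d3, d3]
  simp only [map_add, map_sub, permRho_single, smul_cell', map_mul, act_gen, mul_assoc, Tr.smul_u,
    Tr.smul_v, Tr.smul_w, Tr.smul_e0, Tr.smul_e1, Tr.smul_e2]

/-- The upper bound for the cohomological dimension. -/
theorem cd_le (h : C.CubeRet)
    (h0 : HasProjectiveDimensionLT (permRep ℤ C.GG (C.Cell Unit)) 2) :
    HasProjectiveDimensionLE (Rep.trivial ℤ C.GG ℤ) 2 := by
  obtain ⟨rf, hrf, hret⟩ := h
  have P2 : Projective (permRep ℤ C.GG (C.Cell C.Ed)) := permRep_projective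
    (C.cell_free_act fun q e he => C.free q e.u (congrArg Ed.u he))
  have P1 : Projective (permRep ℤ C.GG (C.Cell V)) := permRep_projective (C.cell_free_act C.free)
  let D3 : permRep ℤ C.GG (C.Cell C.Tr) ⟶ permRep ℤ C.GG (C.Cell C.Ed) :=
    permLift (permRep ℤ C.GG (C.Cell C.Ed)) C.d3 C.d3_smul
  let D2 : permRep ℤ C.GG (C.Cell C.Ed) ⟶ permRep ℤ C.GG (C.Cell V) :=
    permLift (permRep ℤ C.GG (C.Cell V)) C.d2 C.d2_smul
  let D1 : permRep ℤ C.GG (C.Cell V) ⟶ permRep ℤ C.GG (C.Cell Unit) :=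
    permLift (permRep ℤ C.GG (C.Cell Unit)) C.d1 C.d1_smul
  let D0 : permRep ℤ C.GG (C.Cell Unit) ⟶ Rep.trivial ℤ C.GG ℤ :=
    permLift (Rep.trivial ℤ C.GG ℤ) (fun _ => (1 : ℤ)) (fun _ _ => rfl)
  let Rr : permRep ℤ C.GG (C.Cell C.Ed) ⟶ permRep ℤ C.GG (C.Cell C.Tr) :=
    permLift (permRep ℤ C.GG (C.Cell C.Tr)) rf hrf
  have h32 : D3 ≫ D2 = 0 := by
    apply perm_hom_ext
    intro q
    rw [Rep.hom_comp, Representation.IntertwiningMap.comp_apply]
    change D2.hom (D3.hom (Finsupp.single q (1 : ℤ))) = 0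
    rw [permLift_single]
    exact C.d2_d3 q
  have h21 : D2 ≫ D1 = 0 := by
    apply perm_hom_ext
    intro q
    rw [Rep.hom_comp, Representation.IntertwiningMap.comp_apply]
    change D1.hom (D2.hom (Finsupp.single q (1 : ℤ))) = 0
    rw [permLift_single]
    exact C.d1_d2 q
  have h10 : D1 ≫ D0 = 0 := by
    apply perm_hom_ext
    intro q
    rw [Rep.hom_comp, Representation.IntertwiningMap.comp_apply]
    change D0.hom (D1.hom (Finsupp.single q (1 : ℤ))) = 0
    rw [permLift_single]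
    exact C.d0_d1 q
  have hr : D3 ≫ Rr = 𝟙 _ := by
    apply perm_hom_ext
    intro q
    rw [Rep.hom_comp, Representation.IntertwiningMap.comp_apply]
    change Rr.hom (D3.hom (Finsupp.single q (1 : ℤ))) = Finsupp.single q 1
    rw [permLift_single]
    exact hret q
  have hepi : Epi D0 := by
    rw [Rep.epi_iff_surjective]
    intro n
    refine ⟨Finsupp.single ⟨1, ()⟩ n, ?_⟩
    change Finsupp.linearCombination ℤ (fun _ : C.Cell Unit => (1 : ℤ)) _ = n
    rw [Finsupp.linearCombination_single]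
    simp
  exact pd_le_two_of_split h0 D3 D2 D1 D0 h32 h21 h10
    (rep_exact_of _ _ h32 (fun z hz => C.exact_two z hz))
    (rep_exact_of _ _ h21 (fun z hz => C.exact_one z hz))
    (rep_exact_of _ _ h10 (fun z hz => C.exact_zero z hz)) Rr hr

/-- The element `a u⁻¹` of the group. -/
def quot (a u : V) : C.GG := ⟨SemidirectProduct.inl (C.gen a * (C.gen u)⁻¹), by
  rw [mem_GG, SemidirectProduct.left_inl, ht_mul, ht_inv, ht_gen, ht_gen, add_neg_cancel]⟩

theorem wt_quot (f : Fin 3 → ℤ) (a u : V) :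
    Multiplicative.toAdd (C.wt f (C.quot a u).1) = f (C.col a) - f (C.col u) := by
  rw [wt_apply]
  show Multiplicative.toAdd (C.wt0 f (C.gen a * (C.gen u)⁻¹)) = _
  rw [map_mul, map_inv, wt0_gen, wt0_gen, toAdd_mul, toAdd_inv, toAdd_ofAdd, toAdd_ofAdd,
    sub_eq_add_neg]

/-- The lower bound for the cohomological dimension. -/
theorem cd_ge (t : C.Tr) : ¬ HasProjectiveDimensionLT (Rep.trivial ℤ C.GG ℤ) 2 := by
  refine not_hasProjectiveDimensionLT_two (C.quot t.v t.u) (C.quot t.w t.u) ?_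
    (fun g => Multiplicative.toAdd (C.wt (fun i => if i = 1 then 1 else 0) g.1))
    (fun g => Multiplicative.toAdd (C.wt (fun i => if i = 2 then 1 else 0) g.1))
    (fun g h => by rw [Subgroup.coe_mul, map_mul, toAdd_mul])
    (fun g h => by rw [Subgroup.coe_mul, map_mul, toAdd_mul]) ?_ ?_ ?_
  · apply Subtype.ext
    show SemidirectProduct.inl (C.gen t.v * (C.gen t.u)⁻¹) *
        SemidirectProduct.inl (C.gen t.w * (C.gen t.u)⁻¹) =
      (SemidirectProduct.inl (C.gen t.w * (C.gen t.u)⁻¹) *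
        SemidirectProduct.inl (C.gen t.v * (C.gen t.u)⁻¹) : C.Hat)
    rw [← map_mul, ← map_mul]
    have h1 : Commute (C.gen t.u) (C.gen t.v) := C.gen_comm t.huv
    have h2 : Commute (C.gen t.u) (C.gen t.w) := C.gen_comm t.huw
    have h3 : Commute (C.gen t.v) (C.gen t.w) := C.gen_comm t.hvw
    have h4 : Commute (C.gen t.v * (C.gen t.u)⁻¹) (C.gen t.w * (C.gen t.u)⁻¹) :=
      (h3.mul_right h1.symm.inv_right).mul_left
        (h2.inv_left.mul_right (Commute.refl _))
    rw [h4.eq]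
  · show Multiplicative.toAdd (C.wt _ (C.quot t.v t.u).1) = 1
    rw [wt_quot, t.cu, t.cv]
    decide
  · show Multiplicative.toAdd (C.wt _ (C.quot t.w t.u).1) = 1
    rw [wt_quot, t.cu, t.cw]
    decide
  · show Multiplicative.toAdd (C.wt _ (C.quot t.w t.u).1) = 0
    rw [wt_quot, t.cu, t.cw]
    decide

/-- The cohomological dimension is two. -/
theorem cd_eq (h : C.CubeRet) (h0 : HasProjectiveDimensionLT (permRep ℤ C.GG (C.Cell Unit)) 2)
    (t : C.Tr) : projectiveDimension (Rep.trivial ℤ C.GG ℤ) = 2 :=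
  pd_eq_two _ (C.cd_le h h0) (C.cd_ge t)

end Cx

end Vale.Agent.P173F
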