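import Vale.Agent.P173F.Defs

/-! The tower argument on a coarse copy of the scaled complex. -/

namespace Vale.Agent.P173F

open Vale.Agent.P173 Vale.Agent.P173.Hol

universe u

section Words

variable {G : Type} [Group G] {X R : Type u}

/-- Finitely many faces fill a closed word, uniformly in the base point. -/
theorem exists_fill (φ : X → G) (rel : R → FreeGroup X)
    (hrel : ∀ r, FreeGroup.lift φ (rel r) = 1) (w : FreeGroup X)
    (hw : w ∈ Subgroup.normalClosure (Set.range rel)) :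
    ∃ T : Set (R × G), T.Finite ∧ ∀ {L : Type} [Group L] (z : X → G → L) (h : G),
      (∀ p ∈ T, hol φ z (rel p.1) (p.2 * h) = 1) → hol φ z w h = 1 := by
  rw [Subgroup.normalClosure] at hw
  induction hw using Subgroup.closure_induction with
  | mem g hg =>
    rw [Group.mem_conjugatesOfSet_iff] at hg
    obtain ⟨a, ⟨r, rfl⟩, hc⟩ := hg
    obtain ⟨c, rfl⟩ := isConj_iff.mp hc
    refine ⟨{(r, (FreeGroup.lift φ c)⁻¹)}, Set.finite_singleton _, fun z h hz => ?_⟩
    have := hz _ (Set.mem_singleton _)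
    rw [mul_assoc, hol_mul, hol_mul, map_inv, this, one_mul, map_mul, hrel, one_mul, hol_inv,
      map_inv, mul_inv_cancel]
  | one => exact ⟨∅, Set.finite_empty, fun z h _ => hol_one _ _ _⟩
  | mul u v _ _ hu hv =>
    obtain ⟨F1, f1, h1⟩ := hu
    obtain ⟨F2, f2, h2⟩ := hv
    refine ⟨(fun p => (p.1, p.2 * FreeGroup.lift φ v)) '' F1 ∪ F2, (f1.image _).union f2,
      fun z h hz => ?_⟩
    rw [hol_mul, h1 z _ fun p hp => ?_, h2 z h fun p hp => hz p (Or.inr hp), one_mul]
    have := hz _ (Or.inl ⟨p, hp, rfl⟩)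
    rwa [mul_assoc] at this
  | inv u _ hu =>
    obtain ⟨F1, f1, h1⟩ := hu
    refine ⟨(fun p => (p.1, p.2 * (FreeGroup.lift φ u)⁻¹)) '' F1, f1.image _, fun z h hz => ?_⟩
    rw [hol_inv, h1 z _ fun p hp => ?_, inv_one]
    have := hz _ ⟨p, hp, rfl⟩
    rwa [mul_assoc] at this

/-- The cochain pulled back along a labelling of the vertices. -/
def pull {V B : Type} (φ : X → G) (Lab : G → V) (ω : V → V → B) : X → G → B :=
  fun x h => ω (Lab h) (Lab (φ x * h))

/-- A word visits finitely many vertices; a pulled back cochain telescopes along it. -/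
theorem exists_visit (φ : X → G) (w : FreeGroup X) :
    ∃ K : Set G, K.Finite ∧ (1 : G) ∈ K ∧ FreeGroup.lift φ w ∈ K ∧
      ∀ {V B : Type} [AddCommGroup B] (Lab : G → V) (ω : V → V → B) (P : V → Prop)
        (_ : ∀ a b c, P a → P b → P c → ω a b + ω b c = ω a c) (h : G),
        (∀ k ∈ K, P (Lab (k * h))) →
          S φ (pull φ Lab ω) w h = ω (Lab h) (Lab (FreeGroup.lift φ w * h)) := by
  induction w using FreeGroup.induction_on with
  | C1 =>
    refine ⟨{1}, Set.finite_singleton _, rfl, map_one _, fun Lab ω P hω h hK => ?_⟩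
    have h1 := hK 1 rfl
    rw [one_mul] at h1
    have h2 := hω _ _ _ h1 h1 h1
    rw [S_one, map_one, one_mul]
    exact (add_eq_left.mp h2).symm
  | of x =>
    refine ⟨{1, φ x}, Set.toFinite _, Or.inl rfl, Or.inr (FreeGroup.lift_apply_of),
      fun Lab ω P _ h _ => ?_⟩
    rw [S_of, FreeGroup.lift_apply_of]
    rfl
  | inv_of x _ =>
    refine ⟨{1, (φ x)⁻¹}, Set.toFinite _, Or.inl rfl,
      Or.inr (by rw [map_inv, FreeGroup.lift_apply_of]; rfl), fun Lab ω P hω h hK => ?_⟩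
    have h1 := hK 1 (Or.inl rfl)
    rw [one_mul] at h1
    have h2 := hK _ (Or.inr rfl)
    have h3 := hω _ _ _ h1 h1 h1
    have h4 := hω _ _ _ h1 h2 h1
    rw [S_inv, S_of, map_inv, FreeGroup.lift_apply_of, pull, mul_inv_cancel_left]
    rw [add_eq_left.mp h3] at h4
    exact (eq_neg_of_add_eq_zero_left h4).symm
  | mul u v hu hv =>
    obtain ⟨K1, f1, -, m1, h1⟩ := hu
    obtain ⟨K2, f2, o2, m2, h2⟩ := hv
    refine ⟨(fun k => k * FreeGroup.lift φ v) '' K1 ∪ K2, (f1.image _).union f2, Or.inr o2,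
      Or.inl ⟨_, m1, (map_mul _ _ _).symm⟩, fun Lab ω P hω h hK => ?_⟩
    have a1 : ∀ k ∈ K1, P (Lab (k * (FreeGroup.lift φ v * h))) := fun k hk => by
      have := hK _ (Or.inl ⟨k, hk, rfl⟩)
      rwa [mul_assoc] at this
    have a2 := hK 1 (Or.inr o2)
    rw [one_mul] at a2
    rw [S_mul, h1 Lab ω P hω _ a1, h2 Lab ω P hω h fun k hk => hK k (Or.inr hk), map_mul,
      mul_assoc, add_comm]
    exact hω _ _ _ a2 (hK _ (Or.inr m2)) (a1 _ m1)

theorem hol_hom {L L' : Type*} [Group L] [Group L'] (φ : X → G) (p : L →* L') (z : X → G → L)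
    (w : FreeGroup X) (h : G) : hol φ (fun x h => p (z x h)) w h = p (hol φ z w h) := by
  induction w using FreeGroup.induction_on generalizing h with
  | C1 => rw [hol_one, hol_one, map_one]
  | of x => rw [hol_of, hol_of]
  | inv_of x _ => rw [hol_inv, hol_inv, hol_of, hol_of, map_inv]
  | mul u v hu hv => rw [hol_mul, hol_mul, hu, hv, map_mul]

theorem hol_central {L B : Type*} [Group L] [AddCommGroup B] (φ : X → G)
    (ι : Multiplicative B →* L) (hcen : ∀ b a, ι b * a = a * ι b) (z : X → G → L)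
    (b : X → G → B) (w : FreeGroup X) (h : G) :
    hol φ (fun x h => z x h * (ι (Multiplicative.ofAdd (b x h)))⁻¹) w h =
      hol φ z w h * (ι (Multiplicative.ofAdd (S φ b w h)))⁻¹ := by
  induction w using FreeGroup.induction_on generalizing h with
  | C1 => rw [hol_one, hol_one, S_one, ofAdd_zero, map_one, inv_one, mul_one]
  | of x => rw [hol_of, hol_of, S_of]
  | inv_of x _ =>
    rw [hol_inv, hol_inv, hol_of, hol_of, S_inv, S_of, ofAdd_neg, map_inv, inv_inv, mul_inv_rev,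
      inv_inv, hcen]
  | mul u v hu hv =>
    rw [hol_mul, hol_mul, hu, hv, S_mul, ofAdd_add, map_mul, mul_inv_rev, ← map_inv ι,
      ← map_inv ι, mul_assoc, ← mul_assoc (ι _), hcen, mul_assoc, mul_assoc, hcen]

end Words

/-- The statement about cocycles on lattice points. -/
def LatStmt : Prop := ∀ {V B : Type} [AddCommGroup B] (E : V → V → Prop) (_ : ∀ v, E v v)
  (_ : ∀ u v, E u v → E v u) (S : Set V) (N : ℕ) (_ : 0 < N) (ζ : Multiset V → Multiset V → B)
  (_ : ∀ T : Set V, T ⊆ S → IsCl E T → ∀ m m' m'', In N T m → In N T m' → In N T m'' →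
    St m m' → St m' m'' → St m m'' → ζ m m' + ζ m' m'' = ζ m m'')
  (lab : Multiset V → V) (_ : ∀ T m, IsCl E T → In N T m → lab m ∈ m),
  ∃ (ω : V → V → B) (u : Multiset V → B),
    (∀ a ∈ S, ∀ b ∈ S, ∀ c ∈ S, E a b → E b c → E a c → ω a b + ω b c = ω a c) ∧
    ∀ T : Set V, T ⊆ S → IsCl E T → ∀ m m', In N T m → In N T m' → St m m' →
      ζ m m' = ω (lab m) (lab m') + u m' - u m

/-- A coarse copy of the scaled complex in a Cayley complex. -/
structure Setup (G : Type) [Group G] (X R : Type u) (V : Type) where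
  φ : X → G
  rel : R → FreeGroup X
  E : V → V → Prop
  N : ℕ
  Y : Multiset V → G
  Lab : G → V
  W : Multiset V → Multiset V → FreeGroup X
  TT : Set (R × G)
  rel_one : ∀ r, FreeGroup.lift φ (rel r) = 1
  ker_le : ∀ w, FreeGroup.lift φ w = 1 → w ∈ Subgroup.normalClosure (Set.range rel)
  star : ∀ (B : Type) [AddCommGroup B] [Module ℚ B] (c : R → G → B),
    ∃ b : X → G → B, ∀ r h, S φ b (rel r) h = c r h
  E_refl : ∀ v, E v v
  E_symm : ∀ u v, E u v → E v u
  h1 : ∀ (B : Type) [AddCommGroup B] (lam : V → V → B),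
    (∀ u v w, E u v → E v w → E u w → lam u v + lam v w = lam u w) →
      ∃ t : V → B, ∀ v w, E v w → lam v w = t w - t v
  N_pos : 0 < N
  W_spec : ∀ m m', FreeGroup.lift φ (W m m') * Y m = Y m'
  inj : ∀ T T' m m', IsCl E T → IsCl E T' → In N T m → In N T' m' → Y m = Y m' → m = m'
  lab_mem : ∀ T m, IsCl E T → In N T m → Lab (Y m) ∈ m
  fill : ∀ T m m' m'', IsCl E T → In N T m → In N T m' → In N T m'' → St m m' → St m' m'' →
    ∀ {L : Type} [Group L] (z : X → G → L), (∀ p ∈ TT, hol φ z (rel p.1) (p.2 * Y m) = 1) →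
      hol φ z (W m' m'') (Y m') * hol φ z (W m m') (Y m) = hol φ z (W m m'') (Y m)
  telW : ∀ T m m', IsCl E T → In N T m → In N T m' → St m m' →
    ∀ {B : Type} [AddCommGroup B] (ω : V → V → B),
      (∀ a b c, a ∈ m → b ∈ m → c ∈ m → ω a b + ω b c = ω a c) →
      S φ (pull φ Lab ω) (W m m') (Y m) = ω (Lab (Y m)) (Lab (Y m'))
  telR : ∀ T m, IsCl E T → In N T m → ∀ p ∈ TT,
    ∀ {B : Type} [AddCommGroup B] (ω : V → V → B),
      (∀ a b c, a ∈ m → b ∈ m → c ∈ m → ω a b + ω b c = ω a c) →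
      S φ (pull φ Lab ω) (rel p.1) (p.2 * Y m) = 0

namespace Setup

variable {G : Type} [Group G] {X R : Type u} {V : Type} (C : Setup G X R V)

/-- The faces near the part of the lattice over `A`. -/
def F1 (A : Set V) : Set (R × G) :=
  {f | ∃ T m p, T ⊆ A ∧ IsCl C.E T ∧ In C.N T m ∧ p ∈ C.TT ∧ f = (p.1, p.2 * C.Y m)}

theorem fillS {B : Type} [AddCommGroup B] {T : Set V} {m m' m'' : Multiset V} (hT : IsCl C.E T)
    (h : In C.N T m) (h' : In C.N T m') (h'' : In C.N T m'') (s1 : St m m') (s2 : St m' m'')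
    (b : X → G → B) (hb : ∀ p ∈ C.TT, S C.φ b (C.rel p.1) (p.2 * C.Y m) = 0) :
    S C.φ b (C.W m m') (C.Y m) + S C.φ b (C.W m' m'') (C.Y m') = S C.φ b (C.W m m'') (C.Y m) := by
  have := C.fill T m m' m'' hT h h' h'' s1 s2 (fun x h => Multiplicative.ofAdd (b x h))
    fun p hp => by simpa only [S, toAdd_eq_zero] using hb p hp
  simp only [S]
  rw [← this, toAdd_mul, add_comm]

/-- A cocycle on the steps over `A` is realised by a cochain that is closed on the faces over `A`
and on the faces far from the lattice. -/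
theorem realise (hlat : LatStmt) {B : Type} [AddCommGroup B] [Module ℚ B] (A : Set V)
    (ζ : Multiset V → Multiset V → B)
    (hζ : ∀ T : Set V, T ⊆ A → IsCl C.E T → ∀ m m' m'', In C.N T m → In C.N T m' →
      In C.N T m'' → St m m' → St m' m'' → St m m'' → ζ m m' + ζ m' m'' = ζ m m'') :
    ∃ β : X → G → B, (∀ f : R × G, (f ∈ C.F1 Set.univ → f ∈ C.F1 A) →
        S C.φ β (C.rel f.1) f.2 = 0) ∧
      ∀ T : Set V, T ⊆ A → IsCl C.E T → ∀ m m', In C.N T m → In C.N T m' → St m m' →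
        S C.φ β (C.W m m') (C.Y m) = ζ m m' := by
  classical
  obtain ⟨ω, u1, hω, hu1⟩ := hlat C.E C.E_refl C.E_symm A C.N C.N_pos ζ hζ
    (fun m => C.Lab (C.Y m)) C.lab_mem
  have hωm : ∀ T : Set V, T ⊆ A → IsCl C.E T → ∀ m, In C.N T m →
      ∀ a b c, a ∈ m → b ∈ m → c ∈ m → ω a b + ω b c = ω a c := by
    intro T hTA hT m hm a b c ha hb hc
    have ha' := hm.2 a ha
    have hb' := hm.2 b hb
    have hc' := hm.2 c hc
    exact hω a (hTA ha') b (hTA hb') c (hTA hc') (hT a ha' b hb') (hT b hb' c hc') (hT a ha' c hc')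
  obtain ⟨β, hβ⟩ := C.star B fun r h =>
    if (r, h) ∈ C.F1 Set.univ then S C.φ (pull C.φ C.Lab ω) (C.rel r) h else 0
  obtain ⟨ω2, u2, hω2, hu2⟩ := hlat C.E C.E_refl C.E_symm Set.univ C.N C.N_pos
    (fun m m' => S C.φ (fun x h => β x h - pull C.φ C.Lab ω x h) (C.W m m') (C.Y m))
    (fun T _ hT m m' m'' h h' h'' s1 s2 _ => C.fillS hT h h' h'' s1 s2 _ fun p hp => by
      rw [S_sub, hβ, if_pos ⟨T, m, p, Set.subset_univ _, hT, h, hp, rfl⟩, sub_self])
    (fun m => C.Lab (C.Y m)) C.lab_mem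
  obtain ⟨t, ht⟩ := C.h1 B ω2 fun a b c => hω2 a trivial b trivial c trivial
  let U : G → B := fun g => if hg : ∃ m T, IsCl C.E T ∧ In C.N T m ∧ C.Y m = g then
    u1 hg.choose - u2 hg.choose - t (C.Lab g) else 0
  have hU : ∀ T m, IsCl C.E T → In C.N T m → U (C.Y m) = u1 m - u2 m - t (C.Lab (C.Y m)) := by
    intro T m hT hm
    have hg : ∃ m' T', IsCl C.E T' ∧ In C.N T' m' ∧ C.Y m' = C.Y m := ⟨m, T, hT, hm, rfl⟩
    obtain ⟨T', hT', hm', e⟩ := hg.choose_spec
    have e' := C.inj T' T _ m hT' hT hm' hm e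
    simp only [U, dif_pos hg]
    rw [e']
  refine ⟨fun x h => β x h - ((fun g => - U g) (C.φ x * h) - (fun g => - U g) h), ?_, ?_⟩
  · intro f hf
    rw [S_sub, S_coboundary C.φ (fun g => - U g), C.rel_one, one_mul, sub_self, sub_zero, hβ]
    split_ifs with h
    · obtain ⟨T, m, p, hTA, hT, hm, hp, rfl⟩ := hf h
      exact C.telR T m hT hm p hp ω (hωm T hTA hT m hm)
    · rfl
  · intro T hTA hT m m' hm hm' s
    have e1 := hu1 T hTA hT m m' hm hm' s
    have e2 := hu2 T (Set.subset_univ _) hT m m' hm hm' s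
    have e3 := C.telW T m m' hT hm hm' s ω (hωm T hTA hT m hm)
    have e4 := ht _ _ (hT _ (hm.2 _ (C.lab_mem T m hT hm)) _ (hm'.2 _ (C.lab_mem T m' hT hm')))
    rw [S_sub, e3, e4] at e2
    rw [S_sub, S_coboundary C.φ (fun g => - U g), C.W_spec, hU T m hT hm, hU T m' hT hm', e1,
      sub_eq_iff_eq_add.mp e2]
    abel

/-- Solutions of the holonomy problem exist in every group of the tower. -/
theorem solve (hlat : LatStmt) (A : Set V) (Good : Set (R × G))
    (hG1 : ∀ f ∈ Good, f ∈ C.F1 Set.univ → f ∈ C.F1 A) (hG2 : C.F1 A ⊆ Good)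
    (U : Type) [Group U] (hU : QNil U) : ∀ lam : V → V → U,
    (∀ u ∈ A, ∀ v ∈ A, ∀ w ∈ A, C.E u v → C.E v w → C.E u w → lam u v * lam v w = lam u w) →
    ∃ z : X → G → U, (∀ f ∈ Good, hol C.φ z (C.rel f.1) f.2 = 1) ∧
      ∀ T : Set V, T ⊆ A → IsCl C.E T → ∀ m m', In C.N T m → In C.N T m' → St m m' →
        hol C.φ z (C.W m m') (C.Y m) = lam (C.Lab (C.Y m')) (C.Lab (C.Y m)) := by
  classical
  induction hU with
  | triv U h =>
    intro lam _
    exact ⟨fun _ _ => 1, fun _ _ => h _, fun _ _ _ _ _ _ _ _ => (h _).trans (h _).symm⟩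
  | ext U' U B p ι hp hι hker hcen _ ih =>
    intro lam hlam
    obtain ⟨z0, hz1, hz2⟩ := ih (fun u v => p (lam u v)) fun u hu v hv w hw e1 e2 e3 => by
      rw [← map_mul, hlam u hu v hv w hw e1 e2 e3]
    choose z hz using fun x h => hp (z0 x h)
    have hhol : ∀ w h, p (hol C.φ z w h) = hol C.φ z0 w h := by
      intro w h
      rw [← hol_hom]
      congr 1
      funext x h
      exact hz x h
    have hc : ∀ r h, ∃ c : B, (r, h) ∈ Good → ι (Multiplicative.ofAdd c) = hol C.φ z (C.rel r) h := by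
      intro r h
      by_cases hg : (r, h) ∈ Good
      · obtain ⟨b, hb⟩ := (hker _).1 ((hhol _ _).trans (hz1 _ hg))
        exact ⟨Multiplicative.toAdd b, fun _ => hb⟩
      · exact ⟨0, fun h => absurd h hg⟩
    choose c hc using hc
    have hδ : ∀ m m', ∃ d : B, (∃ T : Set V, T ⊆ A ∧ IsCl C.E T ∧ In C.N T m ∧ In C.N T m' ∧
        St m m') → ι (Multiplicative.ofAdd d) * lam (C.Lab (C.Y m')) (C.Lab (C.Y m)) =
          hol C.φ z (C.W m m') (C.Y m) := by
      intro m m'
      by_cases hg : ∃ T : Set V, T ⊆ A ∧ IsCl C.E T ∧ In C.N T m ∧ In C.N T m' ∧ St m m'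
      · obtain ⟨T, hTA, hT, hm, hm', s⟩ := hg
        obtain ⟨b, hb⟩ := (hker (hol C.φ z (C.W m m') (C.Y m) *
          (lam (C.Lab (C.Y m')) (C.Lab (C.Y m)))⁻¹)).1 (by
            rw [map_mul, hhol, hz2 T hTA hT m m' hm hm' s, map_inv, mul_inv_cancel])
        exact ⟨Multiplicative.toAdd b, fun _ => by
          rw [ofAdd_toAdd, hb, inv_mul_cancel_right]⟩
      · exact ⟨0, fun h => absurd h hg⟩
    choose δ hδ using hδ
    obtain ⟨b, hb⟩ := C.star B c
    have hflat : ∀ b' : X → G → B, (∀ f ∈ Good, S C.φ b' (C.rel f.1) f.2 = c f.1 f.2) →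
        ∀ f ∈ Good, hol C.φ (fun x h => z x h * (ι (Multiplicative.ofAdd (b' x h)))⁻¹)
          (C.rel f.1) f.2 = 1 := by
      intro b' hb' f hf
      rw [hol_central C.φ ι hcen, hb' f hf, hc f.1 f.2 hf, mul_inv_cancel]
    obtain ⟨β, hβ1, hβ2⟩ := C.realise hlat A
      (fun m m' => S C.φ b (C.W m m') (C.Y m) - δ m m') (by
        intro T hTA hT m m' m'' hm hm' hm'' s1 s2 s3
        have e := C.fill T m m' m'' hT hm hm' hm'' s1 s2 _ fun q hq =>
          hflat b (fun f _ => hb f.1 f.2) (q.1, q.2 * C.Y m) (hG2 ⟨T, m, q, hTA, hT, hm, hq, rfl⟩)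
        have l1 := hm.2 _ (C.lab_mem T m hT hm)
        have l2 := hm'.2 _ (C.lab_mem T m' hT hm')
        have l3 := hm''.2 _ (C.lab_mem T m'' hT hm'')
        have e4 := hlam _ (hTA l3) _ (hTA l2) _ (hTA l1) (hT _ l3 _ l2) (hT _ l2 _ l1)
          (hT _ l3 _ l1)
        rw [hol_central C.φ ι hcen, hol_central C.φ ι hcen, hol_central C.φ ι hcen,
          ← hδ m m' ⟨T, hTA, hT, hm, hm', s1⟩, ← hδ m' m'' ⟨T, hTA, hT, hm', hm'', s2⟩,
          ← hδ m m'' ⟨T, hTA, hT, hm, hm'', s3⟩, ← e4] at e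
        have key : ∀ (d s : B) (l : U'), ι (Multiplicative.ofAdd d) * l *
            (ι (Multiplicative.ofAdd s))⁻¹ = l * ι (Multiplicative.ofAdd (d - s)) := by
          intro d s l
          rw [hcen, ofAdd_sub, div_eq_mul_inv, map_mul, map_inv, mul_assoc]
        rw [key, key, key, mul_assoc, ← mul_assoc (ι _), hcen, mul_assoc, ← map_mul, ← mul_assoc,
          mul_right_inj] at e
        have e5 := congrArg Multiplicative.toAdd (hι e)
        rw [toAdd_mul, toAdd_ofAdd, toAdd_ofAdd, toAdd_ofAdd] at e5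
        rw [← neg_sub (δ m m''), ← e5]
        abel)
    refine ⟨fun x h => z x h * (ι (Multiplicative.ofAdd (b x h - β x h)))⁻¹,
      hflat (fun x h => b x h - β x h) fun f hf => ?_, fun T hTA hT m m' hm hm' s => ?_⟩
    · rw [S_sub, hb, hβ1 f (hG1 f hf), sub_zero]
    · rw [hol_central C.φ ι hcen z fun x h => b x h - β x h, S_sub, hβ2 T hTA hT m m' hm hm' s,
        sub_sub_cancel, ← hδ m m' ⟨T, hTA, hT, hm, hm', s⟩, hcen, mul_inv_cancel_right]

/-- The path along a scaled edge. -/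
theorem edge_path {a b : V} (hab : C.E a b) : ∃ w : FreeGroup X,
    FreeGroup.lift C.φ w * C.Y (Multiset.replicate C.N a) = C.Y (Multiset.replicate C.N b) ∧
    ∀ (A : Set V), a ∈ A → b ∈ A → ∀ {U : Type} [Group U] (lam : V → V → U) (z : X → G → U),
      (∀ u ∈ A, ∀ v ∈ A, ∀ w ∈ A, C.E u v → C.E v w → C.E u w → lam u v * lam v w = lam u w) →
      (∀ T : Set V, T ⊆ A → IsCl C.E T → ∀ m m', In C.N T m → In C.N T m' → St m m' →
        hol C.φ z (C.W m m') (C.Y m) = lam (C.Lab (C.Y m')) (C.Lab (C.Y m))) →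
      hol C.φ z w (C.Y (Multiset.replicate C.N a)) = lam b a := by
  have hT : IsCl C.E {a, b} := by
    rintro u (rfl | rfl) v (rfl | rfl)
    · exact C.E_refl _
    · exact hab
    · exact C.E_symm _ _ hab
    · exact C.E_refl _
  have hin : ∀ i j, i + j = C.N →
      In C.N {a, b} (Multiset.replicate i a + Multiset.replicate j b) := by
    intro i j hij
    refine ⟨by rw [Multiset.card_add, Multiset.card_replicate, Multiset.card_replicate, hij],
      fun v hv => ?_⟩
    rcases Multiset.mem_add.1 hv with h | h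
    · exact Or.inl (Multiset.eq_of_mem_replicate h)
    · exact Or.inr (Multiset.eq_of_mem_replicate h)
  have hla : C.Lab (C.Y (Multiset.replicate C.N a)) = a := by
    have := C.lab_mem _ _ hT (hin C.N 0 rfl)
    rw [Multiset.replicate_zero, add_zero] at this
    exact Multiset.eq_of_mem_replicate this
  have hlb : C.Lab (C.Y (Multiset.replicate C.N b)) = b := by
    have := C.lab_mem _ _ hT (hin 0 C.N (zero_add _))
    rw [Multiset.replicate_zero, zero_add] at this
    exact Multiset.eq_of_mem_replicate this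
  have main : ∀ j i, i + j = C.N → ∃ w : FreeGroup X,
      FreeGroup.lift C.φ w * C.Y (Multiset.replicate C.N a) =
        C.Y (Multiset.replicate i a + Multiset.replicate j b) ∧
      ∀ (A : Set V), a ∈ A → b ∈ A → ∀ {U : Type} [Group U] (lam : V → V → U) (z : X → G → U),
      (∀ u ∈ A, ∀ v ∈ A, ∀ w ∈ A, C.E u v → C.E v w → C.E u w → lam u v * lam v w = lam u w) →
      (∀ T : Set V, T ⊆ A → IsCl C.E T → ∀ m m', In C.N T m → In C.N T m' → St m m' →
        hol C.φ z (C.W m m') (C.Y m) = lam (C.Lab (C.Y m')) (C.Lab (C.Y m))) →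
      hol C.φ z w (C.Y (Multiset.replicate C.N a)) =
        lam (C.Lab (C.Y (Multiset.replicate i a + Multiset.replicate j b))) a := by
    intro j
    induction j with
    | zero =>
      intro i hi
      obtain rfl : i = C.N := hi
      refine ⟨1, by rw [map_one, one_mul, Multiset.replicate_zero, add_zero],
        fun A ha _ U _ lam z hl _ => ?_⟩
      rw [hol_one, Multiset.replicate_zero, add_zero, hla]
      exact (mul_eq_left.mp (hl a ha a ha a ha (C.E_refl a) (C.E_refl a) (C.E_refl a))).symm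
    | succ j ih =>
      intro i hi
      have hi' : i + 1 + j = C.N := by omega
      obtain ⟨w, hw1, hw2⟩ := ih (i + 1) hi'
      refine ⟨C.W (Multiset.replicate (i + 1) a + Multiset.replicate j b)
        (Multiset.replicate i a + Multiset.replicate (j + 1) b) * w,
        by rw [map_mul, mul_assoc, hw1, C.W_spec], fun A ha hb U _ lam z hl hz => ?_⟩
      have hTA : ({a, b} : Set V) ⊆ A := by
        rintro u (rfl | rfl)
        · exact ha
        · exact hb
      have s : St (Multiset.replicate (i + 1) a + Multiset.replicate j b)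
          (Multiset.replicate i a + Multiset.replicate (j + 1) b) :=
        ⟨Multiset.replicate i a + Multiset.replicate j b, a, b,
          by rw [Multiset.replicate_succ, Multiset.cons_add],
          by rw [Multiset.replicate_succ, Multiset.add_cons]⟩
      have l1 := (hin _ _ hi').2 _ (C.lab_mem _ _ hT (hin _ _ hi'))
      have l2 := (hin _ _ hi).2 _ (C.lab_mem _ _ hT (hin _ _ hi))
      have l0 : a ∈ ({a, b} : Set V) := Or.inl rfl
      rw [hol_mul, hw1, hw2 A ha hb lam z hl hz, hz _ hTA hT _ _ (hin _ _ hi') (hin _ _ hi) s]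
      exact hl _ (hTA l2) _ (hTA l1) _ ha (hT _ l2 _ l1) (hT _ l1 _ l0) (hT _ l2 _ l0)
  obtain ⟨w, hw1, hw2⟩ := main C.N 0 (zero_add _)
  rw [Multiset.replicate_zero, zero_add] at hw1
  refine ⟨w, hw1, fun A ha hb U _ lam z hl hz => ?_⟩
  have := hw2 A ha hb lam z hl hz
  rwa [Multiset.replicate_zero, zero_add, hlb] at this

/-- The contradiction. -/
theorem contra (hlat : LatStmt) (v0 v1 v2 v3 : V) (e01 : C.E v0 v1) (e12 : C.E v1 v2)
    (e23 : C.E v2 v3) (e30 : C.E v3 v0)
    (L3 : ∀ A : Finset V, ∃ (U : Type) (_ : Group U), QNil U ∧ ∃ lam : V → V → U,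
      (∀ u ∈ A, ∀ v ∈ A, ∀ w ∈ A, C.E u v → C.E v w → C.E u w → lam u v * lam v w = lam u w) ∧
        lam v0 v3 * lam v3 v2 * lam v2 v1 * lam v1 v0 ≠ 1) : False := by
  classical
  obtain ⟨w1, a1, b1⟩ := C.edge_path e01
  obtain ⟨w2, a2, b2⟩ := C.edge_path e12
  obtain ⟨w3, a3, b3⟩ := C.edge_path e23
  obtain ⟨w4, a4, b4⟩ := C.edge_path e30
  have p2 : FreeGroup.lift C.φ (w2 * w1) * C.Y (Multiset.replicate C.N v0) =
      C.Y (Multiset.replicate C.N v2) := by rw [map_mul, mul_assoc, a1, a2]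
  have p3 : FreeGroup.lift C.φ (w3 * (w2 * w1)) * C.Y (Multiset.replicate C.N v0) =
      C.Y (Multiset.replicate C.N v3) := by rw [map_mul, mul_assoc, p2, a3]
  have p4 : FreeGroup.lift C.φ (w4 * (w3 * (w2 * w1))) = 1 := by
    have : FreeGroup.lift C.φ (w4 * (w3 * (w2 * w1))) * C.Y (Multiset.replicate C.N v0) =
      C.Y (Multiset.replicate C.N v0) := by rw [map_mul, mul_assoc, p3, a4]
    exact mul_eq_right.mp this
  obtain ⟨D0, hD0, hD⟩ := exists_fill C.φ C.rel C.rel_one _ (C.ker_le _ p4)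
  have hm : ∀ f : R × G, ∃ m : Multiset V, f ∈ C.F1 Set.univ → ∀ A : Set V,
      (∀ v ∈ m, v ∈ A) → f ∈ C.F1 A := by
    intro f
    by_cases hf : f ∈ C.F1 Set.univ
    · obtain ⟨T, m, p, -, hT, hm, hp, e⟩ := hf
      exact ⟨m, fun _ A hA => ⟨{v | v ∈ m}, m, p, hA,
        fun u hu v hv => hT u (hm.2 u hu) v (hm.2 v hv), ⟨hm.1, fun _ h => h⟩, hp, e⟩⟩
    · exact ⟨0, fun h => absurd h hf⟩
  choose mf hmf using hm
  let y0 := C.Y (Multiset.replicate C.N v0)
  let A : Finset V := {v0, v1, v2, v3} ∪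
    hD0.toFinset.biUnion fun p => (mf (p.1, p.2 * y0)).toFinset
  obtain ⟨U, _, hU, lam, hl, hne⟩ := L3 A
  obtain ⟨z, hz1, hz2⟩ := C.solve hlat (A : Set V)
    ((fun p : R × G => (p.1, p.2 * y0)) '' D0 ∪ C.F1 A) (by
      rintro f (⟨p, hp, rfl⟩ | hf) h
      · refine hmf _ h _ fun v hv => ?_
        simp only [A, Finset.coe_union, Set.mem_union, Finset.mem_coe, Finset.mem_biUnion,
          Set.Finite.mem_toFinset, Multiset.mem_toFinset]
        exact Or.inr ⟨p, hp, hv⟩
      · exact hf) Set.subset_union_right U hU lam hl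
  have m0 : v0 ∈ (A : Set V) := by simp [A]
  have m1 : v1 ∈ (A : Set V) := by simp [A]
  have m2 : v2 ∈ (A : Set V) := by simp [A]
  have m3 : v3 ∈ (A : Set V) := by simp [A]
  have hW := hD z y0 fun p hp => hz1 (p.1, p.2 * y0) (Or.inl ⟨p, hp, rfl⟩)
  rw [hol_mul, hol_mul, hol_mul, p3, p2, a1, b1 _ m0 m1 lam z hl hz2, b2 _ m1 m2 lam z hl hz2,
    b3 _ m2 m3 lam z hl hz2, b4 _ m3 m0 lam z hl hz2] at hW
  apply hne
  rw [mul_assoc, mul_assoc]
  exact hW

end Setup

end Vale.Agent.P173F
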