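import Vale.Agent.P173F.Defs

/-! The boundary of cubes has an equivariant retraction. -/

set_option linter.all false

namespace Vale.Agent.P173F

open Vale.Agent.P173

theorem exists_int_chain {X : Type} {P : X → Prop} {R : X → X → Prop} {x : X} (h0 : P x)
    (up : ∀ b, P b → ∃ b', P b' ∧ R b' b) (dn : ∀ b', P b' → ∃ b, P b ∧ R b' b) :
    ∃ B : ℤ → X, (∀ n, P (B n)) ∧ ∀ n, R (B (n + 1)) (B n) := by
  choose f h1 h2 using up
  choose g h3 h4 using dn
  let u : ℕ → Subtype P := fun n => (fun b : Subtype P => ⟨f b.1 b.2, h1 _ _⟩)^[n] ⟨x, h0⟩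
  let d : ℕ → Subtype P := fun n => (fun b : Subtype P => ⟨g b.1 b.2, h3 _ _⟩)^[n] ⟨x, h0⟩
  have hu : ∀ n, R (u (n + 1)).1 (u n).1 := fun n => by
    simp only [u, Function.iterate_succ_apply']; exact h2 _ _
  have hd : ∀ n, R (d n).1 (d (n + 1)).1 := fun n => by
    simp only [d, Function.iterate_succ_apply']; exact h4 _ _
  refine ⟨fun n => match n with
    | .ofNat n => (u n).1
    | .negSucc n => (d (n + 1)).1, fun n => ?_, fun n => ?_⟩
  · rcases n with n | n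
    exacts [(u n).2, (d (n + 1)).2]
  · rcases n with n | _ | n
    exacts [hu n, hd 0, hd (n + 1)]

namespace Cx

variable {V : Type} [MulAction Q2 V] {C : Cx V}

theorem cubeRet (h : C.Ret) : C.CubeRet := by
  obtain ⟨ρ, h1, h2⟩ := h
  have sol : ∀ Φ : C.Raag → C.Tr → (C.Cell C.Tr →₀ ℤ),
      (∀ (k : C.GG) t σ, Φ (k.1.left * C.act k.1.right t) (k.1.right • σ) =
        permRho ℤ C.GG (C.Cell C.Tr) k (Φ t σ)) →
      ∃ Ψ : C.Raag → C.Ed → (C.Cell C.Tr →₀ ℤ),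
        (∀ (k : C.GG) t e, Ψ (k.1.left * C.act k.1.right t) (k.1.right • e) =
          permRho ℤ C.GG (C.Cell C.Tr) k (Ψ t e)) ∧
        ∀ t σ, Ψ t σ.e0 - Ψ t σ.e1 + Ψ t σ.e2 = Φ t σ := fun Φ hΦ =>
    ⟨fun t e => Finsupp.linearCombination ℤ (Φ t) (ρ e), fun k t e => by
      beta_reduce
      rw [h1, Finsupp.linearCombination_mapDomain, Finsupp.apply_linearCombination]
      exact congrArg (Finsupp.linearCombination ℤ · (ρ e)) (funext (hΦ k t)),
    fun t σ => by rw [← map_sub, ← map_add, h2, Finsupp.linearCombination_single, one_smul]⟩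
  obtain ⟨B, h3, h4⟩ := exists_int_chain (x := 0)
    (P := fun b : C.Cell C.Ed → (C.Cell C.Tr →₀ ℤ) =>
      ∀ (k : C.GG) c, b (k • c) = permRho ℤ C.GG (C.Cell C.Tr) k (b c))
    (R := fun b' b => ∀ g (σ : C.Tr), b' ⟨g * C.gen σ.u, σ.e0⟩ - b' ⟨g * C.gen σ.v, σ.e1⟩ +
      b' ⟨g * C.gen σ.w, σ.e2⟩ - (b ⟨g, σ.e0⟩ - b ⟨g, σ.e1⟩ + b ⟨g, σ.e2⟩) =
        Finsupp.single ⟨g, σ⟩ 1) (fun _ _ => (map_zero _).symm) (fun b hb => by
      let y : C.Raag → C.Tr → C.Raag := fun t σ => t * (C.gen σ.u * C.gen σ.v * C.gen σ.w)⁻¹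
      obtain ⟨Ψ, h3, h4⟩ := sol (fun t σ => Finsupp.single ⟨y t σ, σ⟩ 1 +
        (b ⟨y t σ, σ.e0⟩ - b ⟨y t σ, σ.e1⟩ + b ⟨y t σ, σ.e2⟩)) fun k t σ => by
          have e : y (k.1.left * C.act k.1.right t) (k.1.right • σ) =
              k.1.left * C.act k.1.right (y t σ) := by
            simp only [y, map_mul, map_inv, act_gen, Tr.smul_u, Tr.smul_v, Tr.smul_w, mul_assoc]
          simp only [e, map_add, map_sub, permRho_single, ← hb]
          rfl
      refine ⟨fun c => Ψ (c.g * C.gen c.s.u * C.gen c.s.v) c.s, fun k ⟨g, e⟩ => ?_, fun g σ => ?_⟩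
      · rw [← h3]
        simp only [smul_cell', map_mul, act_gen, Ed.smul_u, Ed.smul_v, mul_assoc]
      · have e1 : g * C.gen σ.v * C.gen σ.u * C.gen σ.w = g * C.gen σ.u * C.gen σ.v * C.gen σ.w := by
          rw [mul_assoc g, ← C.gen_comm σ.huv, ← mul_assoc]
        have e2 : g * C.gen σ.w * C.gen σ.u * C.gen σ.v = g * C.gen σ.u * C.gen σ.v * C.gen σ.w := by
          rw [mul_assoc g, ← C.gen_comm σ.huw, ← mul_assoc, mul_assoc _ _ (C.gen σ.v),
            ← C.gen_comm σ.hvw, ← mul_assoc]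
        have e3 : y (g * C.gen σ.u * C.gen σ.v * C.gen σ.w) σ = g := by simp only [y]; group
        have h5 := h4 (g * C.gen σ.u * C.gen σ.v * C.gen σ.w) σ
        rw [e3] at h5
        change Ψ (g * C.gen σ.u * C.gen σ.v * C.gen σ.w) _ -
          Ψ (g * C.gen σ.v * C.gen σ.u * C.gen σ.w) _ +
          Ψ (g * C.gen σ.w * C.gen σ.u * C.gen σ.v) _ - _ = _
        rw [e1, e2, h5, add_sub_cancel_right]) fun b hb => by
      obtain ⟨Ψ, h3, h4⟩ := sol (fun g σ => b ⟨g * C.gen σ.u, σ.e0⟩ - b ⟨g * C.gen σ.v, σ.e1⟩ +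
        b ⟨g * C.gen σ.w, σ.e2⟩ - Finsupp.single ⟨g, σ⟩ 1) fun k t σ => by
          simp only [map_add, map_sub, permRho_single, ← hb, smul_cell', map_mul, act_gen,
            mul_assoc]
          rfl
      exact ⟨fun c => Ψ c.g c.s, fun k ⟨g, e⟩ => h3 k g e, fun g σ => by
        rw [h4, sub_sub_cancel]⟩
  refine ⟨fun c => B (C.ht c.g) c, fun k ⟨g, e⟩ => ?_, fun ⟨g, σ⟩ => ?_⟩
  · rw [← h3, smul_cell']
    simp only [ht_mul, ht_act, C.mem_GG.1 k.2, zero_add]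
  · simp only [d3, map_add, map_sub, Finsupp.linearCombination_single, one_smul, ht_mul, ht_gen]
    rw [← h4 (C.ht g) g σ]
    abel

end Cx

end Vale.Agent.P173F
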