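import Vale.Agent.P173.Bdl.B1
import Mathlib.GroupTheory.SemidirectProduct
import Mathlib.GroupTheory.Finiteness

/-! Definitions for a finitely generated group of cohomological dimension two without a
two-dimensional classifying space. -/

namespace Vale.Agent.P173F

open Vale.Agent.P173

/-- The free group of rank two. -/
abbrev Q2 : Type := FreeGroup Bool

/-- Groups built from the trivial group by central extensions with rational vector spaces. -/
inductive QNil : (U : Type) → [Group U] → Prop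
  | triv (U : Type) [Group U] (h : ∀ a : U, a = 1) : QNil U
  | ext (U' U B : Type) [Group U'] [Group U] [AddCommGroup B] [Module ℚ B] (p : U' →* U)
      (ι : Multiplicative B →* U') (hp : Function.Surjective p) (hι : Function.Injective ι)
      (hker : ∀ a, p a = 1 ↔ ∃ b, ι b = a) (hcen : ∀ b a, ι b * a = a * ι b) (hU : QNil U) :
      QNil U'

/-- `T` is a clique for the reflexive relation `E`. -/
def IsCl {V : Type} (E : V → V → Prop) (T : Set V) : Prop := ∀ u ∈ T, ∀ v ∈ T, E u v

/-- An elementary move between lattice points. -/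
def St {V : Type} (m m' : Multiset V) : Prop := ∃ s a b, m = a ::ₘ s ∧ m' = b ::ₘ s

/-- `m` is a lattice point of size `N` supported on `T`. -/
def In {V : Type} (N : ℕ) (T : Set V) (m : Multiset V) : Prop := m.card = N ∧ ∀ v ∈ m, v ∈ T

/-- A three-coloured graph with a free action of `Q2`. -/
structure Cx (V : Type) [MulAction Q2 V] where
  adj : V → V → Prop
  col : V → Fin 3
  symm : ∀ {u v}, adj u v → adj v u
  col_ne : ∀ {u v}, adj u v → col u ≠ col v
  adj_smul : ∀ (q : Q2) {u v}, adj u v → adj (q • u) (q • v)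
  col_smul : ∀ (q : Q2) (v : V), col (q • v) = col v
  free : ∀ (q : Q2) (v : V), q • v = v → q = 1

namespace Cx

variable {V : Type} [MulAction Q2 V] (C : Cx V)

/-- Equal or adjacent. -/
def cl (u v : V) : Prop := u = v ∨ C.adj u v

theorem cl_refl (v : V) : C.cl v v := Or.inl rfl

theorem cl_symm {u v : V} (h : C.cl u v) : C.cl v u := h.imp Eq.symm C.symm

/-- The commutation relators. -/
def rels : Set (FreeGroup V) :=
  {r | ∃ u v, C.adj u v ∧
    r = FreeGroup.of u * FreeGroup.of v * (FreeGroup.of u)⁻¹ * (FreeGroup.of v)⁻¹}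

/-- The right-angled Artin group. -/
def Raag : Type := PresentedGroup C.rels

instance : Group C.Raag := inferInstanceAs (Group (PresentedGroup C.rels))

/-- The generators. -/
def gen (v : V) : C.Raag := PresentedGroup.of v

theorem gen_comm {u v : V} (h : C.adj u v) : C.gen u * C.gen v = C.gen v * C.gen u := by
  have h1 : (PresentedGroup.mk C.rels (FreeGroup.of u * FreeGroup.of v * (FreeGroup.of u)⁻¹ *
      (FreeGroup.of v)⁻¹)) = 1 := PresentedGroup.one_of_mem ⟨u, v, h, rfl⟩
  have h2 : C.gen u * C.gen v * (C.gen u)⁻¹ * (C.gen v)⁻¹ = 1 := h1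
  rw [mul_inv_eq_one, mul_inv_eq_iff_eq_mul] at h2
  exact h2

theorem gen_comm' {u v : V} (h : C.cl u v) : C.gen u * C.gen v = C.gen v * C.gen u := by
  rcases h with rfl | h
  · rfl
  · exact C.gen_comm h

/-- The universal property. -/
def lift {H : Type*} [Group H] (f : V → H) (hf : ∀ u v, C.adj u v → f u * f v = f v * f u) :
    C.Raag →* H :=
  PresentedGroup.toGroup (f := f) (rels := C.rels) (by
    rintro r ⟨u, v, h, rfl⟩
    simp only [map_mul, map_inv, FreeGroup.lift_apply_of]
    rw [hf u v h]; group)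

theorem lift_gen {H : Type*} [Group H] (f : V → H)
    (hf : ∀ u v, C.adj u v → f u * f v = f v * f u) (v : V) : C.lift f hf (C.gen v) = f v :=
  PresentedGroup.toGroup.of _

theorem hom_ext {H : Type*} [Group H] {a b : C.Raag →* H} (h : ∀ v, a (C.gen v) = b (C.gen v)) :
    a = b :=
  PresentedGroup.ext h

theorem closure_gen : Subgroup.closure (Set.range C.gen) = ⊤ :=
  PresentedGroup.closure_range_of C.rels

theorem induction {p : C.Raag → Prop} (h1 : p 1) (hg : ∀ v, p (C.gen v))
    (hm : ∀ a b, p a → p b → p (a * b)) (hi : ∀ a, p a → p a⁻¹) (a : C.Raag) : p a := by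
  have ha : a ∈ Subgroup.closure (Set.range C.gen) := by rw [C.closure_gen]; trivial
  induction ha using Subgroup.closure_induction with
  | mem x hx => obtain ⟨v, rfl⟩ := hx; exact hg v
  | one => exact h1
  | mul x y _ _ hx hy => exact hm x y hx hy
  | inv x _ hx => exact hi x hx

/-- The endomorphism induced by `q`. -/
def actHom (q : Q2) : C.Raag →* C.Raag :=
  C.lift (fun v => C.gen (q • v)) fun _ _ h => C.gen_comm (C.adj_smul q h)

theorem actHom_gen (q : Q2) (v : V) : C.actHom q (C.gen v) = C.gen (q • v) := C.lift_gen _ _ v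

theorem actHom_one (a : C.Raag) : C.actHom 1 a = a := by
  have : C.actHom 1 = MonoidHom.id _ := C.hom_ext fun v => by
    rw [actHom_gen, one_smul]; rfl
  rw [this]; rfl

theorem actHom_mul (q q' : Q2) (a : C.Raag) : C.actHom (q * q') a = C.actHom q (C.actHom q' a) := by
  have : C.actHom (q * q') = (C.actHom q).comp (C.actHom q') := C.hom_ext fun v => by
    rw [MonoidHom.comp_apply, actHom_gen, actHom_gen, actHom_gen, mul_smul]
  rw [this]; rfl

/-- The action of `Q2` on the right-angled Artin group. -/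
def act : Q2 →* MulAut C.Raag where
  toFun q :=
    { toFun := C.actHom q
      invFun := C.actHom q⁻¹
      left_inv := fun a => by rw [← actHom_mul, inv_mul_cancel, actHom_one]
      right_inv := fun a => by rw [← actHom_mul, mul_inv_cancel, actHom_one]
      map_mul' := map_mul _ }
  map_one' := MulEquiv.ext C.actHom_one
  map_mul' q q' := MulEquiv.ext (C.actHom_mul q q')

theorem act_gen (q : Q2) (v : V) : C.act q (C.gen v) = C.gen (q • v) := C.actHom_gen q v

/-- The semidirect product. -/
abbrev Hat : Type := C.Raag ⋊[C.act] Q2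

/-- The exponent sum of the generators weighted by a function of the colour. -/
def wt0 (f : Fin 3 → ℤ) : C.Raag →* Multiplicative ℤ :=
  C.lift (fun v => Multiplicative.ofAdd (f (C.col v))) fun _ _ _ => mul_comm _ _

theorem wt0_gen (f : Fin 3 → ℤ) (v : V) :
    C.wt0 f (C.gen v) = Multiplicative.ofAdd (f (C.col v)) := C.lift_gen _ _ v

theorem wt0_act (f : Fin 3 → ℤ) (q : Q2) (a : C.Raag) : C.wt0 f (C.act q a) = C.wt0 f a := by
  have : (C.wt0 f).comp (C.actHom q) = C.wt0 f := C.hom_ext fun v => by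
    rw [MonoidHom.comp_apply, actHom_gen, wt0_gen, wt0_gen, C.col_smul]
  exact DFunLike.congr_fun this a

/-- The weighted exponent sum on the semidirect product. -/
def wt (f : Fin 3 → ℤ) : C.Hat →* Multiplicative ℤ where
  toFun g := C.wt0 f g.left
  map_one' := by rw [SemidirectProduct.one_left, map_one]
  map_mul' g h := by rw [SemidirectProduct.mul_left, map_mul, wt0_act]

theorem wt_apply (f : Fin 3 → ℤ) (g : C.Hat) : C.wt f g = C.wt0 f g.left := rfl

/-- The height of an element of the right-angled Artin group. -/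
def ht (a : C.Raag) : ℤ := Multiplicative.toAdd (C.wt0 (fun _ => 1) a)

theorem ht_one : C.ht 1 = 0 := by simp only [ht, map_one, toAdd_one]

theorem ht_mul (a b : C.Raag) : C.ht (a * b) = C.ht a + C.ht b := by
  simp only [ht, map_mul, toAdd_mul]

theorem ht_inv (a : C.Raag) : C.ht a⁻¹ = - C.ht a := by simp only [ht, map_inv, toAdd_inv]

theorem ht_gen (v : V) : C.ht (C.gen v) = 1 := by simp only [ht, wt0_gen, toAdd_ofAdd]

theorem ht_act (q : Q2) (a : C.Raag) : C.ht (C.act q a) = C.ht a := by
  simp only [ht, wt0_act]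

/-- The group: the kernel of the height on the semidirect product. -/
def GG : Subgroup C.Hat := (C.wt fun _ => 1).ker

theorem mem_GG {g : C.Hat} : g ∈ C.GG ↔ C.ht g.left = 0 := by
  rw [GG, MonoidHom.mem_ker, wt_apply, ht, toAdd_eq_zero]

/-- Edges, ordered by colour. -/
@[ext] structure Ed where
  u : V
  v : V
  huv : C.adj u v
  lt : C.col u < C.col v

/-- Triangles, ordered by colour. -/
@[ext] structure Tr where
  u : V
  v : V
  w : V
  huv : C.adj u v
  huw : C.adj u w
  hvw : C.adj v w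
  cu : C.col u = 0
  cv : C.col v = 1
  cw : C.col w = 2

instance : MulAction Q2 C.Ed where
  smul q e := ⟨q • e.u, q • e.v, C.adj_smul q e.huv, by
    rw [C.col_smul, C.col_smul]; exact e.lt⟩
  one_smul e := Ed.ext (one_smul _ e.u) (one_smul _ e.v)
  mul_smul q q' e := Ed.ext (mul_smul q q' e.u) (mul_smul q q' e.v)

instance : MulAction Q2 C.Tr where
  smul q t := ⟨q • t.u, q • t.v, q • t.w, C.adj_smul q t.huv, C.adj_smul q t.huw,
    C.adj_smul q t.hvw, (C.col_smul q _).trans t.cu, (C.col_smul q _).trans t.cv,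
    (C.col_smul q _).trans t.cw⟩
  one_smul t := Tr.ext (one_smul _ t.u) (one_smul _ t.v) (one_smul _ t.w)
  mul_smul q q' t := Tr.ext (mul_smul q q' t.u) (mul_smul q q' t.v) (mul_smul q q' t.w)

variable {C}

theorem Ed.smul_u (q : Q2) (e : C.Ed) : (q • e).u = q • e.u := rfl
theorem Ed.smul_v (q : Q2) (e : C.Ed) : (q • e).v = q • e.v := rfl
theorem Tr.smul_u (q : Q2) (t : C.Tr) : (q • t).u = q • t.u := rfl
theorem Tr.smul_v (q : Q2) (t : C.Tr) : (q • t).v = q • t.v := rfl
theorem Tr.smul_w (q : Q2) (t : C.Tr) : (q • t).w = q • t.w := rfl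

/-- The edge opposite to the vertex of colour `0`. -/
def Tr.e0 (t : C.Tr) : C.Ed := ⟨t.v, t.w, t.hvw, by rw [t.cv, t.cw]; decide⟩

/-- The edge opposite to the vertex of colour `1`. -/
def Tr.e1 (t : C.Tr) : C.Ed := ⟨t.u, t.w, t.huw, by rw [t.cu, t.cw]; decide⟩

/-- The edge opposite to the vertex of colour `2`. -/
def Tr.e2 (t : C.Tr) : C.Ed := ⟨t.u, t.v, t.huv, by rw [t.cu, t.cv]; decide⟩

theorem Tr.smul_e0 (q : Q2) (t : C.Tr) : (q • t).e0 = q • t.e0 := rfl
theorem Tr.smul_e1 (q : Q2) (t : C.Tr) : (q • t).e1 = q • t.e1 := rfl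
theorem Tr.smul_e2 (q : Q2) (t : C.Tr) : (q • t).e2 = q • t.e2 := rfl

variable (C)

/-- Cells of the universal cover of the Salvetti complex: a bottom vertex and a simplex. -/
@[ext] structure Cell (S : Type) where
  g : C.Raag
  s : S

instance (S : Type) [MulAction Q2 S] : MulAction C.Hat (C.Cell S) where
  smul k c := ⟨k.left * C.act k.right c.g, k.right • c.s⟩
  one_smul c := Cell.ext (by
    show (1 : C.Hat).left * C.act (1 : C.Hat).right c.g = c.g
    rw [SemidirectProduct.one_left, SemidirectProduct.one_right, map_one, one_mul]; rfl)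
    (one_smul Q2 c.s)
  mul_smul k k' c := Cell.ext (by
    show (k * k').left * C.act (k * k').right c.g =
      k.left * C.act k.right (k'.left * C.act k'.right c.g)
    rw [SemidirectProduct.mul_left, SemidirectProduct.mul_right, map_mul, map_mul, mul_assoc]; rfl)
    (mul_smul k.right k'.right c.s)

theorem smul_cell {S : Type} [MulAction Q2 S] (k : C.Hat) (g : C.Raag) (s : S) :
    k • (⟨g, s⟩ : C.Cell S) = ⟨k.left * C.act k.right g, k.right • s⟩ := rfl

theorem smul_cell' {S : Type} [MulAction Q2 S] (k : C.GG) (g : C.Raag) (s : S) :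
    k • (⟨g, s⟩ : C.Cell S) = ⟨k.1.left * C.act k.1.right g, k.1.right • s⟩ := rfl

/-- The boundary of an edge. -/
noncomputable def d1 (c : C.Cell V) : C.Cell Unit →₀ ℤ :=
  Finsupp.single ⟨c.g * C.gen c.s, ()⟩ 1 - Finsupp.single ⟨c.g, ()⟩ 1

/-- The boundary of a square. -/
noncomputable def d2 (c : C.Cell C.Ed) : C.Cell V →₀ ℤ :=
  (Finsupp.single ⟨c.g * C.gen c.s.u, c.s.v⟩ 1 - Finsupp.single ⟨c.g, c.s.v⟩ 1) -
    (Finsupp.single ⟨c.g * C.gen c.s.v, c.s.u⟩ 1 - Finsupp.single ⟨c.g, c.s.u⟩ 1)

/-- The boundary of a cube. -/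
noncomputable def d3 (c : C.Cell C.Tr) : C.Cell C.Ed →₀ ℤ :=
  (Finsupp.single ⟨c.g * C.gen c.s.u, c.s.e0⟩ 1 - Finsupp.single ⟨c.g, c.s.e0⟩ 1) -
    (Finsupp.single ⟨c.g * C.gen c.s.v, c.s.e1⟩ 1 - Finsupp.single ⟨c.g, c.s.e1⟩ 1) +
    (Finsupp.single ⟨c.g * C.gen c.s.w, c.s.e2⟩ 1 - Finsupp.single ⟨c.g, c.s.e2⟩ 1)

/-- The graph is connected. -/
def Conn : Prop := ∀ P : V → Prop, (∀ u v, C.adj u v → P u → P v) → ∀ u v, P u → P v

/-- Finitely many orbits of vertices. -/
def Cofin : Prop := ∃ V0 : Set V, V0.Finite ∧ ∀ v : V, ∃ q : Q2, q • v ∈ V0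

/-- The graph is locally finite. -/
def LocFin : Prop := ∀ v : V, {u | C.adj v u}.Finite

/-- The first cohomology of the clique complex vanishes. -/
def H1 : Prop := ∀ (B : Type) [AddCommGroup B] (lam : V → V → B),
  (∀ u v w, C.cl u v → C.cl v w → C.cl u w → lam u v + lam v w = lam u w) →
    ∃ t : V → B, ∀ v w, C.cl v w → lam v w = t w - t v

/-- The top boundary map of the clique complex has an equivariant retraction. -/
def Ret : Prop := ∃ ρ : C.Ed → (C.Tr →₀ ℤ),
  (∀ (q : Q2) (e : C.Ed), ρ (q • e) = Finsupp.mapDomain (fun t => q • t) (ρ e)) ∧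
    ∀ t : C.Tr, ρ t.e0 - ρ t.e1 + ρ t.e2 = Finsupp.single t 1

/-- Nilpotent local systems over finite parts, nontrivial around a fixed four-cycle. -/
def Loc : Prop := ∃ v0 v1 v2 v3 : V, C.cl v0 v1 ∧ C.cl v1 v2 ∧ C.cl v2 v3 ∧ C.cl v3 v0 ∧
  ∀ S : Finset V, ∃ (U : Type) (_ : Group U), QNil U ∧ ∃ lam : V → V → U,
    (∀ u ∈ S, ∀ v ∈ S, ∀ w ∈ S, C.cl u v → C.cl v w → C.cl u w → lam u v * lam v w = lam u w) ∧
      lam v0 v3 * lam v3 v2 * lam v2 v1 * lam v1 v0 ≠ 1

/-- The boundary of cubes has a retraction that commutes with the group. -/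
def CubeRet : Prop := ∃ b : C.Cell C.Ed → (C.Cell C.Tr →₀ ℤ),
  (∀ (k : C.GG) (c : C.Cell C.Ed), b (k • c) = permRho ℤ C.GG (C.Cell C.Tr) k (b c)) ∧
    ∀ c : C.Cell C.Tr, Finsupp.linearCombination ℤ b (C.d3 c) = Finsupp.single c 1

end Cx

/-! The complex. -/

/-- The letters. -/
inductive Lt
  | a | b | c | x | y | p | r | u | v
  deriving DecidableEq

/-- Letters and the identity. -/
abbrev Gn : Type := Option Lt

/-- The triangles, read as `face 2 t * face 0 t = face 1 t`. -/
inductive Tg
  | r (g : Gn)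
  | l (g : Lt)
  | t1 | t2 | t3 | t4 | t5 | t6 | t7
  deriving DecidableEq

/-- The edge of the triangle `t` opposite to the vertex `p`. -/
def face : Fin 3 → Tg → Gn
  | 2, .r g => g
  | 0, .r _ => none
  | 1, .r g => g
  | 2, .l _ => none
  | 0, .l g => some g
  | 1, .l g => some g
  | 2, .t1 => some .b
  | 0, .t1 => some .x
  | 1, .t1 => some .p
  | 2, .t2 => some .x
  | 0, .t2 => some .a
  | 1, .t2 => some .p
  | 2, .t3 => some .c
  | 0, .t3 => some .y
  | 1, .t3 => some .r
  | 2, .t4 => some .y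
  | 0, .t4 => some .a
  | 1, .t4 => some .r
  | 2, .t5 => some .b
  | 0, .t5 => some .c
  | 1, .t5 => some .u
  | 2, .t6 => some .c
  | 0, .t6 => some .b
  | 1, .t6 => some .v
  | 2, .t7 => some .a
  | 0, .t7 => some .v
  | 1, .t7 => some .u

/-- The displacement of an edge. -/
def volt : Gn → Q2
  | some .x => FreeGroup.of false
  | some .p => FreeGroup.of false
  | some .y => FreeGroup.of true
  | some .r => FreeGroup.of true
  | _ => 1

theorem volt_face (t : Tg) : volt (face 2 t) * volt (face 0 t) = volt (face 1 t) := by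
  rcases t with g | g | _ | _ | _ | _ | _ | _ | _ <;> simp only [face, volt, mul_one, one_mul]

/-- Position of the end `i` of the edge `(p, g)` relative to the edge. -/
def eT (p : Fin 3) (g : Gn) (i : Fin 3) : Q2 := if i = 2 ∨ (p = 2 ∧ i = 1) then volt g else 1

/-- Position of the corner `i` of the triangle `t` relative to the triangle. -/
def tT (t : Tg) (i : Fin 3) : Q2 :=
  if i = 0 then 1 else if i = 1 then volt (face 2 t) else volt (face 1 t)

/-- Position of the side `p` of the triangle `t` relative to the triangle. -/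
def tE (t : Tg) (p : Fin 3) : Q2 := if p = 0 then volt (face 2 t) else 1

/-- The vertices of the complex: vertices, edges and triangles with a position. -/
inductive Vx
  | v0 (q : Q2) (i : Fin 3)
  | v1 (q : Q2) (p : Fin 3) (g : Gn)
  | v2 (q : Q2) (t : Tg)

/-- Translation. -/
def Vx.tr (k : Q2) : Vx → Vx
  | .v0 q i => .v0 (k * q) i
  | .v1 q p g => .v1 (k * q) p g
  | .v2 q t => .v2 (k * q) t

instance : MulAction Q2 Vx where
  smul := Vx.tr
  one_smul v := by
    show Vx.tr 1 v = v
    cases v <;> simp only [Vx.tr, one_mul]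
  mul_smul k k' v := by
    show Vx.tr (k * k') v = Vx.tr k (Vx.tr k' v)
    cases v <;> simp only [Vx.tr, mul_assoc]

theorem smul_v0 (k q : Q2) (i : Fin 3) : k • Vx.v0 q i = Vx.v0 (k * q) i := rfl
theorem smul_v1 (k q : Q2) (p : Fin 3) (g : Gn) : k • Vx.v1 q p g = Vx.v1 (k * q) p g := rfl
theorem smul_v2 (k q : Q2) (t : Tg) : k • Vx.v2 q t = Vx.v2 (k * q) t := rfl

/-- The colour. -/
def col : Vx → Fin 3
  | .v0 _ _ => 0
  | .v1 _ _ _ => 1
  | .v2 _ _ => 2

/-- Adjacency. -/
def Adj : Vx → Vx → Prop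
  | .v0 q i, .v1 q' p g => i ≠ p ∧ q = q' * eT p g i
  | .v1 q' p g, .v0 q i => i ≠ p ∧ q = q' * eT p g i
  | .v1 q' p g, .v2 q t => g = face p t ∧ q' = q * tE t p
  | .v2 q t, .v1 q' p g => g = face p t ∧ q' = q * tE t p
  | .v0 q' i, .v2 q t => q' = q * tT t i
  | .v2 q t, .v0 q' i => q' = q * tT t i
  | .v0 _ _, .v0 _ _ => False
  | .v1 _ _ _, .v1 _ _ _ => False
  | .v2 _ _, .v2 _ _ => False

/-- The complex. -/
def LL : Cx Vx where
  adj := Adj
  col := col
  symm := by
    intro u v h
    cases u <;> cases v <;> exact h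
  col_ne := by
    intro u v h
    cases u <;> cases v <;> first | exact h.elim | simp [col]
  adj_smul := by
    intro k u v h
    cases u <;> cases v <;>
      first
      | exact h.elim
      | exact ⟨h.1, by rw [h.2, mul_assoc]⟩
      | exact (congrArg (fun z => k * z) h).trans (mul_assoc _ _ _).symm
  col_smul := by
    intro k v
    cases v <;> rfl
  free := by
    intro k v h
    cases v with
    | v0 q i => exact mul_eq_right.mp (Vx.v0.inj h).1
    | v1 q p g => exact mul_eq_right.mp (Vx.v1.inj h).1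
    | v2 q t => exact mul_eq_right.mp (Vx.v2.inj h).1

end Vale.Agent.P173F
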