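import Vale.Agent.P173F.Defs

/-! The group is finitely generated. -/

namespace Vale.Agent.P173F

namespace Cx

variable {V : Type} [MulAction Q2 V] (C : Cx V)

theorem inr_mem (q : Q2) : (SemidirectProduct.inr q : C.Hat) ∈ C.GG := by
  rw [mem_GG, SemidirectProduct.left_inr, ht_one]

theorem inl_mem {a : C.Raag} (h : C.ht a = 0) : (SemidirectProduct.inl a : C.Hat) ∈ C.GG := by
  rw [mem_GG, SemidirectProduct.left_inl, h]

/-- The group is finitely generated. -/
theorem fg (u0 : V) (hc : C.Conn) (hf : Cofin (V := V)) (hl : C.LocFin) : Group.FG C.GG := by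
  obtain ⟨V0, hV0, hq⟩ := hf
  let P : Set (V × V) := ⋃ z ∈ V0, Prod.mk z '' {u | C.adj z u}
  have hP : P.Finite := hV0.biUnion fun z _ => (hl z).image _
  let S : Set C.Hat := (Set.range fun b : Bool => SemidirectProduct.inr (FreeGroup.of b)) ∪
    (fun p : V × V => SemidirectProduct.inl (C.gen p.1 * (C.gen p.2)⁻¹)) '' P
  have hS : S.Finite := (Set.finite_range _).union (hP.image _)
  let H : Subgroup C.Hat := Subgroup.closure S
  have h1 : ∀ q : Q2, (SemidirectProduct.inr q : C.Hat) ∈ H := by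
    intro q
    induction q using FreeGroup.induction_on with
    | C1 => rw [map_one]; exact H.one_mem
    | of b => exact Subgroup.subset_closure (Or.inl ⟨b, rfl⟩)
    | inv_of b hb => rw [map_inv]; exact H.inv_mem hb
    | mul a b ha hb => rw [map_mul]; exact H.mul_mem ha hb
  let H0 : Subgroup C.Raag := H.comap SemidirectProduct.inl
  have h2 : ∀ u v, C.adj u v → C.gen u * (C.gen v)⁻¹ ∈ H0 := by
    intro u v huv
    obtain ⟨q, hq⟩ := hq u
    have m : (SemidirectProduct.inl (C.gen (q • u) * (C.gen (q • v))⁻¹) : C.Hat) ∈ H :=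
      Subgroup.subset_closure (Or.inr ⟨(q • u, q • v),
        Set.mem_biUnion hq ⟨q • v, C.adj_smul q huv, rfl⟩, rfl⟩)
    rw [← act_gen, ← act_gen, ← map_inv (C.act _), ← map_mul (C.act _),
      SemidirectProduct.inl_aut] at m
    have m2 := H.mul_mem (H.mul_mem (H.inv_mem (h1 q)) m) (h1 q)
    have e : (SemidirectProduct.inr q : C.Hat)⁻¹ * (SemidirectProduct.inr q *
        SemidirectProduct.inl (C.gen u * (C.gen v)⁻¹) * SemidirectProduct.inr q⁻¹) *
        SemidirectProduct.inr q = SemidirectProduct.inl (C.gen u * (C.gen v)⁻¹) := by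
      rw [map_inv (SemidirectProduct.inr : Q2 →* C.Hat)]; group
    rw [e] at m2
    exact m2
  have h3 : ∀ (k : ℤ) (v : V), C.gen u0 ^ k * (C.gen v ^ k)⁻¹ ∈ H0 := by
    intro k v
    refine hc (fun v => C.gen u0 ^ k * (C.gen v ^ k)⁻¹ ∈ H0) (fun u v huv hu => ?_) u0 v
      (by rw [mul_inv_cancel]; exact H0.one_mem)
    have hcomm : Commute (C.gen u) (C.gen v)⁻¹ := Commute.inv_right (C.gen_comm huv)
    have m := H0.mul_mem hu (H0.zpow_mem (h2 u v huv) k)
    rw [hcomm.mul_zpow, inv_zpow, mul_assoc, inv_mul_cancel_left] at m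
    exact m
  have h4 : ∀ (a : C.Raag) (k : ℤ), C.gen u0 ^ k * a * (C.gen u0 ^ (k + C.ht a))⁻¹ ∈ H0 := by
    intro a
    induction a using C.induction with
    | h1 => intro k; rw [ht_one, add_zero, mul_one, mul_inv_cancel]; exact H0.one_mem
    | hg v =>
      intro k
      have m := H0.mul_mem (h3 k v) (H0.inv_mem (h3 (k + 1) v))
      have e : C.gen u0 ^ k * (C.gen v ^ k)⁻¹ * (C.gen u0 ^ (k + 1) * (C.gen v ^ (k + 1))⁻¹)⁻¹ =
          C.gen u0 ^ k * C.gen v * (C.gen u0 ^ (k + 1))⁻¹ := by group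
      rw [ht_gen, ← e]
      exact m
    | hm a b ha hb =>
      intro k
      have m := H0.mul_mem (ha k) (hb (k + C.ht a))
      have e : C.gen u0 ^ k * a * (C.gen u0 ^ (k + C.ht a))⁻¹ * (C.gen u0 ^ (k + C.ht a) * b *
          (C.gen u0 ^ (k + C.ht a + C.ht b))⁻¹) =
          C.gen u0 ^ k * (a * b) * (C.gen u0 ^ (k + (C.ht a + C.ht b)))⁻¹ := by
        rw [add_assoc]
        simp only [mul_assoc, inv_mul_cancel_left]
      rw [ht_mul, ← e]
      exact m
    | hi a ha =>
      intro k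
      have m := H0.inv_mem (ha (k + - C.ht a))
      rw [neg_add_cancel_right, mul_inv_rev, inv_inv, mul_inv_rev, ← mul_assoc] at m
      rw [ht_inv]
      exact m
  rw [Group.fg_iff_subgroup_fg, Subgroup.fg_iff]
  refine ⟨S, le_antisymm ((Subgroup.closure_le _).2 ?_) fun g hg => ?_, hS⟩
  · rintro g (⟨b, rfl⟩ | ⟨p, -, rfl⟩)
    · exact C.inr_mem _
    · exact C.inl_mem (by rw [ht_mul, ht_inv, ht_gen, ht_gen, add_neg_cancel])
  · have m := h4 g.left 0
    rw [C.mem_GG.1 hg, add_zero, zpow_zero, one_mul, inv_one, mul_one] at m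
    rw [← SemidirectProduct.inl_left_mul_inr_right g]
    exact H.mul_mem m (h1 _)

end Cx

end Vale.Agent.P173F
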