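import Vale.Agent.P173F.Defs

/-! The tree lemma for right-angled Artin groups and the exactness of the Salvetti complex. -/

namespace Vale.Agent.P173F

open Vale.Agent.P173

namespace Cx

variable {V : Type} [MulAction Q2 V] (C : Cx V)

/-- The twisted right translation. -/
def twist {M : Type} [AddCommGroup M] (t : C.Raag) (b : C.Raag → M) :
    Equiv.Perm (C.Raag × M) where
  toFun p := (p.1 * t, p.2 + b p.1)
  invFun p := (p.1 * t⁻¹, p.2 - b (p.1 * t⁻¹))
  left_inv p := by simp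
  right_inv p := by simp

/-- **The tree lemma.** -/
theorem ftl {M : Type} [AddCommGroup M] (T : Set V) (β : V → C.Raag → M)
    (h : ∀ u ∈ T, ∀ v ∈ T, C.adj u v → ∀ g,
      β u g + β v (g * C.gen u) = β v g + β u (g * C.gen v)) :
    ∃ f : C.Raag → M, ∀ u ∈ T, ∀ g, f (g * C.gen u) = f g + β u g := by
  classical
  let P : V → Equiv.Perm (C.Raag × M) := fun u => if u ∈ T then C.twist (C.gen u) (β u) else 1
  have hPT : ∀ u ∈ T, ∀ p, P u p = (p.1 * C.gen u, p.2 + β u p.1) := by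
    intro u hu p
    simp only [P, if_pos hu]
    rfl
  have hPN : ∀ u, u ∉ T → P u = 1 := fun u hu => if_neg hu
  have hc : ∀ u v, C.adj u v → P u * P v = P v * P u := by
    intro u v huv
    by_cases hu : u ∈ T
    · by_cases hv : v ∈ T
      · refine Equiv.ext fun p => ?_
        rw [Equiv.Perm.mul_apply, Equiv.Perm.mul_apply, hPT v hv, hPT u hu, hPT u hu, hPT v hv]
        refine Prod.ext ?_ ?_
        · show p.1 * C.gen v * C.gen u = p.1 * C.gen u * C.gen v
          rw [mul_assoc, mul_assoc, C.gen_comm huv]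
        · show p.2 + β v p.1 + β u (p.1 * C.gen v) = p.2 + β u p.1 + β v (p.1 * C.gen u)
          rw [add_assoc, add_assoc, h u hu v hv huv]
      · rw [hPN v hv, mul_one, one_mul]
    · rw [hPN u hu, mul_one, one_mul]
  let Φ : C.Raag →* Equiv.Perm (C.Raag × M) := C.lift (fun u => (P u)⁻¹) fun u v huv => by
    rw [← mul_inv_rev, ← mul_inv_rev, hc u v huv]
  let π : C.Raag →* C.Raag := C.lift (fun u => if u ∈ T then C.gen u else 1) fun u v huv => by
    split_ifs
    · exact C.gen_comm huv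
    · rw [mul_one, one_mul]
    · rw [mul_one, one_mul]
    · rfl
  have hΦ : ∀ u, Φ (C.gen u)⁻¹ = P u := by
    intro u
    rw [map_inv, C.lift_gen, inv_inv]
  have hπ : ∀ u, π (C.gen u) = if u ∈ T then C.gen u else 1 := fun u => C.lift_gen _ _ u
  have hfst : ∀ g : C.Raag, ∀ p, (Φ g⁻¹ p).1 = p.1 * π g := by
    intro g
    refine C.induction (p := fun g => ∀ p, (Φ g⁻¹ p).1 = p.1 * π g) ?_ ?_ ?_ ?_ g
    · intro p
      simp
    · intro u p
      rw [hΦ, hπ]
      by_cases hu : u ∈ T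
      · rw [hPT u hu, if_pos hu]
      · rw [hPN u hu, if_neg hu, mul_one]
        rfl
    · intro a b ha hb p
      rw [mul_inv_rev, map_mul, Equiv.Perm.mul_apply, hb, ha, map_mul, mul_assoc]
    · intro a ha p
      have h1 := ha (Φ a p)
      rw [← Equiv.Perm.mul_apply, ← map_mul, inv_mul_cancel, map_one, Equiv.Perm.one_apply] at h1
      rw [inv_inv, map_inv, h1, mul_inv_cancel_right]
  refine ⟨fun g => (Φ g⁻¹ (g * (π g)⁻¹, 0)).2, fun u hu g => ?_⟩
  have e1 : g * C.gen u * (π (g * C.gen u))⁻¹ = g * (π g)⁻¹ := by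
    rw [map_mul, hπ, if_pos hu]
    group
  show (Φ (g * C.gen u)⁻¹ (g * C.gen u * (π (g * C.gen u))⁻¹, 0)).2 = _
  rw [e1, mul_inv_rev, map_mul, Equiv.Perm.mul_apply, hΦ, hPT u hu, hfst, inv_mul_cancel_right]

theorem lc_sub {X A : Type} [AddCommGroup A] [Module ℤ A] (F : X → A) (x y : X) :
    Finsupp.linearCombination ℤ F (Finsupp.single x 1 - Finsupp.single y 1) = F x - F y := by
  rw [map_sub, lc_single_gen, lc_single_gen]

theorem coch_zero {A : Type} (F : C.Raag → A) (h : ∀ g u, F (g * C.gen u) = F g) (g : C.Raag) :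
    F g = F 1 := by
  have key : ∀ a g, F (g * a) = F g := by
    intro a
    refine C.induction (p := fun a => ∀ g, F (g * a) = F g) ?_ ?_ ?_ ?_ a
    · intro g
      rw [mul_one]
    · intro u g
      exact h g u
    · intro a b ha hb g
      rw [← mul_assoc, hb, ha]
    · intro a ha g
      rw [← ha (g * a⁻¹), inv_mul_cancel_right]
  rw [← key g 1, one_mul]

theorem coch_one {A : Type} [AddCommGroup A] (F : C.Cell V → A)
    (h : ∀ (g : C.Raag) (e : C.Ed), (F ⟨g * C.gen e.u, e.v⟩ - F ⟨g, e.v⟩) -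
      (F ⟨g * C.gen e.v, e.u⟩ - F ⟨g, e.u⟩) = 0) :
    ∃ f : C.Raag → A, ∀ g u, F ⟨g, u⟩ = f (g * C.gen u) - f g := by
  have key : ∀ u v, C.adj u v → C.col u < C.col v → ∀ g,
      F ⟨g, u⟩ + F ⟨g * C.gen u, v⟩ = F ⟨g, v⟩ + F ⟨g * C.gen v, u⟩ := by
    intro u v huv hlt g
    have := h g ⟨u, v, huv, hlt⟩
    rw [← sub_eq_zero, ← this]
    abel
  obtain ⟨f, hf⟩ := C.ftl Set.univ (fun u g => F ⟨g, u⟩) fun u _ v _ huv g => by
    rcases lt_or_gt_of_ne (C.col_ne huv) with hlt | hlt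
    · exact key u v huv hlt g
    · exact (key v u (C.symm huv) hlt g).symm
  exact ⟨f, fun g u => by rw [hf u trivial g, add_sub_cancel_left]⟩

theorem coch_two {A : Type} [AddCommGroup A] (F : C.Cell C.Ed → A)
    (h : ∀ (g : C.Raag) (t : C.Tr), (F ⟨g * C.gen t.u, t.e0⟩ - F ⟨g, t.e0⟩) -
      (F ⟨g * C.gen t.v, t.e1⟩ - F ⟨g, t.e1⟩) + (F ⟨g * C.gen t.w, t.e2⟩ - F ⟨g, t.e2⟩) = 0) :
    ∃ K : V → C.Raag → A, ∀ (g : C.Raag) (e : C.Ed), F ⟨g, e⟩ =
      (K e.v (g * C.gen e.u) - K e.v g) - (K e.u (g * C.gen e.v) - K e.u g) := by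
  classical
  let Ft : V → V → C.Raag → A := fun x y g =>
    if hh : C.adj x y ∧ C.col x < C.col y then F ⟨g, ⟨x, y, hh.1, hh.2⟩⟩ else 0
  have hFt : ∀ (e : C.Ed) g, Ft e.u e.v g = F ⟨g, e⟩ := fun e g => dif_pos ⟨e.huv, e.lt⟩
  choose K1 hK1 using fun v : V => C.ftl {x | C.adj x v ∧ C.col x = 0} (fun x g => Ft x v g)
    fun x hx y hy hxy _ => absurd (hx.2.trans hy.2.symm) (C.col_ne hxy)
  let K' : V → C.Raag → A := fun v g => if C.col v = 1 then K1 v g else 0
  have hK0 : ∀ u, C.col u = 0 → ∀ g, K' u g = 0 := fun u hu g => if_neg (by rw [hu]; decide)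
  have hK1' : ∀ v, C.col v = 1 → ∀ g, K' v g = K1 v g := fun v hv g => if_pos hv
  have key : ∀ (t : C.Tr) g,
      (Ft t.u t.w g + (K' t.u (g * C.gen t.w) - K' t.u g)) +
        (Ft t.v t.w (g * C.gen t.u) + (K' t.v (g * C.gen t.u * C.gen t.w) - K' t.v (g * C.gen t.u))) =
      (Ft t.v t.w g + (K' t.v (g * C.gen t.w) - K' t.v g)) +
        (Ft t.u t.w (g * C.gen t.v) +
          (K' t.u (g * C.gen t.v * C.gen t.w) - K' t.u (g * C.gen t.v))) := by
    intro t g
    have e0 : ∀ g, Ft t.v t.w g = F ⟨g, t.e0⟩ := hFt t.e0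
    have e1 : ∀ g, Ft t.u t.w g = F ⟨g, t.e1⟩ := hFt t.e1
    have e2 : ∀ g, Ft t.u t.v g = F ⟨g, t.e2⟩ := hFt t.e2
    have e3 : ∀ g, K1 t.v (g * C.gen t.u) = K1 t.v g + F ⟨g, t.e2⟩ := fun g => by
      rw [hK1 t.v t.u ⟨t.huv, t.cu⟩ g, e2]
    simp only [hK0 t.u t.cu, hK1' t.v t.cv, e0, e1]
    rw [mul_assoc g, C.gen_comm t.huw, ← mul_assoc g, e3, e3, ← sub_eq_zero, ← h g t]
    abel
  have h2 : ∀ w : V, ∃ f : C.Raag → A, C.col w = 2 → ∀ x, C.adj x w → ∀ g,
      f (g * C.gen x) = f g + (Ft x w g + (K' x (g * C.gen w) - K' x g)) := by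
    intro w
    by_cases hw : C.col w = 2
    · obtain ⟨f, hf⟩ := C.ftl {x | C.adj x w}
        (fun x g => Ft x w g + (K' x (g * C.gen w) - K' x g)) fun x hx y hy hxy g => by
          have c1 := C.col_ne hxy
          have c2 := C.col_ne (show C.adj x w from hx)
          have c3 := C.col_ne (show C.adj y w from hy)
          rw [hw] at c2 c3
          have c4 : (C.col x = 0 ∧ C.col y = 1) ∨ (C.col y = 0 ∧ C.col x = 1) := by
            revert c1 c2 c3
            generalize C.col x = i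
            generalize C.col y = j
            revert i j
            decide
          rcases c4 with c4 | c4
          · exact key ⟨x, y, w, hxy, hx, hy, c4.1, c4.2, hw⟩ g
          · exact (key ⟨y, x, w, C.symm hxy, hy, hx, c4.1, c4.2, hw⟩ g).symm
      exact ⟨f, fun _ x hx g => hf x hx g⟩
    · exact ⟨0, fun h => absurd h hw⟩
  choose K2 hK2 using h2
  refine ⟨fun v g => if C.col v = 2 then K2 v g else K' v g, fun g e => ?_⟩
  have hu : C.col e.u ≠ 2 := by
    have := e.lt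
    revert this
    generalize C.col e.u = i
    generalize C.col e.v = j
    revert i j
    decide
  by_cases hv : C.col e.v = 2
  · simp only [if_pos hv, if_neg hu]
    rw [hK2 e.v hv e.u e.huv g, hFt]
    abel
  · have c4 : C.col e.u = 0 ∧ C.col e.v = 1 := by
      have := e.lt
      revert this hv
      generalize C.col e.u = i
      generalize C.col e.v = j
      revert i j
      decide
    simp only [if_neg hv, if_neg hu, hK0 e.u c4.1, hK1' e.v c4.2]
    rw [hK1 e.v e.u ⟨e.huv, c4.1⟩ g, hFt]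
    abel

theorem exact_two (z : C.Cell C.Ed →₀ ℤ) (hz : Finsupp.linearCombination ℤ C.d2 z = 0) :
    ∃ y : C.Cell C.Tr →₀ ℤ, Finsupp.linearCombination ℤ C.d3 y = z := by
  refine exact_of_coch C.d3 C.d2 (fun A _ _ F hF => ?_) z hz
  obtain ⟨K, hK⟩ := C.coch_two F fun g t => by
    have := hF ⟨g, t⟩
    rwa [d3, map_add, map_sub, lc_sub, lc_sub, lc_sub] at this
  refine ⟨fun c => K c.s c.g, fun c => ?_⟩
  rw [d2, map_sub, lc_sub, lc_sub]
  exact hK c.g c.s

theorem exact_one (z : C.Cell V →₀ ℤ) (hz : Finsupp.linearCombination ℤ C.d1 z = 0) :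
    ∃ y : C.Cell C.Ed →₀ ℤ, Finsupp.linearCombination ℤ C.d2 y = z := by
  refine exact_of_coch C.d2 C.d1 (fun A _ _ F hF => ?_) z hz
  obtain ⟨f, hf⟩ := C.coch_one F fun g e => by
    have := hF ⟨g, e⟩
    rwa [d2, map_sub, lc_sub, lc_sub] at this
  refine ⟨fun c => f c.g, fun c => ?_⟩
  rw [d1, lc_sub]
  exact hf c.g c.s

theorem exact_zero (z : C.Cell Unit →₀ ℤ)
    (hz : Finsupp.linearCombination ℤ (fun _ : C.Cell Unit => (1 : ℤ)) z = 0) :
    ∃ y : C.Cell V →₀ ℤ, Finsupp.linearCombination ℤ C.d1 y = z := by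
  refine exact_of_coch C.d1 (fun _ => (Finsupp.single () 1 : Unit →₀ ℤ)) (fun A _ _ F hF => ?_)
    z ?_
  · refine ⟨fun _ => F ⟨1, ()⟩, fun c => ?_⟩
    rw [lc_single_gen]
    refine C.coch_zero (fun g => F ⟨g, ()⟩) (fun g u => ?_) c.g
    have := hF ⟨g, u⟩
    rwa [d1, lc_sub, sub_eq_zero] at this
  · have h1 : Finsupp.linearCombination ℤ
        (fun _ : C.Cell Unit => (Finsupp.single () 1 : Unit →₀ ℤ)) z =
        Finsupp.single () (Finsupp.linearCombination ℤ (fun _ : C.Cell Unit => (1 : ℤ)) z) := by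
      clear hz
      induction z using Finsupp.induction_linear with
      | zero => simp
      | add f h hf hh => rw [map_add, map_add, hf, hh, Finsupp.single_add]
      | single x r =>
        rw [Finsupp.linearCombination_single, Finsupp.linearCombination_single]
        simp
    rw [h1, hz, Finsupp.single_zero]

theorem d2_d3 (c : C.Cell C.Tr) : Finsupp.linearCombination ℤ C.d2 (C.d3 c) = 0 := by
  obtain ⟨g, t⟩ := c
  rw [d3, map_add, map_sub, lc_sub, lc_sub, lc_sub]
  simp only [d2, Tr.e0, Tr.e1, Tr.e2, mul_assoc, C.gen_comm t.huv, C.gen_comm t.huw,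
    C.gen_comm t.hvw]
  abel

theorem d1_d2 (c : C.Cell C.Ed) : Finsupp.linearCombination ℤ C.d1 (C.d2 c) = 0 := by
  obtain ⟨g, e⟩ := c
  rw [d2, map_sub, lc_sub, lc_sub]
  simp only [d1, mul_assoc, C.gen_comm e.huv]
  abel

theorem d0_d1 (c : C.Cell V) :
    Finsupp.linearCombination ℤ (fun _ : C.Cell Unit => (1 : ℤ)) (C.d1 c) = 0 := by
  rw [d1, lc_sub, sub_self]

end Cx

end Vale.Agent.P173F
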