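import Vale.Agent.P173F.Coarse

/-! The coarse copies of the scaled complex in the group. -/

namespace Vale.Agent.P173F

open Vale.Agent.P173 Vale.Agent.P173.Hol

universe u

/-- From the geometric input to the contradiction. -/
theorem contra_of_geom (hlat : LatStmt) {G : Type} [Group G] {X R : Type u} {V : Type}
    (φ : X → G) (rel : R → FreeGroup X) (hsurj : Function.Surjective (FreeGroup.lift φ))
    (rel_one : ∀ r, FreeGroup.lift φ (rel r) = 1)
    (ker_le : ∀ w, FreeGroup.lift φ w = 1 → w ∈ Subgroup.normalClosure (Set.range rel))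
    (star : ∀ (B : Type) [AddCommGroup B] [Module ℚ B] (c : R → G → B),
      ∃ b : X → G → B, ∀ r h, S φ b (rel r) h = c r h)
    (E : V → V → Prop) (E_refl : ∀ v, E v v) (E_symm : ∀ u v, E u v → E v u)
    (h1 : ∀ (B : Type) [AddCommGroup B] (lam : V → V → B),
      (∀ u v w, E u v → E v w → E u w → lam u v + lam v w = lam u w) →
        ∃ t : V → B, ∀ v w, E v w → lam v w = t w - t v)
    (v0 v1 v2 v3 : V) (e01 : E v0 v1) (e12 : E v1 v2) (e23 : E v2 v3) (e30 : E v3 v0)
    (L3 : ∀ A : Finset V, ∃ (U : Type) (_ : Group U), QNil U ∧ ∃ lam : V → V → U,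
      (∀ u ∈ A, ∀ v ∈ A, ∀ w ∈ A, E u v → E v w → E u w → lam u v * lam v w = lam u w) ∧
        lam v0 v3 * lam v3 v2 * lam v2 v1 * lam v1 v0 ≠ 1)
    (Φ : Set G) (hΦ : Φ.Finite)
    (geom : ∀ K : Set G, K.Finite → ∃ (N : ℕ) (Y : Multiset V → G) (Lab : G → V), 0 < N ∧
      (∀ T T' m m', IsCl E T → IsCl E T' → In N T m → In N T' m' → Y m = Y m' → m = m') ∧
      (∀ T m m', IsCl E T → In N T m → In N T m' → St m m' → Y m' * (Y m)⁻¹ ∈ Φ) ∧
      ∀ T m, IsCl E T → In N T m → ∀ k ∈ K, Lab (k * Y m) ∈ m) : False := by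
  choose sec hsec using hsurj
  have hloop : ∀ g : G × G,
      FreeGroup.lift φ ((sec (g.2 * g.1))⁻¹ * (sec g.2 * sec g.1)) = 1 := by
    intro g
    rw [map_mul, map_mul, map_inv, hsec, hsec, hsec, inv_mul_cancel]
  choose TF hTF1 hTF2 using fun g : G × G => exists_fill φ rel rel_one _ (ker_le _ (hloop g))
  choose KV hKV1 hKV2 hKV3 hKV4 using fun w => exists_visit φ w
  let TT : Set (R × G) := ⋃ g ∈ Φ ×ˢ Φ, TF g
  have hTT : TT.Finite := (hΦ.prod hΦ).biUnion fun g _ => hTF1 g
  let K : Set G := {1} ∪ ((⋃ g ∈ Φ, KV (sec g)) ∪ ⋃ p ∈ TT, (fun k => k * p.2) '' KV (rel p.1))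
  have hK : K.Finite := (Set.finite_singleton _).union
    ((hΦ.biUnion fun g _ => hKV1 _).union (hTT.biUnion fun p _ => (hKV1 _).image _))
  obtain ⟨N, Y, Lab, hN, hinj, hstep, hlab⟩ := geom K hK
  let C : Setup G X R V :=
    { φ := φ
      rel := rel
      E := E
      N := N
      Y := Y
      Lab := Lab
      W := fun m m' => sec (Y m' * (Y m)⁻¹)
      TT := TT
      rel_one := rel_one
      ker_le := ker_le
      star := star
      E_refl := E_refl
      E_symm := E_symm
      h1 := h1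
      N_pos := hN
      W_spec := fun m m' => by rw [hsec, inv_mul_cancel_right]
      inj := hinj
      lab_mem := fun T m hT hm => by
        have := hlab T m hT hm 1 (Or.inl rfl)
        rwa [one_mul] at this
      fill := by
        intro T m m' m'' hT hm hm' hm'' s1 s2 L _ z hz
        have e := hTF2 (Y m' * (Y m)⁻¹, Y m'' * (Y m')⁻¹) z (Y m) fun p hp => hz p
          (Set.mem_biUnion (x := (Y m' * (Y m)⁻¹, Y m'' * (Y m')⁻¹))
            ⟨hstep T m m' hT hm hm' s1, hstep T m' m'' hT hm' hm'' s2⟩ hp)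
        have e1 : Y m'' * (Y m')⁻¹ * (Y m' * (Y m)⁻¹) = Y m'' * (Y m)⁻¹ := by group
        simp only [e1] at e
        rw [hol_mul, hol_mul, hol_inv, map_mul, hsec, hsec, hsec, e1, inv_mul_cancel_left,
          inv_mul_cancel_right, inv_mul_eq_one] at e
        exact e.symm
      telW := by
        intro T m m' hT hm hm' s B _ ω hω
        rw [hKV4 _ Lab ω (· ∈ m) hω (Y m) fun k hk => hlab T m hT hm k
          (Or.inr (Or.inl (Set.mem_biUnion (hstep T m m' hT hm hm' s) hk))), hsec,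
          inv_mul_cancel_right]
      telR := by
        intro T m hT hm p hp B _ ω hω
        have hv : ∀ k ∈ KV (rel p.1), Lab (k * (p.2 * Y m)) ∈ m := fun k hk => by
          rw [← mul_assoc]
          exact hlab T m hT hm _ (Or.inr (Or.inr (Set.mem_biUnion hp ⟨k, hk, rfl⟩)))
        have h0 := hv 1 (hKV2 _)
        rw [one_mul] at h0
        rw [hKV4 _ Lab ω (· ∈ m) hω _ hv, rel_one, one_mul]
        exact add_eq_left.mp (hω _ _ _ h0 h0 h0) }
  exact C.contra hlat v0 v1 v2 v3 e01 e12 e23 e30 L3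

namespace Cx

variable {V : Type} [MulAction Q2 V] (C : Cx V)

theorem cl_smul (q : Q2) {u v : V} (h : C.cl u v) : C.cl (q • u) (q • v) :=
  h.imp (fun e => by rw [e]) (C.adj_smul q)

/-- The abelianization. -/
noncomputable def ab : C.Raag →* Multiplicative (V →₀ ℤ) :=
  C.lift (fun v => Multiplicative.ofAdd (Finsupp.single v 1)) fun _ _ _ => mul_comm _ _

/-- The exponent sum of a generator. -/
noncomputable def cnt (a : C.Raag) (v : V) : ℤ := Multiplicative.toAdd (C.ab a) v

theorem cnt_one (v : V) : C.cnt 1 v = 0 := by simp only [cnt, map_one, toAdd_one, Finsupp.zero_apply]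

theorem cnt_mul (a b : C.Raag) (v : V) : C.cnt (a * b) v = C.cnt a v + C.cnt b v := by
  simp only [cnt, map_mul, toAdd_mul, Finsupp.add_apply]

theorem cnt_inv (a : C.Raag) (v : V) : C.cnt a⁻¹ v = - C.cnt a v := by
  simp only [cnt, map_inv, toAdd_inv, Finsupp.neg_apply]

theorem cnt_gen [DecidableEq V] (u v : V) : C.cnt (C.gen u) v = if u = v then 1 else 0 := by
  simp only [cnt, ab, lift_gen, toAdd_ofAdd, Finsupp.single_apply]

theorem cnt_act (q : Q2) (a : C.Raag) (v : V) : C.cnt (C.act q a) (q • v) = C.cnt a v := by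
  classical
  induction a using C.induction with
  | h1 => rw [map_one, cnt_one, cnt_one]
  | hg u => simp only [act_gen, cnt_gen, smul_left_cancel_iff]
  | hm a b ha hb => rw [map_mul, cnt_mul, cnt_mul, ha, hb]
  | hi a ha => rw [map_inv, cnt_inv, cnt_inv, ha]

theorem cnt_bdd (a : C.Raag) : ∃ c : ℕ, ∀ v, |C.cnt a v| ≤ c := by
  classical
  induction a using C.induction with
  | h1 => exact ⟨0, fun v => by simp [cnt_one]⟩
  | hg u => exact ⟨1, fun v => by rw [cnt_gen]; split_ifs <;> simp⟩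
  | hm a b ha hb =>
    obtain ⟨c, hc⟩ := ha
    obtain ⟨d, hd⟩ := hb
    exact ⟨c + d, fun v => by
      rw [cnt_mul, Nat.cast_add]; exact (abs_add_le _ _).trans (add_le_add (hc v) (hd v))⟩
  | hi a ha =>
    obtain ⟨c, hc⟩ := ha
    exact ⟨c, fun v => by rw [cnt_inv, abs_neg]; exact hc v⟩

/-- The position of a group element. -/
noncomputable def pos (g : C.Hat) (v : V) : ℤ := C.cnt g.left (g.right • v)

theorem pos_mul (k g : C.Hat) (v : V) :
    C.pos (k * g) v = C.pos k (g.right • v) + C.pos g v := by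
  rw [pos, pos, pos, SemidirectProduct.mul_left, SemidirectProduct.mul_right, cnt_mul, mul_smul,
    cnt_act]

/-- The monomial of a lattice point. -/
noncomputable def mon (m : Multiset V) : C.Raag := (m.toList.map C.gen).prod

theorem mon_cons {T : Set V} (hT : IsCl C.cl T) (a : V) (s : Multiset V)
    (h : ∀ v ∈ a ::ₘ s, v ∈ T) : C.mon (a ::ₘ s) = C.gen a * C.mon s := by
  have hp : (a ::ₘ s).toList.Perm (a :: s.toList) := by
    rw [← Multiset.coe_eq_coe, Multiset.coe_toList, ← Multiset.cons_coe, Multiset.coe_toList]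
  rw [mon, (hp.map C.gen).prod_eq' ?_, List.map_cons, List.prod_cons, mon]
  rw [List.pairwise_map]
  refine List.pairwise_of_forall_mem_list fun u hu v hv => ?_
  exact C.gen_comm' (hT u (h u (Multiset.mem_toList.1 hu)) v (h v (Multiset.mem_toList.1 hv)))

theorem cnt_mon [DecidableEq V] (m : Multiset V) (v : V) : C.cnt (C.mon m) v = m.count v := by
  have : ∀ l : List V, C.cnt (l.map C.gen).prod v = (l : Multiset V).count v := by
    intro l
    induction l with
    | nil => simp [cnt_one]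
    | cons a l ih =>
      rw [List.map_cons, List.prod_cons, cnt_mul, ih, cnt_gen, ← Multiset.cons_coe,
        Multiset.count_cons]
      by_cases h : a = v
      · subst h; simp [add_comm]
      · simp [h, Ne.symm h]
  rw [mon, this, Multiset.coe_toList]

theorem ht_mon (m : Multiset V) : C.ht (C.mon m) = m.card := by
  have : ∀ l : List V, C.ht (l.map C.gen).prod = l.length := by
    intro l
    induction l with
    | nil => simp [ht_one]
    | cons a l ih => rw [List.map_cons, List.prod_cons, ht_mul, ih, ht_gen]; simp [add_comm]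
  rw [mon, this, Multiset.length_toList]

theorem ht_pow (u : V) (n : ℕ) : C.ht (C.gen u ^ n) = n := by
  induction n with
  | zero => simp [ht_one]
  | succ n ih => rw [pow_succ, ht_mul, ih, ht_gen]; simp

theorem cnt_pow [DecidableEq V] (u v : V) (n : ℕ) :
    C.cnt (C.gen u ^ n) v = if u = v then (n : ℤ) else 0 := by
  induction n with
  | zero => simp [cnt_one]
  | succ n ih => rw [pow_succ, cnt_mul, ih, cnt_gen]; split_ifs <;> simp

theorem exists_big [DecidableEq V] {T : Set V} (hT : IsCl C.cl T) {c : ℕ} {m : Multiset V}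
    (hm : In (6 * c + 1) T m) : ∃ v, 2 * c < m.count v := by
  by_contra hcon
  push Not at hcon
  have h1 : m.toFinset.card ≤ 3 := by
    have := Finset.card_le_card_of_injOn (s := m.toFinset) (t := (Finset.univ : Finset (Fin 3)))
      C.col (fun _ _ => Finset.mem_coe.2 (Finset.mem_univ _)) (by
        intro u hu v hv e
        rcases hT u (hm.2 u (Multiset.mem_toFinset.1 hu)) v (hm.2 v (Multiset.mem_toFinset.1 hv))
          with h | h
        · exact h
        · exact absurd e (C.col_ne h))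
    simpa using this
  have h2 := Multiset.toFinset_sum_count_eq m
  have h3 := Finset.sum_le_card_nsmul m.toFinset (fun a => m.count a) (2 * c) fun a _ => hcon a
  rw [h2, hm.1, smul_eq_mul] at h3
  have h4 := Nat.mul_le_mul_right (2 * c) h1
  omega

/-- The geometric input. -/
theorem geom (u0 : V) (hf : Cofin (V := V)) (hl : C.LocFin) : ∃ Φ : Set C.GG, Φ.Finite ∧
    ∀ K : Set C.GG, K.Finite → ∃ (N : ℕ) (Y : Multiset V → C.GG) (Lab : C.GG → V), 0 < N ∧
      (∀ T T' m m', IsCl C.cl T → IsCl C.cl T' → In N T m → In N T' m' → Y m = Y m' → m = m') ∧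
      (∀ T m m', IsCl C.cl T → In N T m → In N T m' → St m m' → Y m' * (Y m)⁻¹ ∈ Φ) ∧
      ∀ T m, IsCl C.cl T → In N T m → ∀ k ∈ K, Lab (k * Y m) ∈ m := by
  classical
  obtain ⟨V0, hV0, hq⟩ := hf
  choose qv hqv using hq
  let Nb : Set V := V0 ∪ ⋃ z ∈ V0, {u | C.adj z u}
  have hNb : Nb.Finite := hV0.union (hV0.biUnion fun z _ => hl z)
  have memNb : ∀ z ∈ V0, ∀ v, C.cl z v → v ∈ Nb := by
    rintro z hz v (rfl | h)
    · exact Or.inl hz
    · exact Or.inr (Set.mem_biUnion hz h)
  let Kq : Set Q2 := ⋃ a ∈ Nb, {k | k • a ∈ V0}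
  have hKq : Kq.Finite := hNb.biUnion fun a _ => hV0.preimage (f := fun k : Q2 => k • a) (by
    intro k _ k' _ e
    have e' : (k'⁻¹ * k) • a = a := by
      rw [mul_smul, inv_smul_eq_iff]; exact e
    exact (inv_mul_eq_one.mp (C.free _ _ e')).symm)
  let F : Q2 × V × V → C.Hat := fun p =>
    SemidirectProduct.inr p.1 * SemidirectProduct.inl (C.gen p.2.2 * (C.gen p.2.1)⁻¹)
  refine ⟨Subtype.val ⁻¹' (F '' (Kq ×ˢ Nb ×ˢ Nb)),
    ((hKq.prod (hNb.prod hNb)).image F).preimage Subtype.val_injective.injOn, fun K hK => ?_⟩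
  choose cb hcb using fun k : C.GG => C.cnt_bdd k.1.left
  obtain ⟨c, hc⟩ := (hK.image cb).bddAbove
  have hpos : ∀ k ∈ K, ∀ v, |C.pos k.1 v| ≤ c := fun k hk v =>
    (hcb k _).trans (Int.ofNat_le.2 (hc ⟨k, hk, rfl⟩))
  let zm : Multiset V → V := fun m => if h : ∃ z, z ∈ m then h.choose else u0
  have hzm : ∀ T m, In (6 * c + 1) T m → zm m ∈ m := by
    intro T m hm
    have h : ∃ z, z ∈ m := Multiset.card_pos_iff_exists_mem.1 (by rw [hm.1]; omega)
    simp only [zm, dif_pos h]
    exact h.choose_spec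
  let Y0 : Multiset V → C.Hat := fun m => SemidirectProduct.inr (qv (zm m)) *
    SemidirectProduct.inl (C.mon m * (C.gen u0 ^ m.card)⁻¹)
  have hY0l : ∀ m, (Y0 m).left = C.act (qv (zm m)) (C.mon m * (C.gen u0 ^ m.card)⁻¹) := by
    intro m
    simp only [Y0, SemidirectProduct.mul_left, SemidirectProduct.left_inr,
      SemidirectProduct.right_inr, SemidirectProduct.left_inl, one_mul]
  have hY0r : ∀ m, (Y0 m).right = qv (zm m) := by
    intro m
    simp only [Y0, SemidirectProduct.mul_right, SemidirectProduct.right_inr,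
      SemidirectProduct.right_inl, mul_one]
  have hY0 : ∀ m, Y0 m ∈ C.GG := by
    intro m
    rw [mem_GG, hY0l, ht_act, ht_mul, ht_inv, ht_mon, ht_pow, add_neg_cancel]
  have hP : ∀ m v, C.pos (Y0 m) v = m.count v - if u0 = v then (m.card : ℤ) else 0 := by
    intro m v
    rw [pos, hY0l, hY0r, cnt_act, cnt_mul, cnt_inv, cnt_mon, cnt_pow, sub_eq_add_neg]
  let P : C.GG → V → ℤ := fun h v => C.pos h.1 v + if u0 = v then ((6 * c + 1 : ℕ) : ℤ) else 0
  refine ⟨6 * c + 1, fun m => ⟨Y0 m, hY0 m⟩,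
    fun h => if hh : ∃ v, (c : ℤ) < P h v then hh.choose else u0, by omega, ?_, ?_, ?_⟩
  · intro T T' m m' _ _ hm hm' e
    have e' : Y0 m = Y0 m' := congrArg Subtype.val e
    ext v
    have h1 := hP m v
    rw [e', hP m' v, hm.1, hm'.1, sub_left_inj] at h1
    exact_mod_cast h1.symm
  · rintro T m m' hT hm hm' ⟨s, a, b, rfl, rfl⟩
    have z1 := hm.2 _ (hzm T _ hm)
    have z2 := hm'.2 _ (hzm T _ hm')
    have ha := hm.2 a (Multiset.mem_cons_self _ _)
    have hb := hm'.2 b (Multiset.mem_cons_self _ _)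
    refine ⟨(qv (zm (b ::ₘ s)) * (qv (zm (a ::ₘ s)))⁻¹, qv (zm (a ::ₘ s)) • a,
      qv (zm (a ::ₘ s)) • b), ⟨?_, memNb _ (hqv _) _ (C.cl_smul _ (hT _ z1 _ ha)),
      memNb _ (hqv _) _ (C.cl_smul _ (hT _ z1 _ hb))⟩, ?_⟩
    · refine Set.mem_biUnion (memNb _ (hqv _) _ (C.cl_smul (qv (zm (a ::ₘ s))) (hT _ z1 _ z2))) ?_
      show (_ * _) • _ • _ ∈ V0
      rw [mul_smul, inv_smul_smul]
      exact hqv _
    · show F _ = Y0 (b ::ₘ s) * (Y0 (a ::ₘ s))⁻¹
      simp only [F, Y0]
      rw [← act_gen, ← act_gen, ← map_inv (C.act _), ← map_mul (C.act _),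
        SemidirectProduct.inl_aut, C.mon_cons hT a s hm.2, C.mon_cons hT b s hm'.2,
        Multiset.card_cons, Multiset.card_cons]
      simp only [map_mul, map_inv]
      group
  · intro T m hT hm k hk
    have hPk : ∀ v, P (k * ⟨Y0 m, hY0 m⟩) v = C.pos k.1 ((Y0 m).right • v) + m.count v := by
      intro v
      show C.pos (k.1 * Y0 m) v + _ = _
      rw [pos_mul, hP, hm.1]
      ring
    obtain ⟨v, hv⟩ := C.exists_big hT hm
    have hh : ∃ v, (c : ℤ) < P (k * ⟨Y0 m, hY0 m⟩) v := ⟨v, by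
      have := (abs_le.1 (hpos k hk ((Y0 m).right • v))).1
      rw [hPk]
      omega⟩
    simp only [dif_pos hh]
    have h1 := hh.choose_spec
    rw [hPk] at h1
    have h2 := (abs_le.1 (hpos k hk ((Y0 m).right • hh.choose))).2
    exact Multiset.count_pos.1 (by omega)

/-- No presentation of the group is aspherical. -/
theorem not_aspherical (hlat : LatStmt) (hf : Cofin (V := V)) (hl : C.LocFin) (h1 : C.H1) (h3 : C.Loc)
    (P : Pres.{u} C.GG) : ¬ P.Aspherical := by
  intro hP
  obtain ⟨v0, v1, v2, v3, e01, e12, e23, e30, L3⟩ := h3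
  obtain ⟨Φ, hΦ, hgeom⟩ := C.geom v0 hf hl
  refine contra_of_geom hlat P.φ (fun r => FreeGroup.mk (P.rel r)) P.surj (fun r => ?_)
    (fun w hw => by rw [← P.ker]; exact hw) (fun B _ _ c => ?_) C.cl C.cl_refl
    (fun _ _ => C.cl_symm) h1 v0 v1 v2 v3 e01 e12 e23 e30 L3 Φ hΦ hgeom
  · have : FreeGroup.mk (P.rel r) ∈ (FreeGroup.lift P.φ).ker := by
      rw [P.ker]; exact Subgroup.subset_normalClosure ⟨r, rfl⟩
    exact this
  · obtain ⟨b, hb⟩ := hP.star_left B c
    exact ⟨b, hb (S P.φ b) (fun _ _ _ => S_mul _ _ _ _ _) fun _ _ => S_of _ _ _ _⟩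

end Cx

end Vale.Agent.P173F
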