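import Vale.Agent.P173F.Main
import Mathlib.RepresentationTheory.Coinduced

/-! Subgroups of finite index. -/

set_option linter.all false

namespace Vale.Agent.P173F

open Vale.Agent.P173 CategoryTheory CategoryTheory.Limits

universe u v

/-- Restriction to a subgroup does not raise the projective dimension. -/
theorem res_pd_le {k G : Type} [CommRing k] [Group G] (Δ : Subgroup G) (n : ℕ) (M : Rep.{0} k G)
    (h : HasProjectiveDimensionLE M n) :
    HasProjectiveDimensionLE ((Rep.resFunctor Δ.subtype).obj M) n := by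
  induction n generalizing M with
  | zero =>
    have : Projective M := (projective_iff_hasProjectiveDimensionLE_zero _).2 h
    exact (projective_iff_hasProjectiveDimensionLE_zero _).1
      ((Rep.resFunctor Δ.subtype).projective_obj M)
  | succ n ih =>
    obtain ⟨⟨P, f⟩⟩ := (inferInstance : EnoughProjectives (Rep.{0} k G)).1 M
    let T := ShortComplex.mk (kernel.ι f) f (kernel.condition f)
    have hT : T.ShortExact := { exact := ShortComplex.exact_kernel f }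
    have hS := (Rep.shortExact_res Δ.subtype).2 hT
    have h1 : Projective (T.map (Rep.resFunctor Δ.subtype)).X₂ :=
      (Rep.resFunctor Δ.subtype).projective_obj P
    exact (hS.hasProjectiveDimensionLT_X₃_iff n h1).2
      (ih (kernel f) ((hT.hasProjectiveDimensionLT_X₃_iff n (by dsimp [T]; infer_instance)).1 h))

theorem sub_pd_le {k G : Type} [CommRing k] [Group G] (Δ : Subgroup G) (n : ℕ)
    (h : HasProjectiveDimensionLE (Rep.trivial k G k) n) :
    HasProjectiveDimensionLE (Rep.trivial k Δ k) n :=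
  res_pd_le Δ n _ h

theorem not_pd_lt_two {G : Type} [Group G] (x y : G) (hxy : x * y = y * x)
    (α β : G → ℤ) (hα : ∀ g h, α (g * h) = α g + α h) (hβ : ∀ g h, β (g * h) = β g + β h)
    (h1 : α x ≠ 0) (h2 : β y ≠ 0) (h3 : α y = 0) :
    ¬ HasProjectiveDimensionLT (Rep.trivial ℤ G ℤ) 2 := by
  intro hpd
  obtain ⟨F, hF⟩ := exists_coboundary_of_hasProjectiveDimensionLT_two hpd
    (fun a b => α a * β b) (fun x y z => by simp only [hα, hβ]; ring)
  have e1 := hF x y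
  have e2 := hF y x
  rw [h3, ← hxy] at e2
  exact mul_ne_zero h1 h2 (by linarith)

namespace Cx

variable {V : Type} [MulAction Q2 V] (C : Cx V)

theorem quot_comm (t : C.Tr) : Commute (C.quot t.v t.u) (C.quot t.w t.u) := by
  apply Subtype.ext
  show SemidirectProduct.inl (C.gen t.v * (C.gen t.u)⁻¹) *
      SemidirectProduct.inl (C.gen t.w * (C.gen t.u)⁻¹) =
    (SemidirectProduct.inl (C.gen t.w * (C.gen t.u)⁻¹) *
      SemidirectProduct.inl (C.gen t.v * (C.gen t.u)⁻¹) : C.Hat)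
  rw [← map_mul, ← map_mul]
  have h1 : Commute (C.gen t.u) (C.gen t.v) := C.gen_comm t.huv
  have h2 : Commute (C.gen t.u) (C.gen t.w) := C.gen_comm t.huw
  have h3 : Commute (C.gen t.v) (C.gen t.w) := C.gen_comm t.hvw
  have h4 : Commute (C.gen t.v * (C.gen t.u)⁻¹) (C.gen t.w * (C.gen t.u)⁻¹) :=
    (h3.mul_right h1.symm.inv_right).mul_left (h2.inv_left.mul_right (Commute.refl _))
  rw [h4.eq]

theorem wt_quot_pow (f : Fin 3 → ℤ) (a u : V) (n : ℕ) :
    Multiplicative.toAdd (C.wt f (C.quot a u ^ n).1) = n * (f (C.col a) - f (C.col u)) := by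
  rw [Subgroup.coe_pow, map_pow, toAdd_pow, wt_quot, nsmul_eq_mul]

theorem cd_ge_fi (t : C.Tr) (Δ : Subgroup C.GG) [Δ.FiniteIndex] :
    ¬ HasProjectiveDimensionLT (Rep.trivial ℤ Δ ℤ) 2 := by
  obtain ⟨n, hn, -, hx⟩ := Subgroup.exists_pow_mem_of_index_ne_zero
    (H := Δ) Subgroup.FiniteIndex.index_ne_zero (C.quot t.v t.u)
  obtain ⟨m, hm, -, hy⟩ := Subgroup.exists_pow_mem_of_index_ne_zero
    (H := Δ) Subgroup.FiniteIndex.index_ne_zero (C.quot t.w t.u)
  refine not_pd_lt_two (⟨_, hx⟩ : Δ) ⟨_, hy⟩ (Subtype.ext ((C.quot_comm t).pow_pow n m).eq)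
    (fun g => Multiplicative.toAdd (C.wt (fun i => if i = 1 then 1 else 0) g.1.1))
    (fun g => Multiplicative.toAdd (C.wt (fun i => if i = 2 then 1 else 0) g.1.1))
    (fun g h => by rw [Subgroup.coe_mul, Subgroup.coe_mul, map_mul, toAdd_mul])
    (fun g h => by rw [Subgroup.coe_mul, Subgroup.coe_mul, map_mul, toAdd_mul]) ?_ ?_ ?_
  · show Multiplicative.toAdd (C.wt _ (C.quot t.v t.u ^ n).1) ≠ 0
    rw [wt_quot_pow, t.cu, t.cv]
    simp; omega
  · show Multiplicative.toAdd (C.wt _ (C.quot t.w t.u ^ m).1) ≠ 0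
    rw [wt_quot_pow, t.cu, t.cw]
    simp; omega
  · show Multiplicative.toAdd (C.wt _ (C.quot t.w t.u ^ m).1) = 0
    rw [wt_quot_pow, t.cu, t.cw]
    simp

/-- Subgroups of finite index have cohomological dimension two. -/
theorem cd_eq_fi (h : C.CubeRet) (t : C.Tr) (Δ : Subgroup C.GG) [Δ.FiniteIndex] :
    projectiveDimension (Rep.trivial ℤ Δ ℤ) = 2 :=
  pd_eq_two _ (sub_pd_le Δ 2 (C.cd_le h C.pd_zero)) (C.cd_ge_fi t Δ)

/-- Powers of the generators. -/
def pw (D : ℕ) : C.Raag →* C.Raag :=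
  C.lift (fun v => C.gen v ^ D) fun _ _ h => (Commute.pow_pow (C.gen_comm h) D D).eq

theorem pw_gen (D : ℕ) (v : V) : C.pw D (C.gen v) = C.gen v ^ D := C.lift_gen _ _ v

theorem cnt_pw (D : ℕ) (a : C.Raag) (v : V) : C.cnt (C.pw D a) v = D * C.cnt a v := by
  classical
  induction a using C.induction with
  | h1 => rw [map_one, cnt_one, mul_zero]
  | hg u => rw [pw_gen, cnt_pow, cnt_gen]; split_ifs <;> simp
  | hm a b ha hb => rw [map_mul, cnt_mul, cnt_mul, ha, hb, mul_add]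
  | hi a ha => rw [map_inv, cnt_inv, cnt_inv, ha, mul_neg]

theorem ht_pw (D : ℕ) (a : C.Raag) : C.ht (C.pw D a) = D * C.ht a := by
  induction a using C.induction with
  | h1 => rw [map_one, ht_one, mul_zero]
  | hg u => rw [pw_gen, ht_pow, ht_gen, mul_one]
  | hm a b ha hb => rw [map_mul, ht_mul, ht_mul, ha, hb, mul_add]
  | hi a ha => rw [map_inv, ht_inv, ht_inv, ha, mul_neg]

theorem pos_bdd {K : Set C.GG} (hK : K.Finite) : ∃ c : ℕ, ∀ k ∈ K, ∀ v, |C.pos k.1 v| ≤ c := by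
  choose cb hcb using fun k : C.GG => C.cnt_bdd k.1.left
  obtain ⟨c, hc⟩ := (hK.image cb).bddAbove
  exact ⟨c, fun k hk v => (hcb k _).trans (Int.ofNat_le.2 (hc ⟨k, hk, rfl⟩))⟩

/-- The scaled lattice points. -/
theorem geom0 [DecidableEq V] (u0 : V) (hf : Cofin (V := V)) (hl : C.LocFin) (D : ℕ) :
    ∃ Φ : Set C.GG, Φ.Finite ∧ ∃ Y : Multiset V → C.GG,
      (∀ m v, C.pos (Y m).1 v = D * (m.count v - if u0 = v then (m.card : ℤ) else 0)) ∧
      ∀ N T m m', 0 < N → IsCl C.cl T → In N T m → In N T m' → St m m' →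
        Y m' * (Y m)⁻¹ ∈ Φ := by
  classical
  obtain ⟨V0, hV0, hq⟩ := hf
  choose qv hqv using hq
  let Nb : Set V := V0 ∪ ⋃ z ∈ V0, {u | C.adj z u}
  have hNb : Nb.Finite := hV0.union (hV0.biUnion fun z _ => hl z)
  have memNb : ∀ z ∈ V0, ∀ v, C.cl z v → v ∈ Nb := by
    rintro z hz v (rfl | h)
    · exact Or.inl hz
    · exact Or.inr (Set.mem_biUnion hz h)
  let Kq : Set Q2 := ⋃ a ∈ Nb, {k | k • a ∈ V0}
  have hKq : Kq.Finite := hNb.biUnion fun a _ => hV0.preimage (f := fun k : Q2 => k • a) (by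
    intro k _ k' _ e
    have e' : (k'⁻¹ * k) • a = a := by
      rw [mul_smul, inv_smul_eq_iff]; exact e
    exact (inv_mul_eq_one.mp (C.free _ _ e')).symm)
  let F : Q2 × V × V → C.Hat := fun p =>
    SemidirectProduct.inr p.1 * SemidirectProduct.inl (C.gen p.2.2 ^ D * (C.gen p.2.1 ^ D)⁻¹)
  refine ⟨Subtype.val ⁻¹' (F '' (Kq ×ˢ Nb ×ˢ Nb)),
    ((hKq.prod (hNb.prod hNb)).image F).preimage Subtype.val_injective.injOn, ?_⟩
  let zm : Multiset V → V := fun m => if h : ∃ z, z ∈ m then h.choose else u0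
  have hzm : ∀ N T m, 0 < N → In N T m → zm m ∈ m := by
    intro N T m hN hm
    have h : ∃ z, z ∈ m := Multiset.card_pos_iff_exists_mem.1 (by rw [hm.1]; omega)
    simp only [zm, dif_pos h]
    exact h.choose_spec
  let Y0 : Multiset V → C.Hat := fun m => SemidirectProduct.inr (qv (zm m)) *
    SemidirectProduct.inl (C.pw D (C.mon m * (C.gen u0 ^ m.card)⁻¹))
  have hY0l : ∀ m, (Y0 m).left =
      C.act (qv (zm m)) (C.pw D (C.mon m * (C.gen u0 ^ m.card)⁻¹)) := by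
    intro m
    simp only [Y0, SemidirectProduct.mul_left, SemidirectProduct.left_inr,
      SemidirectProduct.right_inr, SemidirectProduct.left_inl, one_mul]
  have hY0r : ∀ m, (Y0 m).right = qv (zm m) := by
    intro m
    simp only [Y0, SemidirectProduct.mul_right, SemidirectProduct.right_inr,
      SemidirectProduct.right_inl, mul_one]
  have hY0 : ∀ m, Y0 m ∈ C.GG := by
    intro m
    rw [mem_GG, hY0l, ht_act, ht_pw, ht_mul, ht_inv, ht_mon, ht_pow, add_neg_cancel, mul_zero]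
  refine ⟨fun m => ⟨Y0 m, hY0 m⟩, fun m v => ?_, ?_⟩
  · show C.pos (Y0 m) v = _
    rw [pos, hY0l, hY0r, cnt_act, cnt_pw, cnt_mul, cnt_inv, cnt_mon, cnt_pow, sub_eq_add_neg]
  · rintro N T m m' hN hT hm hm' ⟨s, a, b, rfl, rfl⟩
    have z1 := hm.2 _ (hzm N T _ hN hm)
    have z2 := hm'.2 _ (hzm N T _ hN hm')
    have ha := hm.2 a (Multiset.mem_cons_self _ _)
    have hb := hm'.2 b (Multiset.mem_cons_self _ _)
    refine ⟨(qv (zm (b ::ₘ s)) * (qv (zm (a ::ₘ s)))⁻¹, qv (zm (a ::ₘ s)) • a,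
      qv (zm (a ::ₘ s)) • b), ⟨?_, memNb _ (hqv _) _ (C.cl_smul _ (hT _ z1 _ ha)),
      memNb _ (hqv _) _ (C.cl_smul _ (hT _ z1 _ hb))⟩, ?_⟩
    · refine Set.mem_biUnion (memNb _ (hqv _) _ (C.cl_smul (qv (zm (a ::ₘ s))) (hT _ z1 _ z2))) ?_
      show (_ * _) • _ • _ ∈ V0
      rw [mul_smul, inv_smul_smul]
      exact hqv _
    · show F _ = Y0 (b ::ₘ s) * (Y0 (a ::ₘ s))⁻¹
      simp only [F, Y0]
      rw [← act_gen, ← act_gen, ← map_pow (C.act _), ← map_pow (C.act _), ← map_inv (C.act _),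
        ← map_mul (C.act _), SemidirectProduct.inl_aut, C.mon_cons hT a s hm.2,
        C.mon_cons hT b s hm'.2, Multiset.card_cons, Multiset.card_cons, ← pw_gen, ← pw_gen]
      simp only [map_mul, map_inv]
      group

/-- The geometric input for a subgroup of finite index. -/
theorem geom_fi (u0 : V) (hf : Cofin (V := V)) (hl : C.LocFin) (Δ : Subgroup C.GG)
    [Δ.FiniteIndex] : ∃ Φ : Set Δ, Φ.Finite ∧
    ∀ K : Set Δ, K.Finite → ∃ (N : ℕ) (Y : Multiset V → Δ) (Lab : Δ → V), 0 < N ∧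
      (∀ T T' m m', IsCl C.cl T → IsCl C.cl T' → In N T m → In N T' m' → Y m = Y m' → m = m') ∧
      (∀ T m m', IsCl C.cl T → In N T m → In N T m' → St m m' → Y m' * (Y m)⁻¹ ∈ Φ) ∧
      ∀ T m, IsCl C.cl T → In N T m → ∀ k ∈ K, Lab (k * Y m) ∈ m := by
  classical
  let R : Set C.GG := Set.range fun x : C.GG ⧸ Δ => x.out
  have hR : R.Finite := Set.finite_range _
  let r : C.GG → C.GG := fun g => (QuotientGroup.mk g : C.GG ⧸ Δ).out
  have hr : ∀ g, (r g)⁻¹ * g ∈ Δ := fun g => QuotientGroup.eq.1 (QuotientGroup.out_eq' _)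
  have hrR : ∀ g, r g ∈ R := fun g => ⟨_, rfl⟩
  obtain ⟨c0, hc0⟩ := C.pos_bdd (hR.image2 (fun a b => a * b⁻¹) hR)
  obtain ⟨Φ, hΦ, Y, hP, hY⟩ := C.geom0 u0 hf hl (c0 + 1)
  refine ⟨Subtype.val ⁻¹' ((fun p => p.1⁻¹ * p.2.1 * p.2.2) '' (R ×ˢ Φ ×ˢ R)),
    ((hR.prod (hΦ.prod hR)).image _).preimage Subtype.val_injective.injOn, fun K hK => ?_⟩
  obtain ⟨c, hc⟩ := C.pos_bdd (hK.image2 (fun (a : Δ) b => a.1 * b⁻¹) hR)
  let P : Δ → V → ℤ := fun h v =>
    C.pos h.1.1 v + ((c0 + 1 : ℕ) : ℤ) * if u0 = v then ((6 * c + 1 : ℕ) : ℤ) else 0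
  refine ⟨6 * c + 1, fun m => ⟨(r (Y m))⁻¹ * Y m, hr _⟩,
    fun h => if hh : ∃ v, (c : ℤ) < P h v then hh.choose else u0, by omega, ?_, ?_, ?_⟩
  · intro T T' m m' _ _ hm hm' e
    have e1 : (r (Y m))⁻¹ * Y m = (r (Y m'))⁻¹ * Y m' := congrArg Subtype.val e
    have e2 : Y m' = r (Y m') * (r (Y m))⁻¹ * Y m := by
      rw [mul_assoc, e1, mul_inv_cancel_left]
    ext v
    have h1 := hP m' v
    have h2 := hc0 _ ⟨_, hrR (Y m'), _, hrR (Y m), rfl⟩ ((Y m).1.right • v)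
    rw [e2, Subgroup.coe_mul, pos_mul, hP m v, hm.1, hm'.1] at h1
    have h3 : C.pos (r (Y m') * (r (Y m))⁻¹).1 ((Y m).1.right • v) =
        ((c0 + 1 : ℕ) : ℤ) * ((m'.count v : ℤ) - m.count v) := by linarith
    simp only [h3, abs_le] at h2
    push_cast at h2
    have h4 : (m.count v : ℤ) = m'.count v := by
      rcases lt_trichotomy (m.count v : ℤ) (m'.count v) with h | h | h
      · nlinarith [h2.2]
      · exact h
      · nlinarith [h2.1]
    exact_mod_cast h4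
  · intro T m m' hT hm hm' s
    refine ⟨(_, _, _), ⟨hrR (Y m'), hY _ T m m' (by omega) hT hm hm' s, hrR (Y m)⟩, ?_⟩
    show (r (Y m'))⁻¹ * (Y m' * (Y m)⁻¹) * r (Y m) =
      (r (Y m'))⁻¹ * Y m' * ((r (Y m))⁻¹ * Y m)⁻¹
    group
  · intro T m hT hm k hk
    have hb := fun v => abs_le.1 (hc (k.1 * (r (Y m))⁻¹) ⟨_, hk, _, hrR (Y m), rfl⟩
      ((Y m).1.right • v))
    have hPk : ∀ v, P (k * ⟨(r (Y m))⁻¹ * Y m, hr _⟩) v =
        C.pos (k.1 * (r (Y m))⁻¹).1 ((Y m).1.right • v) + ((c0 + 1 : ℕ) : ℤ) * m.count v := by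
      intro v
      show C.pos (k.1 * ((r (Y m))⁻¹ * Y m)).1 v + _ = _
      rw [← mul_assoc, Subgroup.coe_mul, pos_mul, hP, hm.1]
      ring
    obtain ⟨v, hv⟩ := C.exists_big hT hm
    have hh : ∃ v, (c : ℤ) < P (k * ⟨(r (Y m))⁻¹ * Y m, hr _⟩) v := ⟨v, by
      have h1 := (hb v).1
      have h2 : (2 * c : ℤ) < m.count v := by exact_mod_cast hv
      have h3 : (0 : ℤ) ≤ (c0 : ℤ) * m.count v := by positivity
      rw [hPk, Nat.cast_add, Nat.cast_one, add_mul, one_mul]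
      linarith⟩
    simp only [dif_pos hh]
    have h1 := hh.choose_spec
    rw [hPk] at h1
    have h2 := (hb hh.choose).2
    refine Multiset.count_pos.1 (Nat.pos_of_ne_zero fun h0 => ?_)
    rw [h0, Nat.cast_zero, mul_zero, add_zero] at h1
    linarith

/-- No presentation of a subgroup of finite index is aspherical. -/
theorem not_aspherical_fi (hf : Cofin (V := V)) (hl : C.LocFin) (h1 : C.H1) (h3 : C.Loc)
    (Δ : Subgroup C.GG) [Δ.FiniteIndex] (P : Pres.{u} Δ) : ¬ P.Aspherical := by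
  intro hP
  obtain ⟨v0, v1, v2, v3, e01, e12, e23, e30, L3⟩ := h3
  obtain ⟨Φ, hΦ, hgeom⟩ := C.geom_fi v0 hf hl Δ
  refine contra_of_geom latStmt P.φ (fun r => FreeGroup.mk (P.rel r)) P.surj (fun r => ?_)
    (fun w hw => by rw [← P.ker]; exact hw) (fun B _ _ c => ?_) C.cl C.cl_refl
    (fun _ _ => C.cl_symm) h1 v0 v1 v2 v3 e01 e12 e23 e30 L3 Φ hΦ hgeom
  · have : FreeGroup.mk (P.rel r) ∈ (FreeGroup.lift P.φ).ker := by
      rw [P.ker]; exact Subgroup.subset_normalClosure ⟨r, rfl⟩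
    exact this
  · obtain ⟨b, hb⟩ := hP.star_left B c
    exact ⟨b, hb (Hol.S P.φ b) (fun _ _ _ => Hol.S_mul _ _ _ _ _) fun _ _ => Hol.S_of _ _ _ _⟩

/-- Subgroups of finite index. -/
theorem main_fi (t : C.Tr) (hf : Cofin (V := V)) (hl : C.LocFin) (h1 : C.H1)
    (h2 : C.CubeRet) (h3 : C.Loc) (Δ : Subgroup C.GG) [Δ.FiniteIndex] :
    projectiveDimension (Rep.trivial ℤ Δ ℤ) = 2 ∧ ¬ EmbedsInAspherical.{u, v} Δ 2 ∧
      ∀ (H : Type) [Group H] (f : Δ →* H), Function.Injective f → ¬ GdLE.{u, v} H 2 := by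
  have h4 : ¬ EmbedsInAspherical.{u, v} Δ 2 :=
    not_embedsInAspherical (C.not_aspherical_fi hf hl h1 h3 Δ)
  exact ⟨C.cd_eq_fi h2 t Δ, h4, fun H _ f hf => not_gdLE_of_injective h4 f hf⟩

end Cx

end Vale.Agent.P173F
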