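import Vale.Agent.P173F.Tree

/-! The complex is connected, cocompact and locally finite. -/

set_option linter.all false

namespace Vale.Agent.P173F

instance : Fintype Lt := ⟨{.a, .b, .c, .x, .y, .p, .r, .u, .v}, fun l => by cases l <;> simp⟩

instance : Finite Tg := Finite.of_surjective (fun z : Gn ⊕ Lt ⊕ Fin 7 => match z with
    | .inl g => Tg.r g
    | .inr (.inl g) => Tg.l g
    | .inr (.inr i) => ![.t1, .t2, .t3, .t4, .t5, .t6, .t7] i) fun t => by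
  rcases t with g | g | _ | _ | _ | _ | _ | _ | _
  exacts [⟨.inl g, rfl⟩, ⟨.inr (.inl g), rfl⟩, ⟨.inr (.inr 0), rfl⟩, ⟨.inr (.inr 1), rfl⟩,
    ⟨.inr (.inr 2), rfl⟩, ⟨.inr (.inr 3), rfl⟩, ⟨.inr (.inr 4), rfl⟩, ⟨.inr (.inr 5), rfl⟩,
    ⟨.inr (.inr 6), rfl⟩]

theorem tT_eq (t : Tg) {p i : Fin 3} (h : i ≠ p) : tT t i = tE t p * eT p (face p t) i := by
  fin_cases p <;> fin_cases i <;> first | exact absurd rfl h | simp [tT, tE, eT, volt_face]

/-- the vertices at the position `q` -/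
def atq (q : Q2) : Fin 3 ⊕ Fin 3 × Gn ⊕ Tg → Vx
  | .inl i => .v0 q i
  | .inr (.inl z) => .v1 q z.1 z.2
  | .inr (.inr t) => .v2 q t

theorem LL_cofin : Cx.Cofin (V := Vx) :=
  ⟨Set.range (atq 1), Set.finite_range _, fun v => by
    rcases v with ⟨q, i⟩ | ⟨q, p, g⟩ | ⟨q, t⟩
    · exact ⟨q⁻¹, .inl i, by rw [smul_v0, inv_mul_cancel]; rfl⟩
    · exact ⟨q⁻¹, .inr (.inl (p, g)), by rw [smul_v1, inv_mul_cancel]; rfl⟩
    · exact ⟨q⁻¹, .inr (.inr t), by rw [smul_v2, inv_mul_cancel]; rfl⟩⟩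

theorem LL_locFin : LL.LocFin := fun v => by
  rcases v with ⟨q, i⟩ | ⟨q, p, g⟩ | ⟨q, t⟩
  · refine ((Set.finite_range fun z : Fin 3 × Gn => Vx.v1 (q * (eT z.1 z.2 i)⁻¹) z.1 z.2).union
      (Set.finite_range fun t => Vx.v2 (q * (tT t i)⁻¹) t)).subset ?_
    rintro (_ | ⟨q', p, g⟩ | ⟨q', t⟩) h
    · exact h.elim
    · exact Or.inl ⟨(p, g), by simp only [h.2, mul_inv_cancel_right]⟩
    · exact Or.inr ⟨t, by simp only [show q = q' * tT t i from h, mul_inv_cancel_right]⟩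
  · refine ((Set.finite_range fun i => Vx.v0 (q * eT p g i) i).union
      (Set.finite_range fun t => Vx.v2 (q * (tE t p)⁻¹) t)).subset ?_
    rintro (⟨q', i⟩ | _ | ⟨q', t⟩) h
    · exact Or.inl ⟨i, by rw [h.2]⟩
    · exact h.elim
    · exact Or.inr ⟨t, by simp only [h.2, mul_inv_cancel_right]⟩
  · refine ((Set.finite_range fun i => Vx.v0 (q * tT t i) i).union
      (Set.finite_range fun p => Vx.v1 (q * tE t p) p (face p t))).subset ?_
    rintro (⟨q', i⟩ | ⟨q', p, g⟩ | _) h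
    · exact Or.inl ⟨i, by rw [show q' = q * tT t i from h]⟩
    · exact Or.inr ⟨p, by rw [h.2, h.1]⟩
    · exact h.elim

theorem LL_conn : LL.Conn := fun P hP => by
  have h0 : ∀ u v, Adj u v → (P u ↔ P v) := fun u v h => ⟨hP u v h, hP v u (LL.symm h)⟩
  have h1 : ∀ q p g i, i ≠ p → (P (.v0 (q * eT p g i) i) ↔ P (.v1 q p g)) :=
    fun q p g i h => h0 _ _ ⟨h, rfl⟩
  have h2 : ∀ q g, P (.v0 (q * volt g) 2) ↔ P (.v0 q 0) := fun q g => by
    simpa [eT] using (h1 q 1 g 2 (by decide)).trans (h1 q 1 g 0 (by decide)).symm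
  have h3 : ∀ q, P (.v0 q 1) ↔ P (.v0 q 0) := fun q => by
    simpa [eT, volt] using (h1 q 2 none 1 (by decide)).trans (h1 q 2 none 0 (by decide)).symm
  have h4 : ∀ q, P (.v0 q 2) ↔ P (.v0 q 0) := fun q => by simpa [volt] using h2 q none
  have h5 : ∀ q i, P (.v0 q i) ↔ P (.v0 1 0) := fun q i => by
    have := const_of_free (fun q => P (.v0 q 0)) (fun b q => propext ((h4 _).symm.trans (by
      cases b
      exacts [h2 q (some .x), h2 q (some .y)]))) q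
    fin_cases i
    exacts [this.to_iff, (h3 q).trans this.to_iff, (h4 q).trans this.to_iff]
  have h6 : ∀ u, P u ↔ P (.v0 1 0) := by
    rintro (⟨q, i⟩ | ⟨q, p, g⟩ | ⟨q, t⟩)
    · exact h5 q i
    · exact (h1 q p g (p + 1) (by revert p; decide)).symm.trans (h5 _ _)
    · exact (h0 (.v0 (q * tT t 0) 0) (.v2 q t) rfl).symm.trans (h5 _ _)
  exact fun u v h => (h6 v).2 ((h6 u).1 h)

theorem LL_tr : Nonempty LL.Tr :=
  ⟨⟨.v0 1 0, .v1 1 1 none, .v2 1 (.r none), ⟨by decide, by simp [eT]⟩,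
    show (1 : Q2) = 1 * tT _ 0 by simp [tT], ⟨rfl, by simp [tE]⟩, rfl, rfl, rfl⟩⟩

end Vale.Agent.P173F
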