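import Vale.Agent.P173F.LBasic

/-! The first cohomology of the complex vanishes. -/

set_option linter.all false

namespace Vale.Agent.P173F

variable {B : Type} [AddCommGroup B]

theorem letters (ν : Q2 → Gn → B) (h0 : ∀ q, ν q none = 0)
    (h : ∀ q t, ν q (face 2 t) + ν (q * volt (face 2 t)) (face 0 t) = ν q (face 1 t)) :
    ∃ U : Q2 → B, ∀ q g, ν q g = U (q * volt g) - U q := by
  obtain ⟨U, hU⟩ := free_potential fun b q => ν q (some (cond b .y .x))
  have h1 := fun q => h q .t1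
  have h2 := fun q => h q .t2
  have h3 := fun q => h q .t3
  have h4 := fun q => h q .t4
  have h5 := fun q => h q .t5
  have h6 := fun q => h q .t6
  have h7 := fun q => h q .t7
  simp only [face, volt, mul_one] at h1 h2 h3 h4 h5 h6 h7
  have ha : ∀ q, ν q (some .a) = 0 := fun q => by
    have := h7 q
    rwa [← h5, ← h6, add_comm (ν q (some .c)), add_eq_right] at this
  simp only [ha, add_zero, zero_add] at h2 h4 h7
  have hb : ∀ q, ν q (some .b) = 0 := fun q => add_eq_right.1 ((h1 q).trans (h2 q).symm)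
  have hc : ∀ q, ν q (some .c) = 0 := fun q => add_eq_right.1 ((h3 q).trans (h4 q).symm)
  refine ⟨U, fun q g => ?_⟩
  rcases g with _ | _ | _ | _ | _ | _ | _ | _ | _ | _ <;>
    simp [volt, h0, ha, hb, hc, hU, ← h2, ← h4, h7, ← h5]

theorem vertices (μ : Fin 3 → Q2 → Gn → B) (h : ∀ q t, μ 2 q (face 2 t) +
    μ 0 (q * volt (face 2 t)) (face 0 t) = μ 1 q (face 1 t)) : ∃ u : Q2 → Fin 3 → B, ∀ q g,
      μ 0 q g = u (q * volt g) 2 - u q 1 ∧ μ 1 q g = u (q * volt g) 2 - u q 0 ∧
        μ 2 q g = u (q * volt g) 1 - u q 0 := by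
  have hr : ∀ q g, μ 2 q g = μ 1 q g - μ 0 (q * volt g) none := fun q g =>
    eq_sub_of_add_eq (h q (.r g))
  have hl : ∀ q g, μ 0 q g = μ 1 q g - μ 2 q none := fun q g => eq_sub_of_add_eq' (by
    rcases g with _ | g
    · simpa [face, volt] using h q (.r none)
    · simpa [face, volt] using h q (.l g))
  obtain ⟨U, hU⟩ := letters (fun q g => μ 1 q g - μ 1 (q * volt g) none)
    (fun q => by simp [volt]) fun q t => by
      rw [← h q t, hr q, hl _ (face 0 t), hl _ none, mul_assoc, volt_face]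
      abel
  have h1 : ∀ q g, μ 1 q g = U (q * volt g) + μ 1 (q * volt g) none - U q := fun q g => by
    rw [add_sub_right_comm, ← hU, sub_add_cancel]
  refine ⟨fun q => ![U q, U q + μ 2 q none, U q + μ 1 q none], fun q g => ⟨?_, h1 q g, ?_⟩⟩
  · change _ = U _ + μ 1 _ none - (U q + μ 2 q none)
    rw [hl, h1]; abel
  · change _ = U _ + μ 2 _ none - U q
    rw [hr, hl, h1]; abel

theorem LL_h1 : LL.H1 := fun B _ lam h => by
  have h0 : ∀ v, lam v v = 0 := fun v => add_eq_left.1 (h v v v (.inl rfl) (.inl rfl) (.inl rfl))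
  have h1 : ∀ v w, Adj v w → lam w v = -lam v w := fun v w e =>
    eq_neg_of_add_eq_zero_right ((h v w v (.inr e) (.inr (LL.symm e)) (.inl rfl)).trans (h0 v))
  let a : Q2 → Fin 3 → Gn → Fin 3 → B := fun q p g i => lam (.v0 (q * eT p g i) i) (.v1 q p g)
  have key : ∀ q t p i, i ≠ p → lam (.v0 (q * tT t i) i) (.v2 q t) =
      a (q * tE t p) p (face p t) i + lam (.v1 (q * tE t p) p (face p t)) (.v2 q t) :=
    fun q t p i e => by
      rw [tT_eq t e, ← mul_assoc]
      refine (h _ (.v1 (q * tE t p) p (face p t)) _ (.inr ?_) (.inr ?_) (.inr ?_)).symm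
      exacts [⟨e, rfl⟩, ⟨rfl, rfl⟩, by rw [mul_assoc, ← tT_eq t e]; rfl]
  obtain ⟨u, hu⟩ := vertices (fun p q g => ![a q 0 g 1 - a q 0 g 2, a q 1 g 0 - a q 1 g 2,
    a q 2 g 0 - a q 2 g 1] p) fun q t => by
      have e1 := (key q t 2 0 (by decide)).symm.trans (key q t 1 0 (by decide))
      have e2 := (key q t 2 1 (by decide)).symm.trans (key q t 0 1 (by decide))
      have e3 := (key q t 0 2 (by decide)).symm.trans (key q t 1 2 (by decide))
      simp only [tE, Fin.reduceEq, if_false, if_true, mul_one] at e1 e2 e3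
      change a q 2 _ 0 - a q 2 _ 1 + (a _ 0 _ 1 - a _ 0 _ 2) = a q 1 _ 0 - a q 1 _ 2
      linear_combination (norm := abel) e1 - e2 - e3
  have h2 : ∀ q p g i j, i ≠ p → j ≠ p →
      a q p g i + u (q * eT p g i) i = a q p g j + u (q * eT p g j) j := fun q p g i j hi hj => by
    obtain ⟨e0, e1, e2⟩ := hu q g
    change a q 0 g 1 - a q 0 g 2 = _ at e0
    change a q 1 g 0 - a q 1 g 2 = _ at e1
    change a q 2 g 0 - a q 2 g 1 = _ at e2
    rw [sub_eq_sub_iff_add_eq_add, add_comm (u _ _)] at e0 e1 e2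
    fin_cases p <;> fin_cases i <;> fin_cases j <;>
      first | exact absurd rfl hi | exact absurd rfl hj | simp [eT, e0, e1, e2]
  have hp : ∀ p : Fin 3, p + 1 ≠ p := by decide
  let t : Vx → B := fun v => match v with
    | .v0 q i => u q i
    | .v1 q p g => a q p g (p + 1) + u (q * eT p g (p + 1)) (p + 1)
    | .v2 q τ => lam (.v0 (q * tT τ 0) 0) (.v2 q τ) + u (q * tT τ 0) 0
  have k01 : ∀ q p g i, i ≠ p → a q p g i = t (.v1 q p g) - t (.v0 (q * eT p g i) i) :=
    fun q p g i e => eq_sub_of_add_eq (h2 q p g i _ e (hp p))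
  have k02 : ∀ q τ i, lam (.v0 (q * tT τ i) i) (.v2 q τ) = t (.v2 q τ) - t (.v0 (q * tT τ i) i) :=
    fun q τ i => by
      obtain ⟨p, e, e'⟩ : ∃ p : Fin 3, i ≠ p ∧ 0 ≠ p := by revert i; decide
      refine eq_sub_of_add_eq (?_ : _ + u _ _ = _ + u _ _)
      rw [key q τ p i e, key q τ p 0 e', tT_eq τ e, tT_eq τ e', add_right_comm, ← mul_assoc,
        h2 _ p _ i 0 e e', add_right_comm, mul_assoc]
  have k12 : ∀ q τ p, lam (.v1 (q * tE τ p) p (face p τ)) (.v2 q τ) =
      t (.v2 q τ) - t (.v1 (q * tE τ p) p (face p τ)) := fun q τ p => by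
    have e := key q τ p _ (hp p)
    rw [k02, k01 _ _ _ _ (hp p), mul_assoc, ← tT_eq τ (hp p)] at e
    linear_combination (norm := abel) -e
  refine ⟨t, fun v w e => ?_⟩
  obtain rfl | e := e
  · rw [h0, sub_self]
  have k : ∀ v w, Adj v w → col v < col w → lam v w = t w - t v := by
    rintro (⟨q, i⟩ | ⟨q, p, g⟩ | ⟨q, τ⟩) (⟨q', i'⟩ | ⟨q', p', g'⟩ | ⟨q', τ'⟩) e c
    · exact e.elim
    · obtain ⟨e, rfl⟩ := e; exact k01 _ _ _ _ e
    · obtain rfl : q = _ := e; exact k02 _ _ _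
    · exact absurd c (by simp [col])
    · exact e.elim
    · obtain ⟨rfl, rfl⟩ := e; exact k12 _ _ _
    all_goals exact absurd c (by simp [col])
  rcases (LL.col_ne e).lt_or_gt with c | c
  · exact k v w e c
  · rw [h1 w v (LL.symm e), k w v (LL.symm e) c, neg_sub]

end Vale.Agent.P173F
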