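import Vale.Agent.P173F.Nil

/-! Unipotent local systems on the finite parts of the complex. -/

namespace Vale.Agent.P173F

open Vale.Agent.P173

namespace LLoc

section transport

variable {G : Type} [Group G] (ρ : Q2 → Gn → G)

/-- Transport inside an edge from its lower end to the end `i`. -/
def edgeTr (q : Q2) (p : Fin 3) (g : Gn) (i : Fin 3) : G :=
  if i = 2 ∨ (p = 2 ∧ i = 1) then ρ q g else 1

/-- Transport inside a triangle from the corner `0` to the corner `i`. -/
def triTr (q : Q2) (t : Tg) (i : Fin 3) : G :=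
  if i = 0 then 1 else if i = 1 then ρ q (face 2 t) else ρ q (face 1 t)

/-- Transport inside a triangle from the corner `0` to the lower end of the side `p`. -/
def triEdgeTr (q : Q2) (t : Tg) (p : Fin 3) : G := if p = 0 then ρ q (face 2 t) else 1

/-- The transport on the complex. -/
def transport : Vx → Vx → G
  | .v1 q p g, .v0 _ i => edgeTr ρ q p g i
  | .v0 _ i, .v1 q p g => (edgeTr ρ q p g i)⁻¹
  | .v2 q t, .v0 _ i => triTr ρ q t i
  | .v0 _ i, .v2 q t => (triTr ρ q t i)⁻¹
  | .v2 q t, .v1 _ p _ => triEdgeTr ρ q t p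
  | .v1 _ p _, .v2 q t => (triEdgeTr ρ q t p)⁻¹
  | .v0 _ _, .v0 _ _ => 1
  | .v1 _ _ _, .v1 _ _ _ => 1
  | .v2 _ _, .v2 _ _ => 1

theorem tri_edge_vertex {q : Q2} {t : Tg}
    (h : ρ q (face 2 t) * ρ (q * volt (face 2 t)) (face 0 t) = ρ q (face 1 t))
    {p i : Fin 3} (hne : i ≠ p) :
    triEdgeTr ρ q t p * edgeTr ρ (q * tE t p) p (face p t) i = triTr ρ q t i := by
  fin_cases p <;> fin_cases i <;> simp_all [triEdgeTr, edgeTr, triTr, tE]

theorem transport_mul {S : Set Vx}
    (h : ∀ q t, Vx.v2 q t ∈ S →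
      ρ q (face 2 t) * ρ (q * volt (face 2 t)) (face 0 t) = ρ q (face 1 t))
    {u v w : Vx} (hu : u ∈ S) (hv : v ∈ S) (hw : w ∈ S) (huv : LL.cl u v) (hvw : LL.cl v w)
    (huw : LL.cl u w) : transport ρ u v * transport ρ v w = transport ρ u w := by
  have hself : ∀ x : Vx, transport ρ x x = 1 := by
    intro x
    cases x <;> rfl
  have hinv : ∀ x y : Vx, transport ρ y x = (transport ρ x y)⁻¹ := by
    intro x y
    cases x <;> cases y <;> simp [transport]
  rcases huv with rfl | huv
  · rw [hself, one_mul]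
  rcases hvw with rfl | hvw
  · rw [hself, mul_one]
  rcases huw with rfl | huw
  · rw [hself, hinv v u]
    simp
  have key : ∀ (i p : Fin 3) (g : Gn) (t : Tg) (q q' : Q2), Vx.v2 q t ∈ S → i ≠ p →
      (g = face p t ∧ q' = q * tE t p) →
      triEdgeTr ρ q t p * edgeTr ρ q' p g i = triTr ρ q t i := by
    rintro i p g t q q' ht hne ⟨rfl, rfl⟩
    exact tri_edge_vertex ρ (h q t ht) hne
  cases u with
  | v0 a i =>
    cases v with
    | v0 b j => exact huv.elim
    | v1 b p g =>
      cases w with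
      | v0 c j => exact huw.elim
      | v1 c p' g' => exact hvw.elim
      | v2 c t =>
        show (edgeTr ρ b p g i)⁻¹ * (triEdgeTr ρ c t p)⁻¹ = (triTr ρ c t i)⁻¹
        rw [← key i p g t c b hw huv.1 hvw, mul_inv_rev]
    | v2 b t =>
      cases w with
      | v0 c j => exact huw.elim
      | v1 c p g =>
        show (triTr ρ b t i)⁻¹ * triEdgeTr ρ b t p = (edgeTr ρ c p g i)⁻¹
        rw [← key i p g t b c hv huw.1 hvw]
        group
      | v2 c t' => exact hvw.elim
  | v1 a p g =>
    cases v with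
    | v0 b i =>
      cases w with
      | v0 c j => exact hvw.elim
      | v1 c p' g' => exact huw.elim
      | v2 c t =>
        show edgeTr ρ a p g i * (triTr ρ c t i)⁻¹ = (triEdgeTr ρ c t p)⁻¹
        rw [← key i p g t c a hw huv.1 huw]
        group
    | v1 b p' g' => exact huv.elim
    | v2 b t =>
      cases w with
      | v0 c i =>
        show (triEdgeTr ρ b t p)⁻¹ * triTr ρ b t i = edgeTr ρ a p g i
        rw [← key i p g t b a hv huw.1 huv]
        group
      | v1 c p' g' => exact huw.elim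
      | v2 c t' => exact hvw.elim
  | v2 a t =>
    cases v with
    | v0 b i =>
      cases w with
      | v0 c j => exact hvw.elim
      | v1 c p g =>
        show triTr ρ a t i * (edgeTr ρ c p g i)⁻¹ = triEdgeTr ρ a t p
        rw [← key i p g t a c hu hvw.1 huw]
        group
      | v2 c t' => exact huw.elim
    | v1 b p g =>
      cases w with
      | v0 c i =>
        show triEdgeTr ρ a t p * edgeTr ρ b p g i = triTr ρ a t i
        exact key i p g t a b hu hvw.1 huv
      | v1 c p' g' => exact hvw.elim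
      | v2 c t' => exact huw.elim
    | v2 b t' => exact huv.elim

end transport

/-- The labels of the edges defined by a family `α`. -/
def lab {G : Type} [Group G] (α : Q2 → G) (q : Q2) : Gn → G
  | none => 1
  | some .a => α q
  | some .b => α (q * FreeGroup.of false)
  | some .c => α (q * FreeGroup.of true)
  | some .x => 1
  | some .y => 1
  | some .p => α (q * FreeGroup.of false)
  | some .r => α (q * FreeGroup.of true)
  | some .u => α (q * FreeGroup.of false) * α (q * FreeGroup.of true)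
  | some .v => α (q * FreeGroup.of true) * α (q * FreeGroup.of false)

theorem lab_face {G : Type} [Group G] (α : Q2 → G) (q : Q2) (t : Tg)
    (h : t = .t7 → α q * (α (q * FreeGroup.of true) * α (q * FreeGroup.of false)) =
      α (q * FreeGroup.of false) * α (q * FreeGroup.of true)) :
    lab α q (face 2 t) * lab α (q * volt (face 2 t)) (face 0 t) = lab α q (face 1 t) := by
  rcases t with g | g | _ | _ | _ | _ | _ | _ | _
  · exact mul_one _
  · show 1 * lab α (q * 1) (some g) = lab α q (some g)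
    rw [one_mul, mul_one]
  · exact mul_one _
  · exact one_mul _
  · exact mul_one _
  · exact one_mul _
  · show α _ * α (q * 1 * _) = α _ * α _
    rw [mul_one]
  · show α _ * α (q * 1 * _) = α _ * α _
    rw [mul_one]
  · show α q * (α (q * 1 * _) * α (q * 1 * _)) = α _ * α _
    rw [mul_one]
    exact h rfl

/-- Rational intervals. -/
abbrev Iv : Type := {p : ℚ × ℚ // p.1 < p.2}

/-- Halving of intervals. -/
def half : Bool → Equiv.Perm Iv
  | false =>
    { toFun := fun p => ⟨(p.1.1, (p.1.1 + p.1.2) / 2), by have := p.2; dsimp only; linarith⟩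
      invFun := fun p => ⟨(p.1.1, 2 * p.1.2 - p.1.1), by have := p.2; dsimp only; linarith⟩
      left_inv := fun p => Subtype.ext (Prod.ext rfl (by dsimp only; ring))
      right_inv := fun p => Subtype.ext (Prod.ext rfl (by dsimp only; ring)) }
  | true =>
    { toFun := fun p => ⟨((p.1.1 + p.1.2) / 2, p.1.2), by have := p.2; dsimp only; linarith⟩
      invFun := fun p => ⟨(2 * p.1.1 - p.1.2, p.1.2), by have := p.2; dsimp only; linarith⟩
      left_inv := fun p => Subtype.ext (Prod.ext (by dsimp only; ring) rfl)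
      right_inv := fun p => Subtype.ext (Prod.ext (by dsimp only; ring) rfl) }

/-- The interval of a position. -/
def iv (q : Q2) : Iv :=
  FreeGroup.lift (fun b => (half b)⁻¹) q⁻¹ ⟨(0, 1), by norm_num⟩

theorem iv_mul (q : Q2) (b : Bool) : iv (q * FreeGroup.of b) = half b (iv q) := by
  rw [iv, iv, mul_inv_rev, map_mul, Equiv.Perm.mul_apply, map_inv, FreeGroup.lift_apply_of,
    inv_inv]

theorem tv_comm {M p m r : ℕ} (hM : m < M) (h1 : r ≠ p) (h2 : m ≠ p) (h3 : r ≠ m) :
    tv M p r h1 * (tv M m r h3 * tv M p m h2) = tv M p m h2 * tv M m r h3 := by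
  ext1
  show (1 + el M p r) * ((1 + el M m r) * (1 + el M p m)) = (1 + el M p m) * (1 + el M m r)
  have e1 : el M m r * el M p m = 0 := el_mul_ne h1
  have e2 : el M p r * el M m r = 0 := el_mul_ne h3
  have e3 : el M p r * el M p m = 0 := el_mul_ne h1
  have e4 : el M p m * el M m r = el M p r := el_mul hM
  have lhs : (1 + el M m r) * (1 + el M p m) = 1 + el M p m + el M m r := by
    rw [add_mul, one_mul, mul_add, mul_one, e1]
    abel
  have lhs2 : (1 + el M p r) * (1 + el M p m + el M m r) =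
      1 + el M p m + el M m r + el M p r := by
    rw [add_mul, one_mul, mul_add, mul_add, mul_one, e3, e2]
    abel
  have rhs : (1 + el M p m) * (1 + el M m r) = 1 + el M m r + (el M p m + el M p r) := by
    rw [add_mul, one_mul, mul_add, mul_one, e4]
  rw [lhs, lhs2, rhs]
  abel

theorem tv_ne_one {M p r : ℕ} (hp : p < M) (hr : r < M) (h : r ≠ p) : tv M p r h ≠ 1 := by
  intro hcon
  have hne : (⟨p, hp⟩ : Fin M) ≠ ⟨r, hr⟩ := fun e => h (congrArg Fin.val e).symm
  have h5 : ((tv M p r h : (Matrix (Fin M) (Fin M) ℚ)ˣ) : Matrix (Fin M) (Fin M) ℚ) ⟨p, hp⟩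
      ⟨r, hr⟩ = (1 : Matrix (Fin M) (Fin M) ℚ) ⟨p, hp⟩ ⟨r, hr⟩ := by
    rw [hcon]
    rfl
  have h6 : ((tv M p r h : (Matrix (Fin M) (Fin M) ℚ)ˣ) : Matrix (Fin M) (Fin M) ℚ) ⟨p, hp⟩
      ⟨r, hr⟩ = (1 : Matrix (Fin M) (Fin M) ℚ) ⟨p, hp⟩ ⟨r, hr⟩ + el M p r ⟨p, hp⟩ ⟨r, hr⟩ := rfl
  rw [h6, add_eq_left, el_apply, if_pos ⟨rfl, rfl⟩] at h5
  exact one_ne_zero h5

/-- The rank of a rational number with respect to a finite set. -/
def rk (F : Finset ℚ) (t : ℚ) : ℕ := (F.filter (· < t)).card

theorem rk_lt {F : Finset ℚ} {s t : ℚ} (hs : s ∈ F) (h : s < t) : rk F s < rk F t := by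
  refine Finset.card_lt_card ⟨fun x hx => ?_, fun hsub => ?_⟩
  · rw [Finset.mem_filter] at hx ⊢
    exact ⟨hx.1, hx.2.trans h⟩
  · have := hsub (Finset.mem_filter.2 ⟨hs, h⟩)
    exact lt_irrefl _ (Finset.mem_filter.1 this).2

theorem rk_lt_card (F : Finset ℚ) (t : ℚ) : rk F t < F.card + 1 :=
  Nat.lt_succ_of_le (Finset.card_filter_le _ _)

/-- The unipotent matrix of an interval. -/
def mat (F : Finset ℚ) (p : Iv) : (Hol.filtUpper (F.card + 1)).U 1 le_rfl :=
  if h : rk F p.1.1 < rk F p.1.2 then ⟨tv _ _ _ h.ne', (tv_mem h).1⟩ else 1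

theorem mat_eq {F : Finset ℚ} {p : Iv} (h : rk F p.1.1 < rk F p.1.2) :
    (mat F p).1 = tv _ _ _ h.ne' := by
  rw [mat, dif_pos h]

theorem mat_rel {F : Finset ℚ} {p : Iv} (h1 : p.1.1 ∈ F) (h2 : (p.1.1 + p.1.2) / 2 ∈ F) :
    mat F p * (mat F (half true p) * mat F (half false p)) =
      mat F (half false p) * mat F (half true p) := by
  have a1 : rk F (half false p).1.1 < rk F (half false p).1.2 := rk_lt h1 (half false p).2
  have a2 : rk F (half true p).1.1 < rk F (half true p).1.2 := rk_lt h2 (half true p).2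
  have a3 : rk F p.1.1 < rk F p.1.2 := rk_lt h1 p.2
  apply Subtype.ext
  rw [Subgroup.coe_mul, Subgroup.coe_mul, Subgroup.coe_mul, mat_eq a1, mat_eq a2, mat_eq a3]
  exact tv_comm (rk_lt_card F _) _ _ _

end LLoc

open LLoc in
/-- Unipotent local systems exist over all finite parts of the complex. -/
theorem LL_loc : LL.Loc := by
  classical
  refine ⟨.v0 1 0, .v1 1 2 none, .v0 1 1, .v1 1 2 (some .a),
    Or.inr ⟨by decide, (mul_one _).symm⟩, Or.inr ⟨by decide, (mul_one _).symm⟩,
    Or.inr ⟨by decide, (mul_one _).symm⟩, Or.inr ⟨by decide, (mul_one _).symm⟩, fun S => ?_⟩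
  let f : Vx → Finset ℚ := fun v => match v with
    | .v2 q _ => {(iv q).1.1, ((iv q).1.1 + (iv q).1.2) / 2}
    | _ => ∅
  let F : Finset ℚ := insert (iv 1).1.1 (S.biUnion f)
  refine ⟨_, inferInstance, qnil_of_filt (Hol.filtUpper (F.card + 1)),
    transport (lab fun q => mat F (iv q)), fun u hu v hv w hw huv hvw huw => ?_, ?_⟩
  · refine transport_mul _ (S := (S : Set Vx)) (fun q t ht => lab_face _ q t fun _ => ?_)
      hu hv hw huv hvw huw
    have hsub : ∀ x ∈ f (.v2 q t), x ∈ F := fun x hx =>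
      Finset.mem_insert_of_mem (Finset.mem_biUnion.2 ⟨_, ht, hx⟩)
    rw [iv_mul, iv_mul]
    exact mat_rel (hsub _ (Finset.mem_insert_self _ _))
      (hsub _ (Finset.mem_insert_of_mem (Finset.mem_singleton_self _)))
  · show (1 : (Hol.filtUpper (F.card + 1)).U 1 le_rfl)⁻¹ * mat F (iv 1) * 1⁻¹ * 1 ≠ 1
    rw [inv_one, one_mul, mul_one, mul_one]
    intro hcon
    have a3 : rk F (iv 1).1.1 < rk F (iv 1).1.2 := rk_lt (Finset.mem_insert_self _ _) (iv 1).2
    have h1 := congrArg Subtype.val hcon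
    rw [mat_eq a3] at h1
    exact tv_ne_one (rk_lt_card F _) (rk_lt_card F _) _ h1

end Vale.Agent.P173F
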