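import Vale.Agent.P173F.Defs

/-! The top boundary map of the complex has an equivariant retraction. -/

namespace Vale.Agent.P173F

namespace LRet

variable {A A' : Type} [AddCommGroup A] [AddCommGroup A']

/-- The value on the letter `a`. -/
def βa (C : Q2 → Tg → A) (q : Q2) : A :=
  (C q .t7 - C q (.r (some .a)) - C q (.l .v)) - (C q .t5 - C q (.r (some .b)) - C q (.l .c)) +
    (C q .t6 - C q (.r (some .c)) - C q (.l .b))

/-- The value on the letter `p`. -/
def βp (C : Q2 → Tg → A) (q : Q2) : A :=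
  βa C (q * FreeGroup.of false) -
    (C q .t2 - C q (.r (some .x)) - C (q * FreeGroup.of false) (.l .a))

/-- The value on the letter `r`. -/
def βr (C : Q2 → Tg → A) (q : Q2) : A :=
  βa C (q * FreeGroup.of true) -
    (C q .t4 - C q (.r (some .y)) - C (q * FreeGroup.of true) (.l .a))

/-- The value on the letter `b`. -/
def βb (C : Q2 → Tg → A) (q : Q2) : A := (C q .t1 - C q (.r (some .b)) - C q (.l .x)) + βp C q

/-- The value on the letter `c`. -/
def βc (C : Q2 → Tg → A) (q : Q2) : A := (C q .t3 - C q (.r (some .c)) - C q (.l .y)) + βr C q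

/-- The values on the letters. -/
def β (C : Q2 → Tg → A) (q : Q2) : Lt → A
  | .a => βa C q
  | .b => βb C q
  | .c => βc C q
  | .x => 0
  | .y => 0
  | .p => βp C q
  | .r => βr C q
  | .u => βb C q + βc C q - (C q .t5 - C q (.r (some .b)) - C q (.l .c))
  | .v => βb C q + βc C q - (C q .t6 - C q (.r (some .c)) - C q (.l .b))

/-- The primitive of a function on the triangles. -/
def prim (C : Q2 → Tg → A) (q : Q2) : Fin 3 → Gn → A
  | 0, none => 0
  | 2, none => 0
  | 1, none => - C q (.r none)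
  | 1, some g => β C q g
  | 2, some g => β C q g + C q (.r (some g))
  | 0, some g => β C q g + C q (.l g)

theorem prim_face (C : Q2 → Tg → A) (q : Q2) (t : Tg) :
    prim C q 2 (face 2 t) + prim C (q * volt (face 2 t)) 0 (face 0 t) - prim C q 1 (face 1 t) =
      C q t := by
  rcases t with g | g | _ | _ | _ | _ | _ | _ | _
  · rcases g with _ | g
    · simp only [face, prim]
      abel
    · simp only [face, prim]
      abel
  · simp only [face, prim, volt, mul_one]
    abel
  · simp only [face, prim, volt, mul_one, β, βb]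
    abel
  · simp only [face, prim, volt, β, βp]
    abel
  · simp only [face, prim, volt, mul_one, β, βc]
    abel
  · simp only [face, prim, volt, β, βr]
    abel
  · simp only [face, prim, volt, mul_one, β]
    abel
  · simp only [face, prim, volt, mul_one, β]
    abel
  · simp only [face, prim, volt, mul_one, β, βa]
    abel

theorem prim_nat (f : A →+ A') {C : Q2 → Tg → A} {C' : Q2 → Tg → A'} {k : Q2}
    (h : ∀ q t, f (C q t) = C' (k * q) t) (q : Q2) (p : Fin 3) (g : Gn) :
    f (prim C q p g) = prim C' (k * q) p g := by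
  have hβ : ∀ g, f (β C q g) = β C' (k * q) g := by
    intro g
    cases g <;>
      simp only [β, βa, βb, βc, βp, βr, map_add, map_sub, map_zero, h, mul_assoc]
  fin_cases p <;> rcases g with _ | g
  · exact map_zero f
  · show f (β C q g + C q (.l g)) = β C' (k * q) g + C' (k * q) (.l g)
    rw [map_add, hβ, h]
  · show f (- C q (.r none)) = - C' (k * q) (.r none)
    rw [map_neg, h]
  · exact hβ g
  · exact map_zero f
  · show f (β C q g + C q (.r (some g))) = β C' (k * q) g + C' (k * q) (.r (some g))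
    rw [map_add, hβ, h]

/-- The alternating sum over the six small triangles. -/
def alt (c : Q2 → Fin 3 → Fin 3 → Tg → A) (q : Q2) (t : Tg) : A :=
  (c q 0 2 t - c q 1 2 t) + (c q 1 0 t - c q 2 0 t) - (c q 0 1 t - c q 2 1 t)

/-- The values on the edges of colours `0, 1`. -/
def b01 (c : Q2 → Fin 3 → Fin 3 → Tg → A) (q : Q2) (i p : Fin 3) (g : Gn) : A :=
  if (i = 0 ∨ (i = 1 ∧ p = 0)) then prim (alt c) q p g else 0

/-- The values on the edges of colours `0, 2`. -/
def b02 (c : Q2 → Fin 3 → Fin 3 → Tg → A) (q : Q2) (i : Fin 3) (t : Tg) : A :=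
  if i = 0 then 0 else if i = 1 then c q 0 2 t - c q 1 2 t - prim (alt c) q 2 (face 2 t)
  else c q 0 1 t - c q 2 1 t - prim (alt c) q 1 (face 1 t)

/-- The lower end of a side. -/
def lo (p : Fin 3) : Fin 3 := if p = 0 then 1 else 0

/-- The values on the edges of colours `1, 2`. -/
def b12 (c : Q2 → Fin 3 → Fin 3 → Tg → A) (q : Q2) (p : Fin 3) (t : Tg) : A :=
  c q (lo p) p t - b01 c (q * tE t p) (lo p) p (face p t) + b02 c q (lo p) t

theorem b_sum (c : Q2 → Fin 3 → Fin 3 → Tg → A) (q : Q2) {i p : Fin 3} (t : Tg) (hip : i ≠ p) :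
    b12 c q p t - b02 c q i t + b01 c (q * tE t p) i p (face p t) = c q i p t := by
  have h := prim_face (alt c) q t
  have h' : prim (alt c) (q * volt (face 2 t)) 0 (face 0 t) =
      alt c q t - prim (alt c) q 2 (face 2 t) + prim (alt c) q 1 (face 1 t) := by
    rw [← h]
    abel
  have hc : (p = 0 ∧ i = 1) ∨ (p = 0 ∧ i = 2) ∨ (p = 1 ∧ i = 0) ∨ (p = 1 ∧ i = 2) ∨
      (p = 2 ∧ i = 0) ∨ (p = 2 ∧ i = 1) := by
    revert i p
    decide
  rcases hc with ⟨rfl, rfl⟩ | ⟨rfl, rfl⟩ | ⟨rfl, rfl⟩ | ⟨rfl, rfl⟩ | ⟨rfl, rfl⟩ | ⟨rfl, rfl⟩ <;>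
    simp only [b12, b02, b01, lo, tE, h', alt, mul_one, if_true, if_false, Fin.reduceEq, and_self,
      or_true, and_true, and_false, or_false] <;>
    abel

/-- The values on pairs of vertices. -/
def R (c : Q2 → Fin 3 → Fin 3 → Tg → A) : Vx → Vx → A
  | .v0 _ i, .v1 q p g => b01 c q i p g
  | .v0 _ i, .v2 q t => b02 c q i t
  | .v1 _ p _, .v2 q t => b12 c q p t
  | _, _ => 0

theorem R_nat (f : A →+ A) {c : Q2 → Fin 3 → Fin 3 → Tg → A} {k : Q2}
    (h : ∀ q i p t, f (c q i p t) = c (k * q) i p t) (u v : Vx) :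
    R c (k • u) (k • v) = f (R c u v) := by
  have h0 : ∀ q t, f (alt c q t) = alt c (k * q) t := fun q t => by
    simp only [alt, map_add, map_sub, h]
  have h1 : ∀ q i p g, f (b01 c q i p g) = b01 c (k * q) i p g := fun q i p g => by
    unfold b01
    split_ifs
    · exact prim_nat f h0 q p g
    · exact map_zero f
  have h2 : ∀ q i t, f (b02 c q i t) = b02 c (k * q) i t := fun q i t => by
    unfold b02
    split_ifs
    · exact map_zero f
    · rw [map_sub, map_sub, h, h, prim_nat f h0]
    · rw [map_sub, map_sub, h, h, prim_nat f h0]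
  have h3 : ∀ q p t, f (b12 c q p t) = b12 c (k * q) p t := fun q p t => by
    rw [b12, b12, map_add, map_sub, h, h1, h2, mul_assoc]
  cases u <;> cases v
  · exact (map_zero f).symm
  · exact (h1 _ _ _ _).symm
  · exact (h2 _ _ _).symm
  · exact (map_zero f).symm
  · exact (map_zero f).symm
  · exact (h3 _ _ _).symm
  · exact (map_zero f).symm
  · exact (map_zero f).symm
  · exact (map_zero f).symm

theorem tE_eT (t : Tg) {i p : Fin 3} (h : i ≠ p) : tE t p * eT p (face p t) i = tT t i := by
  have := volt_face t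
  fin_cases p <;> fin_cases i <;> simp_all [tE, eT, tT]

/-- The small triangles. -/
def tri (q : Q2) (i p : Fin 3) (t : Tg) (h : i ≠ p) : LL.Tr where
  u := .v0 (q * tT t i) i
  v := .v1 (q * tE t p) p (face p t)
  w := .v2 q t
  huv := ⟨h, by rw [mul_assoc, tE_eT t h]⟩
  huw := rfl
  hvw := ⟨rfl, rfl⟩
  cu := rfl
  cv := rfl
  cw := rfl

theorem exists_tri (τ : LL.Tr) : ∃ q i p t h, τ = tri q i p t h := by
  obtain ⟨u, v, w, huv, huw, hvw, cu, cv, cw⟩ := τ
  cases u with
  | v1 _ _ _ => exact absurd cu (show ¬ ((1 : Fin 3) = 0) by decide)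
  | v2 _ _ => exact absurd cu (show ¬ ((2 : Fin 3) = 0) by decide)
  | v0 a i =>
  cases v with
  | v0 _ _ => exact absurd cv (show ¬ ((0 : Fin 3) = 1) by decide)
  | v2 _ _ => exact absurd cv (show ¬ ((2 : Fin 3) = 1) by decide)
  | v1 b p g =>
  cases w with
  | v0 _ _ => exact absurd cw (show ¬ ((0 : Fin 3) = 2) by decide)
  | v1 _ _ _ => exact absurd cw (show ¬ ((1 : Fin 3) = 2) by decide)
  | v2 q t =>
    have h1 : a = q * tT t i := huw
    have h2 : g = face p t ∧ b = q * tE t p := hvw
    obtain ⟨rfl, rfl⟩ := h2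
    subst h1
    exact ⟨q, i, p, t, huv.1, rfl⟩

theorem smul_tri (k q : Q2) (i p : Fin 3) (t : Tg) (h : i ≠ p) :
    k • tri q i p t h = tri (k * q) i p t h :=
  Cx.Tr.ext (congrArg (fun z => Vx.v0 z i) (mul_assoc _ _ _).symm)
    (congrArg (fun z => Vx.v1 z p (face p t)) (mul_assoc _ _ _).symm) rfl

/-- The generators of the chains on the small triangles. -/
noncomputable def ch (q : Q2) (i p : Fin 3) (t : Tg) : LL.Tr →₀ ℤ :=
  if h : i ≠ p then Finsupp.single (tri q i p t h) 1 else 0

end LRet

open LRet in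
/-- The top boundary map of the complex has an equivariant retraction. -/
theorem LL_ret : LL.Ret := by
  refine ⟨fun e => R ch e.u e.v, fun k e => ?_, fun τ => ?_⟩
  · refine R_nat (A := LL.Tr →₀ ℤ) (Finsupp.mapDomain.addMonoidHom fun t : LL.Tr => k • t)
      (fun q i p t => ?_) e.u e.v
    unfold ch
    split_ifs with h
    · show Finsupp.mapDomain _ _ = _
      rw [Finsupp.mapDomain_single, smul_tri]
    · exact map_zero _
  · obtain ⟨q, i, p, t, h, rfl⟩ := exists_tri τ
    have := b_sum ch q t h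
    rw [ch, dif_pos h] at this
    exact this

end Vale.Agent.P173F
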