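import Vale.Agent.P173F.Defs

/-! Cocycles on the lattice points of a clique complex come from cocycles on the complex. -/

set_option linter.all false

namespace Vale.Agent.P173F

variable {V B : Type} [AddCommGroup B] {N : ℕ} {T : Set V} {a b c v : V} {s m m' : Multiset V}

theorem In.swap (h : In N T (a ::ₘ s)) (hb : b ∈ T) : In N T (b ::ₘ s) :=
  ⟨by simpa using h.1, fun x hx => (Multiset.mem_cons.1 hx).elim (fun e => e ▸ hb)
    fun hx => h.2 x (Multiset.mem_cons_of_mem hx)⟩

theorem In.head (h : In N T (a ::ₘ s)) : a ∈ T := h.2 a (Multiset.mem_cons_self a s)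

theorem St.mk' (a b : V) (s : Multiset V) : St (a ::ₘ s) (b ::ₘ s) := ⟨s, a, b, rfl, rfl⟩

theorem in_rep (hb : b ∈ T) : In N T (Multiset.replicate N b) :=
  ⟨Multiset.card_replicate _ _, fun x hx => Multiset.eq_of_mem_replicate hx ▸ hb⟩

/-- functions which are constant along moves are constant -/
theorem const_of_St {X : Type} {f : Multiset V → X}
    (hf : ∀ m m', In N T m → In N T m' → St m m' → f m = f m') (hb : b ∈ T) (hm : In N T m) :
    f m = f (Multiset.replicate N b) := by
  have key : ∀ r s : Multiset V, In N T (r + s) → f (r + s) = f (Multiset.replicate r.card b + s) :=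
    fun r => by
      induction r using Multiset.induction_on with
      | empty => exact fun s _ => rfl
      | cons a r ih =>
        intro s h
        rw [Multiset.cons_add] at h
        have h2 := h.swap hb
        rw [Multiset.cons_add, hf _ _ h h2 (St.mk' _ _ _), ← Multiset.add_cons,
          ih _ (by rwa [Multiset.add_cons]), Multiset.card_cons, Multiset.replicate_succ,
          Multiset.cons_add, Multiset.add_cons]
  simpa only [add_zero, hm.1] using key m 0 (by rwa [add_zero])

/-- the sum of `ζ` along the path which replaces copies of `v` by the letters of a list -/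
def pth (ζ : Multiset V → Multiset V → B) (v : V) : List V → Multiset V → B
  | [], _ => 0
  | a :: l, s => pth ζ v l (v ::ₘ s) + ζ (v ::ₘ (l + s)) (a ::ₘ (l + s))

variable {ζ : Multiset V → Multiset V → B} (hζ : ∀ m m' m'', In N T m → In N T m' → In N T m'' →
  St m m' → St m' m'' → St m m'' → ζ m m' + ζ m' m'' = ζ m m'')
include hζ

theorem tri (h : In N T (a ::ₘ s)) (hb : b ∈ T) (hc : c ∈ T) :
    ζ (a ::ₘ s) (b ::ₘ s) + ζ (b ::ₘ s) (c ::ₘ s) = ζ (a ::ₘ s) (c ::ₘ s) :=
  hζ _ _ _ h (h.swap hb) (h.swap hc) (St.mk' _ _ _) (St.mk' _ _ _) (St.mk' _ _ _)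

theorem pth_perm (hv : v ∈ T) {l l' : List V} (p : l.Perm l') :
    ∀ s : Multiset V, In N T (l + s) → pth ζ v l s = pth ζ v l' s := by
  induction p with
  | nil => exact fun _ _ => rfl
  | cons a p ih =>
    intro s h
    rw [← Multiset.cons_coe, Multiset.cons_add] at h
    rw [pth, pth, ih _ (by rw [Multiset.add_cons]; exact h.swap hv), Multiset.coe_eq_coe.2 p]
  | swap a b l =>
    intro s h
    rw [← Multiset.cons_coe, ← Multiset.cons_coe, Multiset.cons_add, Multiset.cons_add] at h
    simp only [pth, ← Multiset.cons_coe, Multiset.cons_add, Multiset.add_cons, add_assoc]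
    generalize (l : Multiset V) + s = r at h
    have ha : a ∈ T := (Multiset.cons_swap b a r ▸ h).head
    have h1 : In N T (v ::ₘ v ::ₘ r) := (Multiset.cons_swap v a r ▸ h.swap hv).swap hv
    have h2 := tri hζ h1 ha h.head
    have h3 := hζ (a ::ₘ v ::ₘ r) (b ::ₘ v ::ₘ r) (b ::ₘ a ::ₘ r) (h1.swap ha) (h1.swap h.head) h
      (St.mk' _ _ _) ⟨b ::ₘ r, v, a, Multiset.cons_swap _ _ _, Multiset.cons_swap _ _ _⟩
      ⟨a ::ₘ r, v, b, Multiset.cons_swap _ _ _, rfl⟩
    rw [Multiset.cons_swap v a, Multiset.cons_swap v b, Multiset.cons_swap a b, ← h2, ← h3,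
      add_assoc]
  | trans p _ ih ih' => exact fun s h => (ih s h).trans (ih' s (Multiset.coe_eq_coe.2 p ▸ h))

theorem pth_cons (hv : v ∈ T) (h : In N T (a ::ₘ s)) :
    pth ζ v (a ::ₘ s).toList 0 = pth ζ v s.toList {v} + ζ (v ::ₘ s) (a ::ₘ s) := by
  rw [pth_perm hζ hv (l' := a :: s.toList) (Multiset.coe_eq_coe.1 (by simp [← Multiset.cons_coe])) 0
    (by simpa using h), pth]
  simp

theorem pth_St (hv : v ∈ T) (h : In N T m) (h' : In N T m') (e : St m m') :
    ζ m m' = pth ζ v m'.toList 0 - pth ζ v m.toList 0 := by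
  obtain ⟨s, a, b, rfl, rfl⟩ := e
  rw [pth_cons hζ hv h, pth_cons hζ hv h', ← tri hζ (h.swap hv) h.head h'.head]
  abel

theorem pth_sub (ha : a ∈ T) (hb : b ∈ T) (h : In N T m) :
    pth ζ a m.toList 0 - pth ζ b m.toList 0 =
      pth ζ a (Multiset.replicate N b).toList 0 - pth ζ b (Multiset.replicate N b).toList 0 :=
  const_of_St (f := fun m => pth ζ a m.toList 0 - pth ζ b m.toList 0) (fun m m' h h' e => by
    have h1 := (pth_St hζ ha h h' e).symm.trans (pth_St hζ hb h h' e)
    exact (sub_eq_sub_iff_sub_eq_sub.1 h1).symm) hb h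

omit hζ in
theorem lattice_coc {V B : Type} [AddCommGroup B] (E : V → V → Prop) (hrefl : ∀ v, E v v)
    (hsymm : ∀ u v, E u v → E v u) (S : Set V) (N : ℕ) (hN : 0 < N)
    (ζ : Multiset V → Multiset V → B)
    (hζ : ∀ T : Set V, T ⊆ S → IsCl E T → ∀ m m' m'', In N T m → In N T m' → In N T m'' →
      St m m' → St m' m'' → St m m'' → ζ m m' + ζ m' m'' = ζ m m'')
    (lab : Multiset V → V) (hlab : ∀ T m, IsCl E T → In N T m → lab m ∈ m) :
    ∃ (ω : V → V → B) (u : Multiset V → B),
      (∀ a ∈ S, ∀ b ∈ S, ∀ c ∈ S, E a b → E b c → E a c → ω a b + ω b c = ω a c) ∧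
      ∀ T : Set V, T ⊆ S → IsCl E T → ∀ m m', In N T m → In N T m' → St m m' →
        ζ m m' = ω (lab m) (lab m') + u m' - u m := by
  refine ⟨fun a b => pth ζ a (Multiset.replicate N b).toList 0 -
    pth ζ b (Multiset.replicate N b).toList 0, fun m => pth ζ (lab m) m.toList 0,
    fun a ha b hb c hc h1 h2 h3 => ?_, fun T hT hc m m' h h' e => ?_⟩
  · have h4 := hζ {a, b, c} (by rintro x (rfl | rfl | rfl) <;> assumption) (by
      rintro x (rfl | rfl | rfl) y (rfl | rfl | rfl) <;>
        first | exact hrefl _ | assumption | exact hsymm _ _ ‹_›)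
    have h5 : In N {a, b, c} (Multiset.replicate N c) := in_rep (by simp)
    simp only
    rw [← pth_sub h4 (by simp) (by simp) h5]
    abel
  · have h1 := h.2 _ (hlab T m hc h)
    simp only
    rw [← pth_sub (hζ T hT hc) h1 (h'.2 _ (hlab T m' hc h')) h', pth_St (hζ T hT hc) h1 h h' e]
    abel

end Vale.Agent.P173F
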