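import Vale.Agent.P173F.Defs

/-! The Cayley tree of the free group: potentials, and the projective dimension of the module of
vertices. -/

set_option linter.all false

namespace Vale.Agent.P173F

open Vale.Agent.P173 CategoryTheory

theorem free_potential {B : Type} [AddCommGroup B] (ν : Bool → Q2 → B) :
    ∃ U : Q2 → B, ∀ b q, U (q * FreeGroup.of b) = U q + ν b q :=
  ⟨fun q => Hol.S FreeGroup.of (fun b h => -ν b (FreeGroup.of b * h)⁻¹) q⁻¹ 1, fun b q => by
    simp only [mul_inv_rev, Hol.S_mul, Hol.S_inv, Hol.S_of, FreeGroup.lift_of_apply, mul_one,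
      inv_inv, neg_neg, mul_inv_cancel_right, add_comm]⟩

theorem const_of_free {B : Type} (F : Q2 → B) (h : ∀ b q, F (q * FreeGroup.of b) = F q) (q : Q2) :
    F q = F 1 := by
  have : ∀ w q, F (q * w) = F q := fun w => by
    induction w using FreeGroup.induction_on with
    | C1 => exact fun q => by rw [mul_one]
    | of x => exact h x
    | inv_of x ih => exact fun q => by rw [← ih, inv_mul_cancel_right]
    | mul u v hu hv => exact fun q => by rw [← mul_assoc, hv, hu]
  rw [← this q 1, one_mul]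

theorem exact_of_coch' {X Y Z : Type} (f : X → (Y →₀ ℤ)) (g : Y → (Z →₀ ℤ))
    (H : ∀ (A : Type) [AddCommGroup A] (F : Y → A),
      (∀ x, Finsupp.linearCombination ℤ F (f x) = 0) →
      ∃ K : Z → A, ∀ y, F y = Finsupp.linearCombination ℤ K (g y)) (z : Y →₀ ℤ)
    (hz : Finsupp.linearCombination ℤ g z = 0) :
    ∃ y : X →₀ ℤ, Finsupp.linearCombination ℤ f y = z :=
  exact_of_coch f g (fun A _ m => by
    obtain rfl := Subsingleton.elim (AddCommGroup.toIntModule A) m
    exact H A) z hz

namespace Cx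

variable {V : Type} [MulAction Q2 V] (C : Cx V)

theorem cell_free {S : Type} [MulAction Q2 S] (hS : ∀ (q : Q2) (s : S), q • s = s → q = 1)
    (k : C.GG) (c : C.Cell S) (h : k • c = c) : k = 1 := by
  have h1 : k.1.right = 1 := hS _ c.s (congrArg Cell.s h)
  have h2 : k.1.left * C.act k.1.right c.g = c.g := congrArg Cell.g h
  rw [h1, map_one, MulAut.one_apply, mul_eq_right] at h2
  exact Subtype.ext (SemidirectProduct.ext h2 h1)

/-- the boundary of an edge of the tree -/
noncomputable def t1 (c : C.Cell (Σ _ : Bool, Q2)) : C.Cell Q2 →₀ ℤ :=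
  Finsupp.single ⟨c.g, c.s.2 * FreeGroup.of c.s.1⟩ 1 - Finsupp.single ⟨c.g, c.s.2⟩ 1

/-- the augmentation of the tree -/
noncomputable def t0 (c : C.Cell Q2) : C.Cell Unit →₀ ℤ := Finsupp.single ⟨c.g, ()⟩ 1

theorem pd_zero : HasProjectiveDimensionLT (permRep ℤ C.GG (C.Cell Unit)) 2 := by
  have P1 : Projective (permRep ℤ C.GG (C.Cell (Σ _ : Bool, Q2))) :=
    permRep_projective (C.cell_free fun q ⟨b, s⟩ h =>
      mul_eq_right.1 (congrArg (fun s : Σ _ : Bool, Q2 => s.2) h))
  have P0 : Projective (permRep ℤ C.GG (C.Cell Q2)) :=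
    permRep_projective (C.cell_free fun q s h => mul_eq_right.1 h)
  let D1 := permLift (permRep ℤ C.GG (C.Cell Q2)) C.t1 fun k ⟨g, b, q⟩ => by
    change _ = permRho ℤ C.GG _ k _
    simp only [t1, map_sub, permRho_single, smul_cell', Sigma.smul_mk, smul_eq_mul, mul_assoc]
  let D0 := permLift (permRep ℤ C.GG (C.Cell Unit)) C.t0 fun k ⟨g, q⟩ =>
    (permRho_single ℤ C.GG (C.Cell Unit) k ⟨g, ()⟩ 1).symm
  have h10 : D1 ≫ D0 = 0 := perm_hom_ext fun c => by
    rw [Rep.hom_comp, Representation.IntertwiningMap.comp_apply]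
    change D0.hom (D1.hom (Finsupp.single c (1 : ℤ))) = 0
    rw [permLift_single, t1, map_sub, permLift_single, permLift_single]
    exact sub_self _
  have hm : Mono D1 := (Rep.mono_iff_injective D1).2 ((injective_iff_map_eq_zero _).2 fun z hz => by
    obtain ⟨y, rfl⟩ := exact_of_coch' (X := Empty) Empty.elim C.t1 (fun A _ F _ => by
      choose U hU using fun g : C.Raag => free_potential fun b q => F ⟨g, b, q⟩
      exact ⟨fun c => U c.g c.s, fun ⟨g, b, q⟩ => by simp [t1, hU]⟩) z hz
    rw [Subsingleton.elim y 0, map_zero])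
  have he : Epi D0 := (Rep.epi_iff_surjective D0).2 fun z => by
    induction z using Finsupp.induction_linear with
    | zero => exact ⟨0, map_zero _⟩
    | add f g hf hg =>
      obtain ⟨a, rfl⟩ := hf
      obtain ⟨b, rfl⟩ := hg
      exact ⟨a + b, map_add _ _ _⟩
    | single c n =>
      refine ⟨Finsupp.single ⟨c.g, 1⟩ n, ?_⟩
      rw [permLift_apply, Finsupp.linearCombination_single, t0, Finsupp.smul_single_one]
  have hs : (ShortComplex.mk D1 D0 h10).ShortExact :=
    { exact := rep_exact_of _ _ h10 (exact_of_coch' C.t1 C.t0 fun A _ F hF =>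
        ⟨fun c => F ⟨c.g, 1⟩, fun ⟨g, q⟩ => by
          rw [t0, Finsupp.linearCombination_single, one_smul]
          exact const_of_free (fun q => F ⟨g, q⟩)
            (fun b q => by simpa [t1, sub_eq_zero] using hF ⟨g, b, q⟩) q⟩) }
  exact hs.hasProjectiveDimensionLT_X₃ 1 inferInstance inferInstance

end Cx

end Vale.Agent.P173F
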