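import Vale.Agent.P173F.LevD
import Vale.Agent.P173F.Cd
import Vale.Agent.P173F.Tree

/-! The level set of height one half gives a finite free resolution. -/

open CategoryTheory

namespace Vale.Agent.P173F

open Vale.Agent.P173

section general

variable {G : Type} [Group G] {X Y : Type} [MulAction G X] [MulAction G Y]

/-- A free action with finitely many orbits gives a finitely generated free module. -/
theorem exists_free_iso (hfree : ∀ (g : G) (x : X), g • x = x → g = 1) (X0 : Set X)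
    (h0 : X0.Finite) (h1 : ∀ x : X, ∃ g : G, g • x ∈ X0) :
    ∃ n : ℕ, Nonempty (Rep.free ℤ G (Fin n) ≅ permRep ℤ G X) := by
  have hfin : Finite (Quotient (MulAction.orbitRel G X)) := by
    have := h0.to_subtype
    refine Finite.of_surjective (fun x : X0 => Quotient.mk (MulAction.orbitRel G X) x.1) fun ω => ?_
    induction ω using Quotient.inductionOn with
    | h x =>
      obtain ⟨g, hg⟩ := h1 x
      exact ⟨⟨g • x, hg⟩, Quotient.sound (MulAction.orbitRel_apply.2 (MulAction.mem_orbit x g))⟩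
  obtain ⟨n, ⟨e⟩⟩ := Finite.exists_equiv_fin (Quotient (MulAction.orbitRel G X))
  let rep : Fin n → X := fun i => (e.symm i).out
  have hrep : ∀ i, Quotient.mk (MulAction.orbitRel G X) (rep i) = e.symm i := fun i =>
    Quotient.out_eq _
  let ψ : Fin n × G → X := fun p => p.2 • rep p.1
  have hψ : Function.Bijective ψ := by
    constructor
    · rintro ⟨i, g⟩ ⟨j, h⟩ hij
      have h2 : g • rep i = h • rep j := hij
      have h3 : e.symm i = e.symm j := by
        rw [← hrep, ← hrep]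
        refine Quotient.sound (MulAction.orbitRel_apply.2 ⟨g⁻¹ * h, ?_⟩)
        show (g⁻¹ * h) • rep j = rep i
        rw [mul_smul, ← h2, inv_smul_smul]
      obtain rfl := e.symm.injective h3
      have h4 : h⁻¹ * g = 1 := hfree _ (rep i) (by rw [mul_smul, h2, inv_smul_smul])
      rw [inv_mul_eq_one] at h4
      rw [h4]
    · intro x
      have h2 : Quotient.mk (MulAction.orbitRel G X) x =
          Quotient.mk (MulAction.orbitRel G X) (rep (e (Quotient.mk _ x))) := by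
        rw [hrep, e.symm_apply_apply]
      obtain ⟨g, hg⟩ := MulAction.orbitRel_apply.1 (Quotient.exact h2)
      exact ⟨(e (Quotient.mk _ x), g), hg⟩
  refine ⟨n, ⟨Rep.mkIso (Representation.Equiv.mk
    ((Finsupp.mapRange.linearEquiv (MonoidAlgebra.coeffLinearEquiv ℤ)).trans
      ((Finsupp.curryLinearEquiv ℤ).symm.trans
        (Finsupp.domLCongr (Equiv.ofBijective ψ hψ)))) fun g => ?_)⟩⟩
  ext i h x
  simp [permRho_single, ψ, mul_smul]

open Classical in
/-- Extension by zero. -/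
noncomputable def ext0 {A : Type} [AddCommGroup A] (T : SubMulAction G Y) (F : T → A) (y : Y) : A :=
  if h : y ∈ T then F ⟨y, h⟩ else 0

theorem ext0_mem {A : Type} [AddCommGroup A] {T : SubMulAction G Y} (F : T → A) (y : T) :
    ext0 T F y = F y := dif_pos y.2

theorem ext0_not {A : Type} [AddCommGroup A] {T : SubMulAction G Y} (F : T → A) {y : Y}
    (h : y ∉ T) : ext0 T F y = 0 := dif_neg h

theorem ext0_res {A : Type} [AddCommGroup A] {T : SubMulAction G Y} (K : Y → A)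
    (h : ∀ y, y ∉ T → K y = 0) : ext0 T (fun y => K y) = K := by
  funext y
  by_cases hy : y ∈ T
  · exact ext0_mem (fun y => K y) ⟨y, hy⟩
  · rw [ext0_not _ hy, h y hy]

/-- Restriction of chains. -/
noncomputable def res (T : SubMulAction G Y) : (Y →₀ ℤ) →ₗ[ℤ] (T →₀ ℤ) :=
  Finsupp.linearCombination ℤ (ext0 T fun y => Finsupp.single y 1)

theorem lc_res {A : Type} [AddCommGroup A] (T : SubMulAction G Y) (F : T → A) (z : Y →₀ ℤ) :
    Finsupp.linearCombination ℤ F (res T z) = Finsupp.linearCombination ℤ (ext0 T F) z := by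
  induction z using Finsupp.induction_linear with
  | zero => simp
  | add f h hf hh => rw [map_add, map_add, map_add, hf, hh]
  | single y r =>
    rw [res, Finsupp.linearCombination_single, Finsupp.linearCombination_single, map_smul]
    by_cases hy : y ∈ T
    · rw [ext0_mem _ ⟨y, hy⟩, ext0_mem _ ⟨y, hy⟩, lc_single_gen]
    · rw [ext0_not _ hy, ext0_not _ hy, map_zero]

theorem res_smul (T : SubMulAction G Y) (g : G) (z : Y →₀ ℤ) :
    res T (permRho ℤ G Y g z) = permRho ℤ G T g (res T z) := by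
  induction z using Finsupp.induction_linear with
  | zero => simp
  | add f h hf hh => rw [map_add, map_add, map_add, map_add, hf, hh]
  | single y r =>
    rw [permRho_single, res, Finsupp.linearCombination_single, Finsupp.linearCombination_single,
      map_smul]
    by_cases hy : y ∈ T
    · rw [ext0_mem _ ⟨y, hy⟩, ext0_mem _ ⟨g • y, T.smul_mem g hy⟩, permRho_single]
      rfl
    · have hy' : g • y ∉ T := fun h => hy (by simpa using T.smul_mem g⁻¹ h)
      rw [ext0_not _ hy, ext0_not _ hy', map_zero]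

theorem fl_of_perm {X0 X1 X2 : Type} [MulAction G X0] [MulAction G X1] [MulAction G X2]
    (i0 : ∃ n : ℕ, Nonempty (Rep.free ℤ G (Fin n) ≅ permRep ℤ G X0))
    (i1 : ∃ n : ℕ, Nonempty (Rep.free ℤ G (Fin n) ≅ permRep ℤ G X1))
    (i2 : ∃ n : ℕ, Nonempty (Rep.free ℤ G (Fin n) ≅ permRep ℤ G X2))
    (D2 : permRep ℤ G X2 ⟶ permRep ℤ G X1) (D1 : permRep ℤ G X1 ⟶ permRep ℤ G X0)
    (D0 : permRep ℤ G X0 ⟶ Rep.trivial ℤ G ℤ) (h2 : Function.Injective D2.hom)
    (h1 : Function.Exact D2.hom D1.hom) (h0 : Function.Exact D1.hom D0.hom)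
    (h : Function.Surjective D0.hom) : FL G := by
  obtain ⟨n0, ⟨e0⟩⟩ := i0
  obtain ⟨n1, ⟨e1⟩⟩ := i1
  obtain ⟨n2, ⟨e2⟩⟩ := i2
  have a : ∀ {A B : Rep.{0} ℤ G} (e : A ≅ B) (x : A), e.inv.hom (e.hom.hom x) = x :=
    fun e x => congrArg (fun f => f.hom x) e.hom_inv_id
  have b : ∀ {A B : Rep.{0} ℤ G} (e : A ≅ B) (x : B), e.hom.hom (e.inv.hom x) = x :=
    fun e x => congrArg (fun f => f.hom x) e.inv_hom_id
  refine ⟨n0, n1, n2, e2.hom ≫ D2 ≫ e1.inv, e1.hom ≫ D1 ≫ e0.inv, e0.hom ≫ D0, ?_, ?_, ?_, ?_⟩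
  · intro x y hxy
    have h3 : e1.inv.hom (D2.hom (e2.hom.hom x)) = e1.inv.hom (D2.hom (e2.hom.hom y)) := hxy
    have h4 := congrArg e1.hom.hom h3
    rw [b, b] at h4
    have h5 := congrArg e2.inv.hom (h2 h4)
    rwa [a, a] at h5
  · intro y
    show e0.inv.hom (D1.hom (e1.hom.hom y)) = 0 ↔
      ∃ x, e1.inv.hom (D2.hom (e2.hom.hom x)) = y
    constructor
    · intro hy
      have h4 := congrArg e0.hom.hom hy
      rw [b, map_zero] at h4
      obtain ⟨x, hx⟩ := (h1 _).1 h4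
      exact ⟨e2.inv.hom x, by rw [b, hx, a]⟩
    · rintro ⟨x, rfl⟩
      rw [b, (h1 _).2 ⟨_, rfl⟩, map_zero]
  · intro y
    show D0.hom (e0.hom.hom y) = 0 ↔ ∃ x, e0.inv.hom (D1.hom (e1.hom.hom x)) = y
    constructor
    · intro hy
      obtain ⟨x, hx⟩ := (h0 _).1 hy
      exact ⟨e1.inv.hom x, by rw [b, hx, a]⟩
    · rintro ⟨x, rfl⟩
      rw [b, (h0 _).2 ⟨_, rfl⟩]
  · intro n
    obtain ⟨x, hx⟩ := h n
    refine ⟨e0.inv.hom x, ?_⟩
    show D0.hom (e0.hom.hom (e0.inv.hom x)) = n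
    rw [b, hx]

theorem exact_of {X Y : Type} {Z : Type} [AddCommGroup Z] (f : X → (Y →₀ ℤ)) (g : Y → Z)
    (h1 : ∀ x, Finsupp.linearCombination ℤ g (f x) = 0)
    (h2 : ∀ z, Finsupp.linearCombination ℤ g z = 0 →
      ∃ y : X →₀ ℤ, Finsupp.linearCombination ℤ f y = z) :
    Function.Exact (Finsupp.linearCombination ℤ f) (Finsupp.linearCombination ℤ g) := by
  refine fun z => ⟨h2 z, ?_⟩
  rintro ⟨y, rfl⟩
  induction y using Finsupp.induction_linear with
  | zero => simp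
  | add a b ha hb => rw [map_add, map_add, ha, hb, add_zero]
  | single x r => rw [Finsupp.linearCombination_single, map_smul, h1, smul_zero]

end general

namespace Cx

variable {V : Type} [MulAction Q2 V] (C : Cx V)

theorem ht_smul {S : Type} [MulAction Q2 S] (k : C.GG) (c : C.Cell S) :
    C.ht (k • c).g = C.ht c.g := by
  show C.ht (k.1.left * C.act k.1.right c.g) = _
  rw [ht_mul, ht_act, C.mem_GG.1 k.2, zero_add]

/-- The cells whose bottom vertex has height between `-n` and `0`. -/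
def lev (S : Type) [MulAction Q2 S] (n : ℤ) : SubMulAction C.GG (C.Cell S) where
  carrier := {c | -n ≤ C.ht c.g ∧ C.ht c.g ≤ 0}
  smul_mem' k c hc := by
    show -n ≤ C.ht (k • c).g ∧ C.ht (k • c).g ≤ 0
    rw [ht_smul]
    exact hc

theorem mem_lev {S : Type} [MulAction Q2 S] {n : ℤ} {c : C.Cell S} :
    c ∈ C.lev S n ↔ -n ≤ C.ht c.g ∧ C.ht c.g ≤ 0 := Iff.rfl

theorem ht_zpow (u : V) (n : ℤ) : C.ht (C.gen u ^ n) = n := by
  rw [ht, map_zpow, wt0_gen, toAdd_zpow, toAdd_ofAdd, smul_eq_mul, mul_one]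

theorem lev_iso (u0 : V) {S : Type} [MulAction Q2 S] (hS : ∀ (q : Q2) (s : S), q • s = s → q = 1)
    (S0 : Set S) (h0 : S0.Finite) (h1 : ∀ s : S, ∃ q : Q2, q • s ∈ S0) (n : ℤ) :
    ∃ m : ℕ, Nonempty (Rep.free ℤ C.GG (Fin m) ≅ permRep ℤ C.GG (C.lev S n)) := by
  refine exists_free_iso (fun g x h => C.cell_free hS g x.1 (congrArg Subtype.val h))
    (Subtype.val ⁻¹' ((fun p : ℤ × S => (⟨C.gen u0 ^ p.1, p.2⟩ : C.Cell S)) ''
      (Set.Icc (-n) 0 ×ˢ S0)))
    ((((Set.finite_Icc _ _).prod h0).image _).preimage Subtype.val_injective.injOn) fun x => ?_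
  obtain ⟨⟨g, s⟩, hx⟩ := x
  obtain ⟨q, hq⟩ := h1 s
  refine ⟨⟨⟨C.gen u0 ^ C.ht g * (C.act q g)⁻¹, q⟩, ?_⟩, (C.ht g, q • s), ⟨hx, hq⟩, ?_⟩
  · rw [mem_GG]
    show C.ht (C.gen u0 ^ C.ht g * (C.act q g)⁻¹) = 0
    rw [ht_mul, ht_inv, ht_act, ht_zpow, add_neg_cancel]
  · refine Cell.ext ?_ rfl
    show C.gen u0 ^ C.ht g = C.gen u0 ^ C.ht g * (C.act q g)⁻¹ * C.act q g
    rw [inv_mul_cancel_right]

theorem lc_d2_out {A : Type} [AddCommGroup A] (F : C.lev V 0 → A) {c : C.Cell C.Ed}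
    (hc : c ∉ C.lev C.Ed 1) : Finsupp.linearCombination ℤ (ext0 _ F) (C.d2 c) = 0 := by
  rw [mem_lev] at hc
  have h1 : ∀ s, ext0 _ F ⟨c.g, s⟩ = 0 := fun s => ext0_not F fun h => by
    have h2 : -0 ≤ C.ht c.g ∧ C.ht c.g ≤ 0 := h
    omega
  have h2 : ∀ u s, ext0 _ F ⟨c.g * C.gen u, s⟩ = 0 := fun u s => ext0_not F fun h => by
    have h2 : -0 ≤ C.ht (c.g * C.gen u) ∧ C.ht (c.g * C.gen u) ≤ 0 := h
    rw [ht_mul, ht_gen] at h2
    omega
  rw [d2, map_sub, lc_sub, lc_sub, h1, h1, h2, h2, sub_self]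

theorem lc_d3_out {A : Type} [AddCommGroup A] (F : C.lev C.Ed 1 → A) {c : C.Cell C.Tr}
    (hc : c ∉ C.lev C.Tr 2) : Finsupp.linearCombination ℤ (ext0 _ F) (C.d3 c) = 0 := by
  rw [mem_lev] at hc
  have h1 : ∀ s, ext0 _ F ⟨c.g, s⟩ = 0 := fun s => ext0_not F fun h => by
    have h2 : -1 ≤ C.ht c.g ∧ C.ht c.g ≤ 0 := h
    omega
  have h2 : ∀ u s, ext0 _ F ⟨c.g * C.gen u, s⟩ = 0 := fun u s => ext0_not F fun h => by
    have h2 : -1 ≤ C.ht (c.g * C.gen u) ∧ C.ht (c.g * C.gen u) ≤ 0 := h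
    rw [ht_mul, ht_gen] at h2
    omega
  rw [d3, map_add, map_sub, lc_sub, lc_sub, lc_sub, h1, h1, h1, h2, h2, h2, sub_self, sub_self,
    add_zero]

/-- **The group has a finite free resolution of length two.** -/
theorem fl (u0 : V) (hf : Cofin (V := V)) (hl : C.LocFin) (r0 : C.Rel0) (r1 : C.Rel1)
    (r2 : C.Rel2) : FL C.GG := by
  obtain ⟨V0, hV0, hV⟩ := hf
  have hE : {e : C.Ed | e.u ∈ V0}.Finite := by
    refine Set.Finite.of_finite_image (f := fun e : C.Ed => (e.u, e.v)) ?_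
      fun e _ e' _ h => Ed.ext (congrArg Prod.fst h) (congrArg Prod.snd h)
    refine (hV0.biUnion fun u _ => (Set.finite_singleton u).prod (hl u)).subset ?_
    rintro _ ⟨e, he, rfl⟩
    exact Set.mem_biUnion he ⟨rfl, e.huv⟩
  have hT : {t : C.Tr | t.u ∈ V0}.Finite := by
    refine Set.Finite.of_finite_image (f := fun t : C.Tr => (t.u, t.v, t.w)) ?_
      fun e _ e' _ h => Tr.ext (congrArg Prod.fst h) (congrArg (fun p => p.2.1) h)
        (congrArg (fun p => p.2.2) h)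
    refine (hV0.biUnion fun u _ => (Set.finite_singleton u).prod ((hl u).prod (hl u))).subset ?_
    rintro _ ⟨t, ht, rfl⟩
    exact Set.mem_biUnion ht ⟨rfl, t.huv, t.huw⟩
  let f2 : C.lev C.Tr 2 → (C.lev C.Ed 1 →₀ ℤ) := fun c => res _ (C.d3 c.1)
  let f1 : C.lev C.Ed 1 → (C.lev V 0 →₀ ℤ) := fun c => res _ (C.d2 c.1)
  have hmem0 : ∀ c : C.Cell V, c ∈ C.lev V 0 ↔ C.ht c.g = 0 := fun c => by
    rw [mem_lev]
    omega
  refine fl_of_perm (C.lev_iso u0 C.free V0 hV0 hV 0)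
    (C.lev_iso u0 (fun q e he => C.free q e.u (congrArg Ed.u he)) _ hE (fun e => hV e.u) 1)
    (C.lev_iso u0 (fun q t ht => C.free q t.u (congrArg Tr.u ht)) _ hT (fun t => hV t.u) 2)
    (permLift (permRep ℤ C.GG (C.lev C.Ed 1)) f2 fun k c => by
      show res _ (C.d3 (k • c.1)) = permRho ℤ C.GG _ k (res _ (C.d3 c.1))
      rw [d3_smul, res_smul])
    (permLift (permRep ℤ C.GG (C.lev V 0)) f1 fun k c => by
      show res _ (C.d2 (k • c.1)) = permRho ℤ C.GG _ k (res _ (C.d2 c.1))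
      rw [d2_smul, res_smul])
    (permLift (Rep.trivial ℤ C.GG ℤ) (fun _ => (1 : ℤ)) (fun _ _ => rfl)) ?_ ?_ ?_ ?_
  · refine (injective_iff_map_eq_zero _).2 fun z hz => ?_
    obtain ⟨y, rfl⟩ := exact_of_coch' (X := Empty) Empty.elim f2 (fun A _ F _ => by
      obtain ⟨K, hK1, hK2⟩ := r2 A (ext0 _ F) fun c hc => ext0_not F hc
      refine ⟨fun c => K c.1, fun c => ?_⟩
      rw [lc_res, ext0_res K hK1, ← hK2, ext0_mem]) z hz
    rw [Subsingleton.elim y 0, map_zero]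
  · refine exact_of f2 f1 (fun c => ?_) (exact_of_coch' f2 f1 fun A _ F hF => ?_)
    · have h1 : ext0 _ f1 = fun s => res (C.lev V 0) (C.d2 s) :=
        ext0_res (fun s => res (C.lev V 0) (C.d2 s)) fun s hs => C.lc_d2_out _ hs
      rw [lc_res, h1]
      have h2 := Finsupp.apply_linearCombination ℤ (res (C.lev V 0)) C.d2 (C.d3 c.1)
      rw [d2_d3, map_zero] at h2
      exact h2.symm
    · obtain ⟨K, hK1, hK2⟩ := r1 A (ext0 _ F) (fun c hc => ext0_not F hc) fun s => by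
        by_cases hs : s ∈ C.lev C.Tr 2
        · rw [← lc_res]
          exact hF ⟨s, hs⟩
        · exact C.lc_d3_out F hs
      refine ⟨fun c => K c.1, fun c => ?_⟩
      rw [lc_res, ext0_res K fun y hy => hK1 y fun h => hy ((hmem0 y).2 h), ← hK2, ext0_mem]
  · refine exact_of f1 (fun _ => (1 : ℤ)) (fun c => ?_) fun z hz => ?_
    · have h1 : ∀ g u v, ext0 (C.lev V 0) (fun _ => (1 : ℤ)) ⟨g, u⟩ =
          ext0 (C.lev V 0) (fun _ => (1 : ℤ)) ⟨g, v⟩ := by
        intro g u v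
        by_cases hg : C.ht g = 0
        · rw [ext0_mem _ ⟨⟨g, u⟩, (hmem0 _).2 hg⟩, ext0_mem _ ⟨⟨g, v⟩, (hmem0 _).2 hg⟩]
        · rw [ext0_not _ fun h => hg ((hmem0 _).1 h), ext0_not _ fun h => hg ((hmem0 _).1 h)]
      have h2 : ∀ g u v s s', ext0 (C.lev V 0) (fun _ => (1 : ℤ)) ⟨g * C.gen u, s⟩ =
          ext0 (C.lev V 0) (fun _ => (1 : ℤ)) ⟨g * C.gen v, s'⟩ := by
        intro g u v s s'
        have e : C.ht (g * C.gen u) = C.ht (g * C.gen v) := by rw [ht_mul, ht_mul, ht_gen, ht_gen]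
        by_cases hg : C.ht (g * C.gen u) = 0
        · rw [ext0_mem _ ⟨⟨_, s⟩, (hmem0 _).2 hg⟩, ext0_mem _ ⟨⟨_, s'⟩, (hmem0 _).2 (e ▸ hg)⟩]
        · rw [ext0_not _ fun h => hg ((hmem0 _).1 h),
            ext0_not _ fun h => hg (e.trans ((hmem0 _).1 h))]
      rw [lc_res, d2, map_sub, lc_sub, lc_sub, h1 c.1.g c.1.s.v c.1.s.u,
        h2 c.1.g c.1.s.u c.1.s.v c.1.s.v c.1.s.u, sub_self]
    · refine exact_of_coch' f1 (fun _ => (Finsupp.single () 1 : Unit →₀ ℤ)) (fun A _ F hF => ?_)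
        z ?_
      · obtain ⟨a, ha⟩ := r0 A (ext0 _ F) (fun c hc => ext0_not F fun h => hc ((hmem0 c).1 h))
          fun s => by
            by_cases hs : s ∈ C.lev C.Ed 1
            · rw [← lc_res]
              exact hF ⟨s, hs⟩
            · exact C.lc_d2_out F hs
        refine ⟨fun _ => a, fun c => ?_⟩
        rw [lc_single_gen, ← ha c.1 ((hmem0 _).1 c.2), ext0_mem]
      · have h1 := Finsupp.apply_linearCombination ℤ (Finsupp.lsingle () : ℤ →ₗ[ℤ] (Unit →₀ ℤ))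
          (fun _ : C.lev V 0 => (1 : ℤ)) z
        rw [hz, map_zero] at h1
        exact h1.symm
  · intro n
    refine ⟨Finsupp.single ⟨⟨1, u0⟩, (hmem0 _).2 C.ht_one⟩ n, ?_⟩
    change Finsupp.linearCombination ℤ (fun _ : C.lev V 0 => (1 : ℤ)) _ = n
    rw [Finsupp.linearCombination_single]
    simp

end Cx

end Vale.Agent.P173F
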