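import Vale.Agent.P173F.Defs

/-! Statements about the level set of height one half. -/

namespace Vale.Agent.P173F

open Vale.Agent.P173

/-- The trivial module has a resolution of length two by finitely generated free modules. -/
def FL (Γ : Type) [Group Γ] : Prop :=
  ∃ (n₀ n₁ n₂ : ℕ) (d₂ : Rep.free ℤ Γ (Fin n₂) ⟶ Rep.free ℤ Γ (Fin n₁))
    (d₁ : Rep.free ℤ Γ (Fin n₁) ⟶ Rep.free ℤ Γ (Fin n₀))
    (ε : Rep.free ℤ Γ (Fin n₀) ⟶ Rep.trivial ℤ Γ ℤ),
    Function.Injective d₂.hom ∧ Function.Exact d₂.hom d₁.hom ∧ Function.Exact d₁.hom ε.hom ∧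
      Function.Surjective ε.hom

namespace Cx

variable {V : Type} [MulAction Q2 V] (C : Cx V)

/-- Relative cocycles on the edges that cross the level are constant. -/
def Rel0 : Prop := ∀ (A : Type) [AddCommGroup A] (F : C.Cell V → A),
  (∀ c, C.ht c.g ≠ 0 → F c = 0) → (∀ s, Finsupp.linearCombination ℤ F (C.d2 s) = 0) →
    ∃ a : A, ∀ c, C.ht c.g = 0 → F c = a

/-- Relative cocycles on the squares that cross the level are relative coboundaries. -/
def Rel1 : Prop := ∀ (A : Type) [AddCommGroup A] (F : C.Cell C.Ed → A),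
  (∀ c, ¬ (-1 ≤ C.ht c.g ∧ C.ht c.g ≤ 0) → F c = 0) →
  (∀ s, Finsupp.linearCombination ℤ F (C.d3 s) = 0) →
    ∃ K : C.Cell V → A, (∀ c, C.ht c.g ≠ 0 → K c = 0) ∧
      ∀ c, F c = Finsupp.linearCombination ℤ K (C.d2 c)

/-- Relative cochains on the cubes that cross the level are relative coboundaries. -/
def Rel2 : Prop := ∀ (A : Type) [AddCommGroup A] (F : C.Cell C.Tr → A),
  (∀ c, ¬ (-2 ≤ C.ht c.g ∧ C.ht c.g ≤ 0) → F c = 0) →
    ∃ K : C.Cell C.Ed → A, (∀ c, ¬ (-1 ≤ C.ht c.g ∧ C.ht c.g ≤ 0) → K c = 0) ∧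
      ∀ c, F c = Finsupp.linearCombination ℤ K (C.d3 c)

end Cx

end Vale.Agent.P173F
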