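import Vale.Agent.P173F.LevD
import Vale.Agent.P173F.Ftl

/-! Exactness of the relative cochain complex of the level set. -/

namespace Vale.Agent.P173F

open Vale.Agent.P173

/-- Extension of a solution downwards, one height at a time. -/
theorem ext_down {Y M : Type} (h : Y → ℤ) (P : Y → M → (Y → M) → Prop)
    (loc : ∀ y x K K', (∀ y', h y < h y' → K y' = K' y') → P y x K → P y x K')
    (step : ∀ y K, (∀ y', h y < h y' → P y' (K y') K) → ∃ x, P y x K)
    (n : ℤ) (K : Y → M) (hK : ∀ y, n ≤ h y → P y (K y) K) :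
    ∃ K' : Y → M, (∀ y, n ≤ h y → K' y = K y) ∧ ∀ y, P y (K' y) K' := by
  classical
  have one : ∀ (m : ℤ) (K : Y → M), (∀ y, m ≤ h y → P y (K y) K) →
      ∃ K' : Y → M, (∀ y, m ≤ h y → K' y = K y) ∧ ∀ y, m - 1 ≤ h y → P y (K' y) K' := by
    intro m K hK
    have hx : ∀ y, ∃ x, h y = m - 1 → P y x K := by
      intro y
      by_cases hy : h y = m - 1
      · obtain ⟨x, hx⟩ := step y K fun y' hy' => hK y' (by omega)
        exact ⟨x, fun _ => hx⟩
      · exact ⟨K y, fun h => absurd h hy⟩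
    choose x hx using hx
    refine ⟨fun y => if h y = m - 1 then x y else K y, fun y hy => if_neg (by omega),
      fun y hy => ?_⟩
    have e : ∀ y', h y < h y' → K y' = if h y' = m - 1 then x y' else K y' :=
      fun y' hy' => (if_neg (by omega)).symm
    by_cases hy' : h y = m - 1
    · simp only [if_pos hy']
      exact loc y _ K _ e (hx y hy')
    · simp only [if_neg hy']
      exact loc y _ K _ e (hK y (by omega))
  choose nx hnx1 hnx2 using one
  let sq : ∀ j : ℕ, {K : Y → M // ∀ y, n - j ≤ h y → P y (K y) K} := fun j =>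
    Nat.rec ⟨K, fun y hy => hK y (by simpa using hy)⟩
      (fun j p => ⟨nx (n - j) p.1 p.2, fun y hy => hnx2 _ _ _ y (by push_cast at hy; omega)⟩) j
  have hs : ∀ (j : ℕ) y, n - j ≤ h y → (sq (j + 1)).1 y = (sq j).1 y := fun j y hy =>
    hnx1 (n - j) (sq j).1 (sq j).2 y hy
  have hs' : ∀ (j i : ℕ) y, n - j ≤ h y → (sq (j + i)).1 y = (sq j).1 y := by
    intro j i y hy
    induction i with
    | zero => rfl
    | succ i ih => rw [← add_assoc, hs _ y (by push_cast; omega), ih]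
  refine ⟨fun y => (sq (n - h y).toNat).1 y, fun y hy => ?_, fun y => ?_⟩
  · have : (n - h y).toNat = 0 := by omega
    show (sq (n - h y).toNat).1 y = K y
    rw [this]
    rfl
  · refine loc y _ (sq (n - h y).toNat).1 _ (fun y' hy' => ?_) ((sq _).2 y (by omega))
    obtain ⟨i, hi⟩ : ∃ i, (n - h y).toNat = (n - h y').toNat + i :=
      ⟨(n - h y).toNat - (n - h y').toNat, by omega⟩
    rw [hi]
    exact hs' _ i y' (by omega)

namespace Cx

variable {V : Type} [MulAction Q2 V] (C : Cx V) {A : Type} [AddCommGroup A]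

/-- The inversion of the generators. -/
def iv : C.Raag →* C.Raag :=
  C.lift (fun v => (C.gen v)⁻¹) fun u v h => by
    rw [← mul_inv_rev, ← mul_inv_rev, C.gen_comm h]

theorem iv_gen (v : V) : C.iv (C.gen v) = (C.gen v)⁻¹ := C.lift_gen _ _ v

theorem iv_iv (g : C.Raag) : C.iv (C.iv g) = g := by
  have : C.iv.comp C.iv = MonoidHom.id _ := C.hom_ext fun v => by
    rw [MonoidHom.comp_apply, iv_gen, map_inv, iv_gen, inv_inv]; rfl
  exact DFunLike.congr_fun this g

theorem ht_iv (g : C.Raag) : C.ht (C.iv g) = - C.ht g := by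
  induction g using C.induction with
  | h1 => rw [map_one, ht_one, neg_zero]
  | hg v => rw [iv_gen, ht_inv]
  | hm a b ha hb => rw [map_mul, ht_mul, ht_mul, ha, hb, neg_add]
  | hi a ha => rw [map_inv, ht_inv, ht_inv, ha]

theorem ht_mul_gen (g : C.Raag) (v : V) : C.ht (g * C.gen v) = C.ht g + 1 := by
  rw [ht_mul, ht_gen]

theorem iv_mul_gen (g : C.Raag) (v : V) : C.iv (g * C.gen v) * C.gen v = C.iv g := by
  rw [map_mul, iv_gen, inv_mul_cancel_right]

/-- The coboundary of a cochain on the edges. -/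
def δ1 (K : C.Raag → V → A) (g : C.Raag) (u v : V) : A :=
  (K (g * C.gen u) v - K g v) - (K (g * C.gen v) u - K g u)

/-- The coboundary of a cochain on the squares. -/
def δ2 (b : C.Raag → C.Ed → A) (g : C.Raag) (t : C.Tr) : A :=
  (b (g * C.gen t.u) t.e0 - b g t.e0) - (b (g * C.gen t.v) t.e1 - b g t.e1) +
    (b (g * C.gen t.w) t.e2 - b g t.e2)

theorem const_up {M : Type} (hc : C.Conn) (u0 : V) (n : ℤ) (f : C.Raag → M)
    (hf : ∀ g, n ≤ C.ht g → ∀ v, f (g * C.gen v) = f g) : ∃ a, ∀ g, n ≤ C.ht g → f g = a := by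
  obtain ⟨f', h1, h2⟩ := ext_down C.ht (fun g x f => ∀ v, f (g * C.gen v) = x)
    (fun g x K K' e h v => by rw [← e _ (by rw [ht_mul_gen]; omega), h])
    (fun g K h => ⟨K (g * C.gen u0), fun v => hc (fun v => K (g * C.gen v) = K (g * C.gen u0))
      (fun u v huv hu => by
        rw [← hu, ← h (g * C.gen v) (by rw [ht_mul_gen]; omega) u,
          ← h (g * C.gen u) (by rw [ht_mul_gen]; omega) v, mul_assoc, mul_assoc, C.gen_comm huv])
      u0 v rfl⟩) n f hf
  exact ⟨f' 1, fun g hg => by rw [← h1 g hg]; exact C.coch_zero f' h2 g⟩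

theorem const_down {M : Type} (hc : C.Conn) (u0 : V) (f : C.Raag → M)
    (hf : ∀ g, C.ht g ≤ -1 → ∀ v, f (g * C.gen v) = f g) : ∃ a, ∀ g, C.ht g ≤ 0 → f g = a := by
  obtain ⟨a, ha⟩ := C.const_up hc u0 0 (fun g => f (C.iv g)) fun g hg v => by
    rw [← hf _ (by rw [ht_iv, ht_mul_gen]; omega) v, iv_mul_gen]
  exact ⟨a, fun g hg => by
    have := ha (C.iv g) (by rw [ht_iv]; omega)
    rwa [iv_iv] at this⟩

theorem cob_up1 (h1 : C.H1) (n : ℤ) (K : C.Raag → V → A)
    (hK : ∀ g, n ≤ C.ht g → ∀ u v, C.adj u v → C.δ1 K g u v = 0) :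
    ∃ f : C.Raag → A, ∀ g, n ≤ C.ht g → ∀ v, K g v = f (g * C.gen v) - f g := by
  obtain ⟨K', e1, e2⟩ := ext_down C.ht (fun g (x : V → A) K => ∀ u v, C.adj u v →
      (K (g * C.gen u) v - x v) - (K (g * C.gen v) u - x u) = 0)
    (fun g x K K' e h u v huv => by
      rw [← e _ (by rw [ht_mul_gen]; omega), ← e _ (by rw [ht_mul_gen]; omega), h u v huv])
    (fun g K h => by
      have sq : ∀ z a b, C.cl a b → K (g * C.gen z) b - K (g * C.gen z) a =
          K (g * C.gen z * C.gen a) b - K (g * C.gen z * C.gen b) a := by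
        rintro z a b (rfl | hab)
        · rw [sub_self, sub_self]
        · rw [← sub_eq_zero, ← neg_eq_zero, ← h (g * C.gen z) (by rw [ht_mul_gen]; omega) a b hab]
          abel
      obtain ⟨t, ht⟩ := h1 A (fun u v => K (g * C.gen u) v - K (g * C.gen v) u) (by
        intro u v w huv hvw huw
        have s1 := sq u w v (C.cl_symm hvw)
        have s2 := sq v u w huw
        have s3 := sq w v u (C.cl_symm huv)
        rw [mul_assoc g, C.gen_comm' huw, ← mul_assoc g] at s1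
        rw [mul_assoc g, ← C.gen_comm' huv, ← mul_assoc g] at s2
        rw [mul_assoc g (C.gen w) (C.gen v), ← C.gen_comm' hvw, ← mul_assoc g] at s3
        rw [← sub_eq_zero]
        have : K (g * C.gen u) v - K (g * C.gen v) u + (K (g * C.gen v) w - K (g * C.gen w) v) -
            (K (g * C.gen u) w - K (g * C.gen w) u) =
            (K (g * C.gen u) v - K (g * C.gen u) w) + (K (g * C.gen v) w - K (g * C.gen v) u) +
            (K (g * C.gen w) u - K (g * C.gen w) v) := by abel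
        rw [this, s1, s2, s3]
        abel)
      exact ⟨t, fun u v huv => by
        have := ht u v (Or.inr huv)
        rw [← sub_eq_zero] at this
        rw [← this]
        abel⟩) n K hK
  obtain ⟨f, hf⟩ := C.coch_one (fun c => K' c.g c.s) fun g e => e2 g e.u e.v e.huv
  exact ⟨f, fun g hg v => by rw [← e1 g hg]; exact hf g v⟩

theorem δ1_iv (K : C.Raag → V → A) (g : C.Raag) {u v : V} (h : C.adj u v) :
    C.δ1 (fun g v => K (C.iv (g * C.gen v)) v) g u v =
      - C.δ1 K (C.iv (g * C.gen u * C.gen v)) u v := by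
  have e : g * C.gen v * C.gen u = g * C.gen u * C.gen v := by
    rw [mul_assoc, mul_assoc, C.gen_comm h]
  have e1 : C.iv (g * C.gen u * C.gen v) * C.gen u = C.iv (g * C.gen v) := by
    rw [← e, iv_mul_gen]
  simp only [δ1]
  rw [e1, iv_mul_gen, e]
  abel

theorem cob_down1 (h1 : C.H1) (K : C.Raag → V → A)
    (hK : ∀ g, C.ht g ≤ -2 → ∀ u v, C.adj u v → C.δ1 K g u v = 0) :
    ∃ f : C.Raag → A, ∀ g, C.ht g ≤ -1 → ∀ v, K g v = f (g * C.gen v) - f g := by
  obtain ⟨f, hf⟩ := C.cob_up1 h1 0 (fun g v => K (C.iv (g * C.gen v)) v) fun g hg u v huv => by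
    rw [C.δ1_iv K g huv, hK _ (by rw [ht_iv, ht_mul_gen, ht_mul_gen]; omega) u v huv, neg_zero]
  refine ⟨fun g => - f (C.iv g), fun g hg v => ?_⟩
  have := hf (C.iv (g * C.gen v)) (by rw [ht_iv, ht_mul_gen]; omega) v
  simp only [iv_mul_gen, iv_iv] at this
  rw [this, neg_sub_neg]

theorem cob_up2 (h2 : C.Ret) (n : ℤ) (b : C.Raag → C.Ed → A)
    (hb : ∀ g, n ≤ C.ht g → ∀ t, C.δ2 b g t = 0) :
    ∃ K : C.Raag → V → A, ∀ g, n ≤ C.ht g → ∀ e, b g e = C.δ1 K g e.u e.v := by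
  obtain ⟨ρ, -, hρ⟩ := h2
  obtain ⟨b', e1, e2⟩ := ext_down C.ht (fun g (x : C.Ed → A) b => ∀ t : C.Tr,
      (b (g * C.gen t.u) t.e0 - x t.e0) - (b (g * C.gen t.v) t.e1 - x t.e1) +
        (b (g * C.gen t.w) t.e2 - x t.e2) = 0)
    (fun g x K K' e h t => by
      rw [← e _ (by rw [ht_mul_gen]; omega), ← e _ (by rw [ht_mul_gen]; omega),
        ← e _ (by rw [ht_mul_gen]; omega), h t])
    (fun g K _ => ⟨fun e => Finsupp.linearCombination ℤ (fun t : C.Tr =>
        K (g * C.gen t.u) t.e0 - K (g * C.gen t.v) t.e1 + K (g * C.gen t.w) t.e2) (ρ e), fun t => by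
      have := congrArg (Finsupp.linearCombination ℤ (fun t : C.Tr =>
        K (g * C.gen t.u) t.e0 - K (g * C.gen t.v) t.e1 + K (g * C.gen t.w) t.e2)) (hρ t)
      rw [map_add, map_sub, Finsupp.linearCombination_single, one_smul, ← sub_eq_zero] at this
      rw [← neg_eq_zero, ← this]
      abel⟩) n b hb
  obtain ⟨K, hK⟩ := C.coch_two (fun c => b' c.g c.s) e2
  exact ⟨fun g v => K v g, fun g hg e => by rw [← e1 g hg]; exact hK g e⟩

theorem cob_down2 (h2 : C.Ret) (b : C.Raag → C.Ed → A)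
    (hb : ∀ g, C.ht g ≤ -3 → ∀ t, C.δ2 b g t = 0) :
    ∃ K : C.Raag → V → A, ∀ g, C.ht g ≤ -2 → ∀ e, b g e = C.δ1 K g e.u e.v := by
  obtain ⟨K, hK⟩ := C.cob_up2 h2 0 (fun g e => b (C.iv (g * C.gen e.u * C.gen e.v)) e)
    fun g hg t => by
      have h0 := hb (C.iv (g * C.gen t.u * C.gen t.v * C.gen t.w))
        (by rw [ht_iv, ht_mul_gen, ht_mul_gen, ht_mul_gen]; omega) t
      have a1 : g * C.gen t.v * C.gen t.u = g * C.gen t.u * C.gen t.v := by
        rw [mul_assoc, mul_assoc, C.gen_comm t.huv]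
      have a2 : ∀ g, g * C.gen t.w * C.gen t.u = g * C.gen t.u * C.gen t.w := fun g => by
        rw [mul_assoc, mul_assoc, C.gen_comm t.huw]
      have a3 : ∀ g, g * C.gen t.w * C.gen t.v = g * C.gen t.v * C.gen t.w := fun g => by
        rw [mul_assoc, mul_assoc, C.gen_comm t.hvw]
      have b1 : C.iv (g * C.gen t.u * C.gen t.v * C.gen t.w) * C.gen t.u =
          C.iv (g * C.gen t.v * C.gen t.w) := by rw [← a1, ← a2, iv_mul_gen]
      have b2 : C.iv (g * C.gen t.u * C.gen t.v * C.gen t.w) * C.gen t.v =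
          C.iv (g * C.gen t.u * C.gen t.w) := by rw [← a3, iv_mul_gen]
      simp only [δ2] at h0 ⊢
      rw [b1, b2, iv_mul_gen] at h0
      show b (C.iv (g * C.gen t.u * C.gen t.v * C.gen t.w)) t.e0 -
          b (C.iv (g * C.gen t.v * C.gen t.w)) t.e0 -
        (b (C.iv (g * C.gen t.v * C.gen t.u * C.gen t.w)) t.e1 -
          b (C.iv (g * C.gen t.u * C.gen t.w)) t.e1) +
        (b (C.iv (g * C.gen t.w * C.gen t.u * C.gen t.v)) t.e2 -
          b (C.iv (g * C.gen t.u * C.gen t.v)) t.e2) = 0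
      rw [a1, a2, a3, ← neg_eq_zero, ← h0]
      abel
  refine ⟨fun g v => - K (C.iv (g * C.gen v)) v, fun g hg e => ?_⟩
  have h := hK (C.iv (g * C.gen e.u * C.gen e.v))
    (by rw [ht_iv, ht_mul_gen, ht_mul_gen]; omega) e
  have h' := C.δ1_iv K g e.huv
  have e1 : C.iv (C.iv (g * C.gen e.u * C.gen e.v) * C.gen e.u * C.gen e.v) = g := by
    rw [mul_assoc _ (C.gen e.u), C.gen_comm e.huv, ← mul_assoc, iv_mul_gen, iv_mul_gen, iv_iv]
  simp only [e1] at h
  rw [h, ← neg_neg (C.δ1 K _ _ _), ← h']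
  simp only [δ1]
  abel

theorem lc_d2 (F : C.Cell V → A) (g : C.Raag) (e : C.Ed) :
    Finsupp.linearCombination ℤ F (C.d2 ⟨g, e⟩) = C.δ1 (fun g v => F ⟨g, v⟩) g e.u e.v := by
  rw [d2, map_sub, lc_sub, lc_sub]
  rfl

theorem lc_d3 (F : C.Cell C.Ed → A) (g : C.Raag) (t : C.Tr) :
    Finsupp.linearCombination ℤ F (C.d3 ⟨g, t⟩) = C.δ2 (fun g e => F ⟨g, e⟩) g t := by
  rw [d3, map_add, map_sub, lc_sub, lc_sub, lc_sub]
  rfl

theorem rel0 (hc : C.Conn) (u0 : V) : C.Rel0 := by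
  intro A _ F h0 hF
  obtain ⟨f, hf⟩ := C.coch_one F fun g e => (C.lc_d2 F g e).symm.trans (hF ⟨g, e⟩)
  obtain ⟨a, ha⟩ := C.const_up hc u0 1 f fun g hg v =>
    sub_eq_zero.mp ((hf g v).symm.trans (h0 ⟨g, v⟩ (by show C.ht g ≠ 0; omega)))
  obtain ⟨a', ha'⟩ := C.const_down hc u0 f fun g hg v =>
    sub_eq_zero.mp ((hf g v).symm.trans (h0 ⟨g, v⟩ (by show C.ht g ≠ 0; omega)))
  refine ⟨a - a', fun ⟨g, v⟩ hg => ?_⟩
  have hg' : C.ht g = 0 := hg
  rw [hf, ha _ (by rw [ht_mul_gen]; omega), ha' g (by omega)]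

theorem rel1 (h1 : C.H1) : C.Rel1 := by
  intro A _ F h0 hF
  obtain ⟨K, hK⟩ := C.coch_two F fun g t => (C.lc_d3 F g t).symm.trans (hF ⟨g, t⟩)
  have hz : ∀ g, ¬ (-1 ≤ C.ht g ∧ C.ht g ≤ 0) → ∀ u v, C.adj u v →
      C.δ1 (fun g v => K v g) g u v = 0 := by
    intro g hg u v huv
    rcases lt_or_gt_of_ne (C.col_ne huv) with hlt | hlt
    · exact (hK g ⟨u, v, huv, hlt⟩).symm.trans (h0 ⟨g, _⟩ hg)
    · have := (hK g ⟨v, u, C.symm huv, hlt⟩).symm.trans (h0 ⟨g, _⟩ hg)
      rw [← neg_eq_zero, neg_sub] at this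
      exact this
  obtain ⟨f1, hf1⟩ := C.cob_up1 h1 1 (fun g v => K v g) fun g hg => hz g (by omega)
  obtain ⟨f2, hf2⟩ := C.cob_down1 h1 (fun g v => K v g) fun g hg => hz g (by omega)
  let f : C.Raag → A := fun g => if 1 ≤ C.ht g then f1 g else f2 g
  refine ⟨fun c => K c.s c.g - (f (c.g * C.gen c.s) - f c.g), fun ⟨g, v⟩ hg => ?_,
    fun ⟨g, e⟩ => ?_⟩
  · have hg' : C.ht g ≠ 0 := hg
    show K v g - (f (g * C.gen v) - f g) = 0
    simp only [f, ht_mul_gen]
    by_cases h : 1 ≤ C.ht g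
    · rw [if_pos h, if_pos (by omega), ← hf1 g h v, sub_self]
    · rw [if_neg h, if_neg (by omega), ← hf2 g (by omega) v, sub_self]
  · rw [lc_d2, hK]
    simp only [δ1]
    rw [mul_assoc g (C.gen e.v), ← C.gen_comm e.huv, ← mul_assoc]
    abel

theorem rel2 (h2 : C.Ret) (h3 : C.CubeRet) : C.Rel2 := by
  intro A _ F h0
  obtain ⟨r, -, hr⟩ := h3
  let b : C.Raag → C.Ed → A := fun g e => Finsupp.linearCombination ℤ F (r ⟨g, e⟩)
  have hb : ∀ g t, C.δ2 b g t = F ⟨g, t⟩ := by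
    intro g t
    have := congrArg (Finsupp.linearCombination ℤ F) (hr ⟨g, t⟩)
    rw [Finsupp.linearCombination_single, one_smul, lc_d3] at this
    rw [← this]
    simp only [δ2, b, map_add, map_sub]
  obtain ⟨K1, hK1⟩ := C.cob_up2 h2 1 b fun g hg t =>
    (hb g t).trans (h0 ⟨g, t⟩ (by show ¬ (-2 ≤ C.ht g ∧ C.ht g ≤ 0); omega))
  obtain ⟨K2, hK2⟩ := C.cob_down2 h2 b fun g hg t =>
    (hb g t).trans (h0 ⟨g, t⟩ (by show ¬ (-2 ≤ C.ht g ∧ C.ht g ≤ 0); omega))
  let K : C.Raag → V → A := fun g => if 1 ≤ C.ht g then K1 g else K2 g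
  refine ⟨fun c => b c.g c.s - C.δ1 K c.g c.s.u c.s.v, fun ⟨g, e⟩ hg => ?_, fun ⟨g, t⟩ => ?_⟩
  · have hg' : ¬ (-1 ≤ C.ht g ∧ C.ht g ≤ 0) := hg
    show b g e - C.δ1 K g e.u e.v = 0
    simp only [δ1, K, ht_mul_gen]
    by_cases h : 1 ≤ C.ht g
    · simp only [if_pos h, if_pos (show 1 ≤ C.ht g + 1 by omega)]
      rw [hK1 g h e]
      exact sub_self (C.δ1 K1 g e.u e.v)
    · simp only [if_neg h, if_neg (show ¬ 1 ≤ C.ht g + 1 by omega)]
      rw [hK2 g (by omega) e]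
      exact sub_self (C.δ1 K2 g e.u e.v)
  · rw [lc_d3, ← hb]
    have a1 : g * C.gen t.v * C.gen t.u = g * C.gen t.u * C.gen t.v := by
      rw [mul_assoc, mul_assoc, C.gen_comm t.huv]
    have a2 : g * C.gen t.w * C.gen t.u = g * C.gen t.u * C.gen t.w := by
      rw [mul_assoc, mul_assoc, C.gen_comm t.huw]
    have a3 : g * C.gen t.w * C.gen t.v = g * C.gen t.v * C.gen t.w := by
      rw [mul_assoc, mul_assoc, C.gen_comm t.hvw]
    simp only [δ2, δ1, Tr.e0, Tr.e1, Tr.e2]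
    rw [a1, a2, a3]
    abel

end Cx

end Vale.Agent.P173F
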