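import Vale.Agent.P173F.Defs
import Vale.Agent.P173FR.Rf

/-! The group is residually finite. -/

set_option linter.all false

namespace Vale.Agent.P173F.Cx

open Vale.Agent.P173FR

variable {V : Type} [MulAction Q2 V] (C : Cx V)

theorem isRaag : IsRaag C.adj C.gen :=
  ⟨fun _ _ h => C.gen_comm h, C.closure_gen, fun _ _ f hf => ⟨C.lift f hf, C.lift_gen f hf⟩⟩

theorem rf_hat (hl : C.LocFin) : Group.ResiduallyFinite C.Hat :=
  have := rf_free Bool
  C.isRaag.rf_wr C.act_gen (fun q _ _ h => C.adj_smul q h) fun s s' =>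
    ((hl s').insert s').preimage (f := fun q : Q2 => q • s) (fun q _ q' _ e =>
      (inv_mul_eq_one.1 (C.free _ s (by rw [mul_smul, inv_smul_eq_iff]; exact e.symm)))) |>.subset
      fun q hq => hq.imp id C.symm

theorem rf (hl : C.LocFin) : Group.ResiduallyFinite C.GG :=
  have := C.rf_hat hl
  inferInstance

end Vale.Agent.P173F.Cx
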