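import Vale.Agent.P173F.Geom
import Vale.Agent.P173F.Lat
import Vale.Agent.P173F.Cd
import Vale.Agent.P173F.Tree
import Vale.Agent.P173F.FG
import Vale.Agent.P173F.Rf
import Vale.Agent.P173.H312.Main

/-! Assembly for a general complex. -/

namespace Vale.Agent.P173F

open Vale.Agent.P173 CategoryTheory

universe u v

theorem latStmt : LatStmt := fun E hr hs S N hN ζ hζ lab hlab =>
  lattice_coc E hr hs S N hN ζ hζ lab hlab

namespace Cx

variable {V : Type} [MulAction Q2 V] (C : Cx V)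

theorem main (t : C.Tr) (hc : C.Conn) (hf : Cofin (V := V)) (hl : C.LocFin) (h1 : C.H1)
    (h2 : C.CubeRet) (h3 : C.Loc) :
    Group.FG C.GG ∧ Group.ResiduallyFinite C.GG ∧
      projectiveDimension (Rep.trivial ℤ C.GG ℤ) = 2 ∧ ¬ GdLE.{u, v} C.GG 2 ∧
      ¬ EmbedsInAspherical.{u, v} C.GG 2 ∧
      ∀ (H : Type) [Group H] (f : C.GG →* H), Function.Injective f → ¬ GdLE.{u, v} H 2 := by
  have h4 : ¬ EmbedsInAspherical.{u, v} C.GG 2 :=
    not_embedsInAspherical (C.not_aspherical latStmt hf hl h1 h3)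
  exact ⟨C.fg t.u hc hf hl, C.rf hl, C.cd_eq h2 C.pd_zero t,
    not_gdLE_of_injective h4 (MonoidHom.id _) Function.injective_id, h4,
    fun H _ f hf => not_gdLE_of_injective h4 f hf⟩

end Cx

end Vale.Agent.P173F
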