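import Vale.Agent.P173F.Defs

/-! The unipotent group of a filtered algebra is a tower of central extensions. -/

set_option linter.all false

namespace Vale.Agent.P173F

open Vale.Agent.P173 Vale.Agent.P173.Hol

theorem QNil.step {G B : Type} [Group G] [AddCommGroup B] [Module ℚ B] {N N' : Subgroup G}
    [N.Normal] [N'.Normal] (θ : N →* Multiplicative B) (hθ : Function.Surjective θ)
    (hle : N' ≤ N) (hk : ∀ u, θ u = 1 ↔ u.1 ∈ N')
    (hc : ∀ u ∈ N, ∀ g : G, ((u * g : G) : G ⧸ N') = (g * u : G)) (h : QNil (G ⧸ N)) :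
    QNil (G ⧸ N') := by
  let π : N →* G ⧸ N' := (QuotientGroup.mk' N').comp N.subtype
  let ι := θ.liftOfSurjective hθ ⟨π, fun u hu => (QuotientGroup.eq_one_iff _).2 ((hk u).1 hu)⟩
  have hι : ∀ u, ι (θ u) = (u.1 : G ⧸ N') := fun u => θ.liftOfRightInverse_comp_apply _ _ _ u
  refine QNil.ext _ _ B (QuotientGroup.map N' N (MonoidHom.id G) hle) ι (fun a => ?_)
    ((injective_iff_map_eq_one _).2 fun b hb => ?_) (fun a => ?_) (fun b a => ?_) h
  · obtain ⟨g, rfl⟩ := QuotientGroup.mk_surjective a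
    exact ⟨g, rfl⟩
  · obtain ⟨u, rfl⟩ := hθ b
    exact (hk u).2 ((QuotientGroup.eq_one_iff _).1 ((hι u).symm.trans hb))
  · obtain ⟨g, rfl⟩ := QuotientGroup.mk_surjective a
    refine (QuotientGroup.eq_one_iff (N := N) g).trans ⟨fun hg => ⟨θ ⟨g, hg⟩, hι _⟩, ?_⟩
    rintro ⟨b, hb⟩
    obtain ⟨u, rfl⟩ := hθ b
    simpa using N.mul_mem u.2 (hle (QuotientGroup.eq.1 ((hι u).symm.trans hb)))
  · obtain ⟨u, rfl⟩ := hθ b
    obtain ⟨g, rfl⟩ := QuotientGroup.mk_surjective a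
    rw [hι]
    exact hc _ u.2 g

theorem QNil.of_inj {G U : Type} [Group G] [Group U] (p : G →* U) (hp : Function.Bijective p)
    (h : QNil U) : QNil G :=
  QNil.ext G U Unit p 1 hp.2 (fun _ _ _ => rfl)
    (fun a => ⟨fun e => ⟨1, ((injective_iff_map_eq_one p).1 hp.1 a e).symm⟩,
      fun ⟨_, e⟩ => e ▸ map_one p⟩) (fun _ a => (one_mul a).trans (mul_one a).symm) h

variable {A : Type} [Ring A] [Algebra ℚ A] (F : Filt A)

theorem unit_mul {k : ℕ} {u : Aˣ} (hu : u ∈ F.U 1 le_rfl) {b : A} (hb : b ∈ F.J (k + 1)) :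
    (u : A) * b ∈ F.J (k + 1) := by
  simpa using add_mem (F.anti _ (F.unit_mul_sub (Nat.le_add_left 1 k) hu hb)) hb

theorem mul_unit {k : ℕ} {u : Aˣ} (hu : u ∈ F.U 1 le_rfl) {b : A} (hb : b ∈ F.J (k + 1)) :
    b * (u : A) ∈ F.J (k + 1) := by
  simpa using add_mem (F.anti _ (F.mul_unit_sub (Nat.le_add_left 1 k) hu hb)) hb

/-- the congruence subgroups -/
def Nk (k : ℕ) : Subgroup (F.U 1 le_rfl) := (F.U (k + 1) (Nat.le_add_left 1 k)).subgroupOf _

theorem mem_Nk {k : ℕ} {u : F.U 1 le_rfl} : u ∈ Nk F k ↔ (u.1 : A) - 1 ∈ F.J (k + 1) := Iff.rfl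

instance (k : ℕ) : (Nk F k).Normal := ⟨fun u hu g => (mem_Nk F).2 (by
  have h := mul_unit F g⁻¹.2 (unit_mul F g.2 ((mem_Nk F).1 hu))
  rwa [mul_sub, sub_mul, mul_one, ← Units.val_mul, ← Units.val_mul, ← Units.val_mul,
    Subgroup.coe_inv, mul_inv_cancel] at h)⟩

theorem qnil_quot (k : ℕ) : QNil (F.U 1 le_rfl ⧸ Nk F k) := by
  induction k with
  | zero =>
    refine QNil.triv _ fun a => ?_
    obtain ⟨g, rfl⟩ := QuotientGroup.mk_surjective a
    exact (QuotientGroup.eq_one_iff g).2 g.2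
  | succ k ih =>
    refine QNil.step (B := (F.J (k + 1)).map (F.J (k + 2)).mkQ) (MonoidHom.mk' (fun u =>
      Multiplicative.ofAdd ⟨(F.J (k + 2)).mkQ ((u.1.1 : A) - 1), _, u.2, rfl⟩) fun u v => ?_)
      ?_ (fun u hu => F.anti _ hu) (fun u => ?_) (fun u hu g => QuotientGroup.eq.2 ?_) ih
    · refine congrArg Multiplicative.ofAdd (Subtype.ext ?_)
      change (F.J (k + 2)).mkQ _ = (F.J (k + 2)).mkQ _ + (F.J (k + 2)).mkQ _
      rw [← map_add, Submodule.mkQ_apply, Submodule.mkQ_apply, Submodule.Quotient.eq]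
      have h := F.mul_mem _ 1 (Nat.le_add_left 1 k) le_rfl _ ((mem_Nk F).1 u.2) _ v.1.2
      refine (congrArg (· ∈ F.J (k + 2)) ?_).mp h
      simp only [Subgroup.coe_mul, Units.val_mul]
      noncomm_ring
    · rintro ⟨_, a, ha, rfl⟩
      obtain ⟨u, hu⟩ := F.isUnit_one_sub (Nat.le_add_left 1 k) (neg_mem ha)
      have h : (u : A) - 1 = a := by rw [hu]; abel
      exact ⟨⟨⟨u, F.anti' (Nat.le_add_left 1 k) (h ▸ ha)⟩, (mem_Nk F).2 (h ▸ ha)⟩,
        congrArg Multiplicative.ofAdd (Subtype.ext (congrArg (F.J (k + 2)).mkQ h))⟩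
    · exact (ofAdd_eq_one.trans Subtype.ext_iff).trans (Submodule.Quotient.mk_eq_zero _)
    · have hu' := (mem_Nk F).1 hu
      have h := unit_mul F (u * g)⁻¹.2 (sub_mem (F.unit_mul_sub (Nat.le_add_left 1 k) g.2 hu')
        (F.mul_unit_sub (Nat.le_add_left 1 k) g.2 hu'))
      refine (mem_Nk F).2 ((congrArg (· ∈ F.J (k + 2)) ?_).mp h)
      conv_rhs => rw [← Units.inv_mul (u * g).1]
      simp only [Subgroup.coe_mul, Subgroup.coe_inv, Units.val_mul]
      noncomm_ring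

theorem qnil_of_filt : QNil (F.U 1 le_rfl) :=
  QNil.of_inj (QuotientGroup.mk' (Nk F F.N)) ⟨(injective_iff_map_eq_one _).2 fun u hu =>
    Subtype.ext (Units.ext (sub_eq_zero.1 ((Submodule.mem_bot ℚ).1
      (F.eq_bot ▸ F.anti _ ((QuotientGroup.eq_one_iff u).1 hu))))),
    QuotientGroup.mk'_surjective _⟩ (qnil_quot F _)

end Vale.Agent.P173F
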