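import Vale.Agent.P173.GdDefs

/-! Finite free resolutions of length two. -/

namespace Vale.Agent.P173F

open CategoryTheory

/-- The map of sets underlying a homomorphism of `ℤ[Γ]`-modules. -/
def fn {Γ : Type} [Group Γ] {A B : Rep.{0} ℤ Γ} (f : A ⟶ B) : A.V → B.V := f.hom

/-- The sequence `0 → A → B → C → D → 0` of `ℤ[Γ]`-modules is exact. -/
def IsExactSeq {Γ : Type} [Group Γ] {A B C D : Rep.{0} ℤ Γ} (f : A ⟶ B) (g : B ⟶ C)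
    (e : C ⟶ D) : Prop :=
  Function.Injective (fn f) ∧ Function.Exact (fn f) (fn g) ∧ Function.Exact (fn g) (fn e) ∧
    Function.Surjective (fn e)

/-- The trivial module `ℤ` has a resolution `0 → ℤ[Γ]^n₂ → ℤ[Γ]^n₁ → ℤ[Γ]^n₀ → ℤ → 0` by free
modules of finite rank. -/
def HasFiniteFreeResolutionTwo (Γ : Type) [Group Γ] : Prop :=
  ∃ (n₀ n₁ n₂ : ℕ) (d₂ : Rep.free ℤ Γ (Fin n₂) ⟶ Rep.free ℤ Γ (Fin n₁))
    (d₁ : Rep.free ℤ Γ (Fin n₁) ⟶ Rep.free ℤ Γ (Fin n₀))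
    (ε : Rep.free ℤ Γ (Fin n₀) ⟶ Rep.trivial ℤ Γ ℤ), IsExactSeq d₂ d₁ ε

end Vale.Agent.P173F
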